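import Vale.Agent.P050.ChkSound
import Vale.Agent.P050.Chk.RunS
import Vale.Agent.P050.Chk.Run0
import Vale.Agent.P050.Chk.Run1
import Vale.Agent.P050.Chk.Run2
import Vale.Agent.P050.Chk.Run3
import Vale.Agent.P050.Chk.Run4
import Vale.Agent.P050.Chk.Run5
import Vale.Agent.P050.Chk.Run6
import Vale.Agent.P050.Chk.Run7

namespace Vale.Agent.P050

open Chk

theorem mainCK_true (c k : ℕ) (h1 : c ≤ k) (h2 : k ≤ 10) : mainCK c k = true := by
  have h3 : c ≤ 10 := h1.trans h2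
  interval_cases c <;> interval_cases k
  · exact main_0_0
  · exact main_0_1
  · exact main_0_2
  · exact main_0_3
  · exact main_0_4
  · exact main_0_5
  · exact main_0_6
  · exact main_0_7
  · exact main_0_8
  · exact main_0_9
  · exact main_0_10
  · exact main_1_1
  · exact main_1_2
  · exact main_1_3
  · exact main_1_4
  · exact main_1_5
  · exact main_1_6
  · exact main_1_7
  · exact main_1_8
  · exact main_1_9
  · exact main_1_10
  · exact main_2_2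
  · exact main_2_3
  · exact main_2_4
  · exact main_2_5
  · exact main_2_6
  · exact main_2_7
  · exact main_2_8
  · exact main_2_9
  · exact main_2_10
  · exact main_3_3
  · exact main_3_4
  · exact main_3_5
  · exact main_3_6
  · exact main_3_7
  · exact main_3_8
  · exact main_3_9
  · exact main_3_10
  · exact main_4_4
  · exact main_4_5
  · exact main_4_6
  · exact main_4_7
  · exact main_4_8
  · exact main_4_9
  · exact main_4_10
  · exact main_5_5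
  · exact main_5_6
  · exact main_5_7
  · exact main_5_8
  · exact main_5_9
  · exact main_5_10
  · exact main_6_6
  · exact main_6_7
  · exact main_6_8
  · exact main_6_9
  · exact main_6_10
  · exact main_7_7
  · exact main_7_8
  · exact main_7_9
  · exact main_7_10
  · exact main_8_8
  · exact main_8_9
  · exact main_8_10
  · exact main_9_9
  · exact main_9_10
  · exact main_10_10

theorem range_valid {c a b d : ℕ} (h : Valid 10 c a b d) :
    d < mnG Nat.sub 11 (Nat.sub (Nat.add 11 (Nat.mul 2 c)) (Nat.add a b)) := by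
  obtain ⟨h1, h2, h3, h4, h5, h6, h7⟩ := h
  simp only [mnG_eq, nadd, nsub, nmul, lt_min_iff]
  constructor <;> omega

theorem mainAt_true {c a b d : ℕ} (h : Valid 10 c a b d) : mainAt c a b d = true := by
  have h0 := mainCK_true c a h.1 h.2.2.2.1
  unfold mainCK allR at h0
  have h1 := allG_spec h0 b h.2.1 (Nat.lt_succ_of_le h.2.2.2.2.1)
  unfold mainK allR at h1
  exact allG_spec h1 d h.2.2.1 (range_valid h)

theorem tabAt_true {c a b d : ℕ} (h : Valid 10 c a b d) : tabAt c a b d = true := by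
  have h00 := tabOK_true
  unfold tabOK allR at h00
  have h0 := allG_spec h00 c (Nat.zero_le _) (Nat.lt_succ_of_le (h.1.trans h.2.2.2.1))
  have h1 := allG_spec h0 a h.1 (Nat.lt_succ_of_le h.2.2.2.1)
  have h2 := allG_spec h1 b h.2.1 (Nat.lt_succ_of_le h.2.2.2.2.1)
  exact allG_spec h2 d h.2.2.1 (range_valid h)

theorem is5_eq (r : ℕ) : is5 r = if r = 5 then 15 else 0 := by
  unfold is5
  by_cases h : r = 5
  · subst h; rfl
  · rw [if_neg h, show Nat.beq r 5 = false from by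
      cases hb : Nat.beq r 5 with
      | false => rfl
      | true => exact absurd (Nat.eq_of_beq_eq_true hb) h]
    rfl

theorem tab_spec {c a b d : ℕ} (h : Valid 10 c a b d) :
    tA c a b d = ph c a b d * 1100586418177 + ps1 c a b d * 1024
      + (is5 b + is5 d) * 1125899906842624 ∧
    tC c a b d = ph c a b d * 1025 + ps2 c a b d * 1048576 + ps3 c a b d * 1073741824
      + ps4 c a b d * 1099511627776 ∧
    tgtH c a b d = ps1 c a b d + ps2 c a b d * 1024 + ps3 c a b d * 1048576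
      + ps4 c a b d * 1073741824 + ps5 c a b d * 1099511627776 + 72681626537614903 ∧
    ph c a b d ≤ 127 ∧ ps1 c a b d ≤ 127 ∧ ps2 c a b d ≤ 127 ∧ ps3 c a b d ≤ 127 ∧
    ps4 c a b d ≤ 127 ∧ ps5 c a b d ≤ 127 := by
  have h0 := tabAt_true h
  unfold tabAt at h0
  simp only [Bool.and_eq_true, Nat.beq_eq, Nat.ble_eq] at h0
  tauto

theorem brec_and {a b : Bool} (h : Bool.rec (motive := fun _ => Bool) false b a = true) :
    a = true ∧ b = true := by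
  cases a
  · exact absurd h (by simp)
  · exact ⟨rfl, h⟩

theorem brec_imp {a b : Bool} (h : Bool.rec (motive := fun _ => Bool) true b a = true)
    (ha : a = true) : b = true := by
  subst ha; exact h

theorem bit_of_land {D H k : ℕ} (h : Nat.land D H = H) (hk : H / 2 ^ k % 2 = 1) :
    D / 2 ^ k % 2 = 1 := by
  have h1 : (D &&& H).testBit k = H.testBit k := by
    have : D &&& H = H := h
    rw [this]
  rw [Nat.testBit_and, Nat.testBit_eq_decide_div_mod_eq, Nat.testBit_eq_decide_div_mod_eq] at h1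
  simp only [hk, decide_true, Bool.and_true, decide_eq_true_eq] at h1
  exact h1

theorem digits_le (d0 d1 d2 d3 d4 n D : ℕ) (h0 : d0 < 1024) (h1 : d1 < 1024) (h2 : d2 < 1024)
    (h3 : d3 < 1024) (h4 : d4 < 1024)
    (hD : D = d0 + d1 * 1024 + d2 * 1048576 + d3 * 1073741824 + d4 * 1099511627776
      + n * 1125899906842624)
    (h : Nat.land D 563500246630912 = 563500246630912) :
    512 ≤ d0 ∧ 512 ≤ d1 ∧ 512 ≤ d2 ∧ 512 ≤ d3 ∧ 512 ≤ d4 := by
  have b0 := bit_of_land (k := 9) h (by norm_num)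
  have b1 := bit_of_land (k := 19) h (by norm_num)
  have b2 := bit_of_land (k := 29) h (by norm_num)
  have b3 := bit_of_land (k := 39) h (by norm_num)
  have b4 := bit_of_land (k := 49) h (by norm_num)
  clear h
  norm_num at b0 b1 b2 b3 b4
  refine ⟨?_, ?_, ?_, ?_, ?_⟩
  · clear b1 b2 b3 b4; omega
  · clear b0 b2 b3 b4; omega
  · clear b0 b1 b3 b4; omega
  · clear b0 b1 b2 b4; omega
  · clear b0 b1 b2 b3; omega

theorem leaf_sound {t0 t1 t2 t3 t4 t5 th u12 u13 u23 k12 k13 k23 r1 r2 r3 e : ℕ}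
    (hA : Valid 10 u12 k12 r1 r2) (hB : Valid 10 u13 k13 r1 r3) (hC : Valid 10 u23 k23 r2 r3)
    (hth : th = t1 + t2 * 1024 + t3 * 1048576 + t4 * 1073741824 + t5 * 1099511627776
      + 72680525951195702)
    (b1 : t1 ≤ 128) (b2 : t2 ≤ 128) (b3 : t3 ≤ 128) (b4 : t4 ≤ 128) (b5 : t5 ≤ 128)
    (h : leafG Nat.add Nat.sub Nat.mul Nat.mod Nat.shiftRight Nat.land Nat.ble Nat.beq t0 th
      (tA u12 k12 r1 r2) (rowC u13 k13) (rowC u23 k23) r1 r2 r3 e = true) :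
    (e + ph u12 k12 r1 r2 + ph u13 k13 r1 r3 + ph u23 k23 r2 r3 ≤ 54 + t1 ∧
      e + ps1 u12 k12 r1 r2 + ph u13 k13 r1 r3 + ph u23 k23 r2 r3 ≤ 54 + t2 ∧
      e + ph u12 k12 r1 r2 + ph u13 k13 r1 r3 + ps2 u23 k23 r2 r3 ≤ 54 + t3 ∧
      e + ph u12 k12 r1 r2 + ph u13 k13 r1 r3 + ps3 u23 k23 r2 r3 ≤ 54 + t4 ∧
      e + ph u12 k12 r1 r2 + ph u13 k13 r1 r3 + ps4 u23 k23 r2 r3 ≤ 54 + t5) ∧
    (30 ≤ is5 r1 + is5 r2 + is5 r3 → e + (is5 r1 + is5 r2 + is5 r3) ≤ t0) := by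
  obtain ⟨a1, -, -, a2, a3, -⟩ := tab_spec hA
  obtain ⟨-, -, -, c0, -⟩ := tab_spec hB
  obtain ⟨-, c1, -, c2, -, c3, c4, c5, -⟩ := tab_spec hC
  unfold leafG at h
  obtain ⟨he, h⟩ := brec_and h
  obtain ⟨hl, hf⟩ := brec_and h
  have he' : e ≤ 127 := Nat.le_of_ble_eq_true he
  have hl' : Nat.land (th - (tA u12 k12 r1 r2 + tC u23 k23 r2 r3
      + (e + ph u13 k13 r1 r3) * 1100586419201)) 563500246630912 = 563500246630912 :=
    Nat.eq_of_beq_eq_true hl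
  have i1 : is5 r1 ≤ 15 := by rw [is5_eq]; split_ifs <;> omega
  have i2 : is5 r2 ≤ 15 := by rw [is5_eq]; split_ifs <;> omega
  have i3 : is5 r3 ≤ 15 := by rw [is5_eq]; split_ifs <;> omega
  constructor
  · clear hf hl he h
    generalize tA u12 k12 r1 r2 = xA at *
    generalize tC u23 k23 r2 r3 = xC at *
    generalize ph u12 k12 r1 r2 = fA at *
    generalize ps1 u12 k12 r1 r2 = pA at *
    generalize ph u13 k13 r1 r3 = fB at *
    generalize ph u23 k23 r2 r3 = fC at *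
    generalize ps2 u23 k23 r2 r3 = p2 at *
    generalize ps3 u23 k23 r2 r3 = p3 at *
    generalize ps4 u23 k23 r2 r3 = p4 at *
    generalize is5 r1 = j1 at *
    generalize is5 r2 = j2 at *
    obtain ⟨d0, hd0⟩ : ∃ d, d + (e + fA + fB + fC) = t1 + 566 := ⟨t1 + 566 - (e + fA + fB + fC), by
      clear * - he' a2 c0 c2; omega⟩
    obtain ⟨d1, hd1⟩ : ∃ d, d + (e + pA + fB + fC) = t2 + 566 := ⟨t2 + 566 - (e + pA + fB + fC), by
      clear * - he' a3 c0 c2; omega⟩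
    obtain ⟨d2, hd2⟩ : ∃ d, d + (e + fA + fB + p2) = t3 + 566 := ⟨t3 + 566 - (e + fA + fB + p2), by
      clear * - he' a2 c0 c3; omega⟩
    obtain ⟨d3, hd3⟩ : ∃ d, d + (e + fA + fB + p3) = t4 + 566 := ⟨t4 + 566 - (e + fA + fB + p3), by
      clear * - he' a2 c0 c4; omega⟩
    obtain ⟨d4, hd4⟩ : ∃ d, d + (e + fA + fB + p4) = t5 + 566 := ⟨t5 + 566 - (e + fA + fB + p4), by
      clear * - he' a2 c0 c5; omega⟩
    obtain ⟨n, hn⟩ : ∃ n, n + (j1 + j2) = 64 := ⟨64 - (j1 + j2), by clear * - i1 i2; omega⟩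
    have := digits_le d0 d1 d2 d3 d4 n _ (by clear * - hd0 b1; omega) (by clear * - hd1 b2; omega)
      (by clear * - hd2 b3; omega) (by clear * - hd3 b4; omega) (by clear * - hd4 b5; omega)
      (Nat.sub_eq_of_eq_add (by
        clear * - hd0 hd1 hd2 hd3 hd4 hn a1 c1 hth
        subst a1 c1 hth
        linarith)) hl'
    clear * - this hd0 hd1 hd2 hd3 hd4
    omega
  · intro h30
    have hm : 1125899906842624 ≤ tA u12 k12 r1 r2 := by
      clear * - a1 h30 i3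
      omega
    have hf2 := brec_imp hf (Nat.ble_eq_true_of_le hm)
    have hsh : Nat.shiftRight (tA u12 k12 r1 r2) 50 = is5 r1 + is5 r2 := by
      show tA u12 k12 r1 r2 >>> 50 = _
      rw [Nat.shiftRight_eq_div_pow]
      clear * - a1 a2 a3
      omega
    have hn : Nat.add (Nat.shiftRight (tA u12 k12 r1 r2) 50) (is5 r3)
        = is5 r1 + is5 r2 + is5 r3 := by rw [hsh]; rfl
    have hf3 := brec_imp hf2 (Nat.ble_eq_true_of_le (show 30 ≤ Nat.add
      (Nat.shiftRight (tA u12 k12 r1 r2) 50) (is5 r3) from hn ▸ h30))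
    have hf4 : e + Nat.add (Nat.shiftRight (tA u12 k12 r1 r2) 50) (is5 r3) ≤ t0 :=
      Nat.le_of_ble_eq_true hf3
    rw [hn] at hf4
    exact hf4

/-- Integer valued tables on the invariants of a triple. -/
abbrev Tab : Type := ℕ → ℕ → ℕ → ℕ → ℤ

/-- The table `T`, lowered to `-1` at the generic triple if the flag is set. -/
def dz (f : Bool) (T : ℕ → ℕ → ℕ → ℕ → ℕ) : Tab := fun c a b d =>
  if f = true ∧ a = 0 ∧ b = 0 ∧ d = 0 then -1 else T c a b d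

/-- The inequality that bounds one subdivision step at given invariants. -/
def ChkAt (c k12 k13 k23 : ℕ) (A B C : Tab) (E : ℤ) : Prop :=
  ∀ p, Feas 10 c k12 k13 k23 p → expo 10 c k12 k13 k23 p - 55 + A p.u12 k12 p.r1 p.r2
    + B p.u13 k13 p.r1 p.r3 + C p.u23 k23 p.r2 p.r3 ≤ E

theorem main_raw {c k12 k13 k23 : ℕ} (hv : Valid 10 c k12 k13 k23) (p : Prof)
    (hp : Feas 10 c k12 k13 k23 p) : ∃ e : ℕ, expo 10 c k12 k13 k23 p ≤ e ∧
    (e + ph p.u12 k12 p.r1 p.r2 + ph p.u13 k13 p.r1 p.r3 + ph p.u23 k23 p.r2 p.r3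
        ≤ 55 + ps1 c k12 k13 k23 ∧
      e + ps1 p.u12 k12 p.r1 p.r2 + ph p.u13 k13 p.r1 p.r3 + ph p.u23 k23 p.r2 p.r3
        ≤ 55 + ps2 c k12 k13 k23 ∧
      e + ph p.u12 k12 p.r1 p.r2 + ph p.u13 k13 p.r1 p.r3 + ps2 p.u23 k23 p.r2 p.r3
        ≤ 55 + ps3 c k12 k13 k23 ∧
      e + ph p.u12 k12 p.r1 p.r2 + ph p.u13 k13 p.r1 p.r3 + ps3 p.u23 k23 p.r2 p.r3
        ≤ 55 + ps4 c k12 k13 k23 ∧
      e + ph p.u12 k12 p.r1 p.r2 + ph p.u13 k13 p.r1 p.r3 + ps4 p.u23 k23 p.r2 p.r3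
        ≤ 55 + ps5 c k12 k13 k23) ∧
    (30 ≤ is5 p.r1 + is5 p.r2 + is5 p.r3 →
      e + (is5 p.r1 + is5 p.r2 + is5 p.r3) ≤ 55 + ph c k12 k13 k23) := by
  have h := mainAt_true hv
  unfold mainAt at h
  rw [fastG_eq] at h
  obtain ⟨e, he, hl⟩ := core_sound c k12 k13 k23 _ h p hp
  obtain ⟨-, -, hth, -, b1, b2, b3, b4, b5⟩ := tab_spec hv
  have := leaf_sound (t1 := ps1 c k12 k13 k23 + 1) (t2 := ps2 c k12 k13 k23 + 1)
    (t3 := ps3 c k12 k13 k23 + 1) (t4 := ps4 c k12 k13 k23 + 1) (t5 := ps5 c k12 k13 k23 + 1)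
    hp.1 hp.2.1 hp.2.2.1 (hth.trans (by ring)) (Nat.succ_le_succ b1) (Nat.succ_le_succ b2)
    (Nat.succ_le_succ b3) (Nat.succ_le_succ b4) (Nat.succ_le_succ b5) hl
  obtain ⟨⟨q1, q2, q3, q4, q5⟩, q6⟩ := this
  refine ⟨e, he, ⟨?_, ?_, ?_, ?_, ?_⟩, q6⟩
  · clear * - q1; omega
  · clear * - q2; omega
  · clear * - q3; omega
  · clear * - q4; omega
  · clear * - q5; omega

theorem deg_raw (p : Prof) (hp : Feas 10 0 0 0 0 p) (hr : p.r1 + p.r2 + p.r3 ≠ 0) :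
    ∃ e : ℕ, expo 10 0 0 0 0 p ≤ e ∧
    (e + ph p.u12 0 p.r1 p.r2 + ph p.u13 0 p.r1 p.r3 + ph p.u23 0 p.r2 p.r3 ≤ 54 ∧
      e + ps1 p.u12 0 p.r1 p.r2 + ph p.u13 0 p.r1 p.r3 + ph p.u23 0 p.r2 p.r3 ≤ 54 ∧
      e + ph p.u12 0 p.r1 p.r2 + ph p.u13 0 p.r1 p.r3 + ps2 p.u23 0 p.r2 p.r3 ≤ 54 ∧
      e + ph p.u12 0 p.r1 p.r2 + ph p.u13 0 p.r1 p.r3 + ps3 p.u23 0 p.r2 p.r3 ≤ 54 ∧
      e + ph p.u12 0 p.r1 p.r2 + ph p.u13 0 p.r1 p.r3 + ps4 p.u23 0 p.r2 p.r3 ≤ 54) := by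
  have h := degOK_true
  unfold degOK at h
  obtain ⟨e, he, hl⟩ := core_sound 0 0 0 0 _ h p hp
  rw [Bool.or_eq_true] at hl
  rcases hl with hl | hl
  · exact absurd (Nat.eq_of_beq_eq_true hl) hr
  · exact ⟨e, he, (leaf_sound (t1 := 0) (t2 := 0) (t3 := 0) (t4 := 0) (t5 := 0)
      hp.1 hp.2.1 hp.2.2.1 (by norm_num) (by norm_num) (by norm_num) (by norm_num) (by norm_num)
      (by norm_num) hl).1⟩

theorem zero_raw : ph 0 0 0 0 = 0 ∧ ps1 0 0 0 0 = 0 ∧ ps2 0 0 0 0 = 0 ∧ ps3 0 0 0 0 = 0 ∧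
    ps4 0 0 0 0 = 0 ∧ ps5 0 0 0 0 = 0 := by
  have h := zeroOK_true
  unfold zeroOK at h
  have h2 := Nat.eq_of_beq_eq_true h
  omega

theorem dz_le (f : Bool) (T : ℕ → ℕ → ℕ → ℕ → ℕ) (c a b d : ℕ) : dz f T c a b d ≤ T c a b d := by
  unfold dz
  split_ifs
  · omega
  · exact le_refl _

theorem dz_zero {f : Bool} (hf : f = true) (T : ℕ → ℕ → ℕ → ℕ → ℕ) (c : ℕ) :
    dz f T c 0 0 0 = -1 := by
  unfold dz
  rw [if_pos ⟨hf, rfl, rfl, rfl⟩]

theorem chk_dz (A B C T : ℕ → ℕ → ℕ → ℕ → ℕ) (hA : A 0 0 0 0 = 0) (hB : B 0 0 0 0 = 0)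
    (hC : C 0 0 0 0 = 0) (hT : T 0 0 0 0 = 0)
    (hraw : ∀ c k12 k13 k23, Valid 10 c k12 k13 k23 → ∀ p, Feas 10 c k12 k13 k23 p →
      ∃ e : ℕ, expo 10 c k12 k13 k23 p ≤ e ∧ e + A p.u12 k12 p.r1 p.r2 + B p.u13 k13 p.r1 p.r3
        + C p.u23 k23 p.r2 p.r3 ≤ 55 + T c k12 k13 k23)
    (hdeg : ∀ p, Feas 10 0 0 0 0 p → p.r1 + p.r2 + p.r3 ≠ 0 →
      ∃ e : ℕ, expo 10 0 0 0 0 p ≤ e ∧ e + A p.u12 0 p.r1 p.r2 + B p.u13 0 p.r1 p.r3
        + C p.u23 0 p.r2 p.r3 ≤ 54)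
    (fA fB fC : Bool) (c k12 k13 k23 : ℕ) (hv : Valid 10 c k12 k13 k23) :
    ChkAt c k12 k13 k23 (dz fA A) (dz fB B) (dz fC C)
      (dz (fA || fB || fC) T c k12 k13 k23) := by
  intro p hp
  have a1 := dz_le fA A p.u12 k12 p.r1 p.r2
  have a2 := dz_le fB B p.u13 k13 p.r1 p.r3
  have a3 := dz_le fC C p.u23 k23 p.r2 p.r3
  obtain ⟨e, he, hraw'⟩ := hraw c k12 k13 k23 hv p hp
  by_cases h0 : (fA || fB || fC) = true ∧ k12 = 0 ∧ k13 = 0 ∧ k23 = 0
  · obtain ⟨hf, rfl, rfl, rfl⟩ := h0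
    have hc : c = 0 := Nat.le_zero.1 hv.1
    subst hc
    have ht : dz (fA || fB || fC) T 0 0 0 0 = -1 := dz_zero hf _ _
    rw [ht]
    by_cases hr : p.r1 + p.r2 + p.r3 = 0
    · have r1 : p.r1 = 0 := by clear * - hr; omega
      have r2 : p.r2 = 0 := by clear * - hr; omega
      have r3 : p.r3 = 0 := by clear * - hr; omega
      have u1 : p.u12 = 0 := Nat.le_zero.1 hp.1.1
      have u2 : p.u13 = 0 := Nat.le_zero.1 hp.2.1.1
      have u3 : p.u23 = 0 := Nat.le_zero.1 hp.2.2.1.1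
      rw [r1, r2, r3, u1, u2, u3] at hraw' ⊢
      rw [r1, r2, u1] at a1
      rw [r1, r3, u2] at a2
      rw [r2, r3, u3] at a3
      rw [hA, hB, hC, hT] at hraw'
      rw [hA] at a1
      rw [hB] at a2
      rw [hC] at a3
      have : dz fA A 0 0 0 0 = -1 ∨ dz fB B 0 0 0 0 = -1 ∨ dz fC C 0 0 0 0 = -1 := by
        simp only [Bool.or_eq_true] at hf
        rcases hf with (hf | hf) | hf
        · exact Or.inl (dz_zero hf _ _)
        · exact Or.inr (Or.inl (dz_zero hf _ _))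
        · exact Or.inr (Or.inr (dz_zero hf _ _))
      clear * - he hraw' a1 a2 a3 this
      omega
    · obtain ⟨e', he', hd⟩ := hdeg p hp hr
      clear * - he' hd a1 a2 a3
      omega
  · have ht : dz (fA || fB || fC) T c k12 k13 k23 = T c k12 k13 k23 := by
      unfold dz; rw [if_neg h0]
    rw [ht]
    clear * - he hraw' a1 a2 a3
    omega

theorem chk1 (fA fB fC : Bool) (c k12 k13 k23 : ℕ) (hv : Valid 10 c k12 k13 k23) :
    ChkAt c k12 k13 k23 (dz fA ph) (dz fB ph) (dz fC ph)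
      (dz (fA || fB || fC) ps1 c k12 k13 k23) :=
  chk_dz _ _ _ _ zero_raw.1 zero_raw.1 zero_raw.1 zero_raw.2.1
    (fun _ _ _ _ hv p hp => (main_raw hv p hp).imp fun _ h => ⟨h.1, h.2.1.1⟩)
    (fun p hp hr => (deg_raw p hp hr).imp fun _ h => ⟨h.1, h.2.1⟩) _ _ _ _ _ _ _ hv

theorem chk2 (fA fB fC : Bool) (c k12 k13 k23 : ℕ) (hv : Valid 10 c k12 k13 k23) :
    ChkAt c k12 k13 k23 (dz fA ps1) (dz fB ph) (dz fC ph)
      (dz (fA || fB || fC) ps2 c k12 k13 k23) :=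
  chk_dz _ _ _ _ zero_raw.2.1 zero_raw.1 zero_raw.1 zero_raw.2.2.1
    (fun _ _ _ _ hv p hp => (main_raw hv p hp).imp fun _ h => ⟨h.1, h.2.1.2.1⟩)
    (fun p hp hr => (deg_raw p hp hr).imp fun _ h => ⟨h.1, h.2.2.1⟩) _ _ _ _ _ _ _ hv

theorem chk3 (fA fB fC : Bool) (c k12 k13 k23 : ℕ) (hv : Valid 10 c k12 k13 k23) :
    ChkAt c k12 k13 k23 (dz fA ph) (dz fB ph) (dz fC ps2)
      (dz (fA || fB || fC) ps3 c k12 k13 k23) :=
  chk_dz _ _ _ _ zero_raw.1 zero_raw.1 zero_raw.2.2.1 zero_raw.2.2.2.1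
    (fun _ _ _ _ hv p hp => (main_raw hv p hp).imp fun _ h => ⟨h.1, h.2.1.2.2.1⟩)
    (fun p hp hr => (deg_raw p hp hr).imp fun _ h => ⟨h.1, h.2.2.2.1⟩) _ _ _ _ _ _ _ hv

theorem chk4 (fA fB fC : Bool) (c k12 k13 k23 : ℕ) (hv : Valid 10 c k12 k13 k23) :
    ChkAt c k12 k13 k23 (dz fA ph) (dz fB ph) (dz fC ps3)
      (dz (fA || fB || fC) ps4 c k12 k13 k23) :=
  chk_dz _ _ _ _ zero_raw.1 zero_raw.1 zero_raw.2.2.2.1 zero_raw.2.2.2.2.1
    (fun _ _ _ _ hv p hp => (main_raw hv p hp).imp fun _ h => ⟨h.1, h.2.1.2.2.2.1⟩)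
    (fun p hp hr => (deg_raw p hp hr).imp fun _ h => ⟨h.1, h.2.2.2.2.1⟩) _ _ _ _ _ _ _ hv

theorem chk5 (fA fB fC : Bool) (c k12 k13 k23 : ℕ) (hv : Valid 10 c k12 k13 k23) :
    ChkAt c k12 k13 k23 (dz fA ph) (dz fB ph) (dz fC ps4)
      (dz (fA || fB || fC) ps5 c k12 k13 k23) :=
  chk_dz _ _ _ _ zero_raw.1 zero_raw.1 zero_raw.2.2.2.2.1 zero_raw.2.2.2.2.2
    (fun _ _ _ _ hv p hp => (main_raw hv p hp).imp fun _ h => ⟨h.1, h.2.1.2.2.2.2⟩)
    (fun p hp hr => (deg_raw p hp hr).imp fun _ h => ⟨h.1, h.2.2.2.2.2⟩) _ _ _ _ _ _ _ hv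

/-- The bound after integrating the third vertex of the outer face, with the flag. -/
noncomputable def thz (f : Bool) (k : ℕ) : ℤ := if f = true ∧ k = 0 then -1 else th k

theorem chk_close (fA fB : Bool) (k : ℕ) (hk : k ≤ 10) (p : Prof) (hp : Feas 10 k k k 10 p) :
    expo 10 k k k 10 p - 55 + (dz fA ph p.u12 k p.r1 p.r2 + dz fB ps5 p.u12 k p.r1 p.r2)
      ≤ thz (fA || fB) k := by
  have h := closeOK_true
  unfold closeOK allR at h
  have h1 := allG_spec h k (Nat.zero_le _) (Nat.lt_succ_of_le hk)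
  obtain ⟨e, he, hl⟩ := core_sound k k k 10 _ h1 p hp
  simp only [Bool.and_eq_true, Bool.or_eq_true, Nat.ble_eq, Nat.beq_eq] at hl
  obtain ⟨l1, l2⟩ := hl
  have a1 := dz_le fA ph p.u12 k p.r1 p.r2
  have a2 := dz_le fB ps5 p.u12 k p.r1 p.r2
  by_cases h0 : (fA || fB) = true ∧ k = 0
  · obtain ⟨hf, rfl⟩ := h0
    have ht : thz (fA || fB) 0 = -1 := by unfold thz; rw [if_pos ⟨hf, rfl⟩]
    rw [ht]
    by_cases hr : p.r1 + p.r2 = 0
    · have r1 : p.r1 = 0 := by clear * - hr; omega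
      have r2 : p.r2 = 0 := by clear * - hr; omega
      have u1 : p.u12 = 0 := Nat.le_zero.1 hp.1.1
      have t0 : th 0 = 0 := rfl
      rw [r1, r2, u1] at l1 a1 a2 ⊢
      rw [zero_raw.1, zero_raw.2.2.2.2.2, t0] at l1
      rw [zero_raw.1] at a1
      rw [zero_raw.2.2.2.2.2] at a2
      have : dz fA ph 0 0 0 0 = -1 ∨ dz fB ps5 0 0 0 0 = -1 := by
        simp only [Bool.or_eq_true] at hf
        rcases hf with hf | hf
        · exact Or.inl (dz_zero hf _ _)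
        · exact Or.inr (dz_zero hf _ _)
      clear * - he l1 a1 a2 this
      omega
    · clear * - he l2 a1 a2 hr
      omega
  · have ht : thz (fA || fB) k = th k := by unfold thz; rw [if_neg h0]
    rw [ht]
    clear * - he l1 a1 a2
    omega

theorem chk_final (p : Prof) (hp : Feas 10 10 10 10 10 p) :
    expo 10 10 10 10 10 p - 55 + thz true p.r1 ≤ -1 := by
  have h := finalOK_true
  unfold finalOK at h
  obtain ⟨e, he, hl⟩ := core_sound 10 10 10 10 _ h p hp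
  simp only [Bool.and_eq_true, Bool.or_eq_true, Nat.ble_eq, Nat.beq_eq] at hl
  obtain ⟨l1, l2⟩ := hl
  unfold thz
  by_cases h0 : p.r1 = 0
  · rw [if_pos ⟨rfl, h0⟩]
    clear * - he l1
    omega
  · rw [if_neg (fun h => h0 h.2)]
    clear * - he l2 h0
    omega

theorem chk_face {c k12 k13 k23 : ℕ} (hv : Valid 10 c k12 k13 k23) (p : Prof)
    (hp : Feas 10 c k12 k13 k23 p) (h : 30 ≤ is5 p.r1 + is5 p.r2 + is5 p.r3) :
    expo 10 c k12 k13 k23 p - 55 + ((is5 p.r1 + is5 p.r2 + is5 p.r3 : ℕ) : ℤ)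
      ≤ ph c k12 k13 k23 := by
  obtain ⟨e, he, -, h2⟩ := main_raw hv p hp
  have := h2 h
  clear * - he this
  omega

end Vale.Agent.P050
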