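import Vale.Agent.P050.Defs
import Vale.Agent.P050.Chk.Core

namespace Vale.Agent.P050

open Chk

theorem nadd (a b : ℕ) : Nat.add a b = a + b := rfl
theorem nsub (a b : ℕ) : Nat.sub a b = a - b := rfl
theorem nmul (a b : ℕ) : Nat.mul a b = a * b := rfl
theorem ndiv (a b : ℕ) : Nat.div a b = a / b := rfl
theorem nmod (a b : ℕ) : Nat.mod a b = a % b := rfl

theorem allG_spec {lo n : ℕ} {f : ℕ → Bool} (h : allG Nat.ble lo n f = true) (i : ℕ)
    (h1 : lo ≤ i) (h2 : i < n) : f i = true := by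
  induction n with
  | zero => omega
  | succ n ih =>
    have hlo : Nat.ble lo n = true := Nat.ble_eq_true_of_le (by omega)
    have h' : (Bool.rec (motive := fun _ => Bool) true
      (Bool.rec (motive := fun _ => Bool) false (allG Nat.ble lo n f) (f n)) (Nat.ble lo n))
        = true := h
    rw [hlo] at h'
    cases hf : f n with
    | false => rw [hf] at h'; exact absurd h' (by simp)
    | true =>
      rw [hf] at h'
      rcases Nat.lt_succ_iff_lt_or_eq.1 h2 with h3 | h3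
      · exact ih h' h3
      · rw [h3]; exact hf

theorem maxG_spec {lo n : ℕ} {f : ℕ → ℕ} (i : ℕ) (h1 : lo ≤ i) (h2 : i < n) :
    f i ≤ maxG Nat.add Nat.sub Nat.ble lo n f := by
  induction n with
  | zero => omega
  | succ n ih =>
    have hlo : Nat.ble lo n = true := Nat.ble_eq_true_of_le (by omega)
    have h' : maxG Nat.add Nat.sub Nat.ble lo (n + 1) f = (Bool.rec (motive := fun _ => ℕ) 0
      (f n + (maxG Nat.add Nat.sub Nat.ble lo n f - f n)) (Nat.ble lo n)) := rfl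
    rw [h', hlo]
    show f i ≤ f n + (maxG Nat.add Nat.sub Nat.ble lo n f - f n)
    rcases Nat.lt_succ_iff_lt_or_eq.1 h2 with h3 | h3
    · have := ih h3
      omega
    · rw [h3]; omega

theorem bif'_true {c a : Bool} (h : bif' c a true = true) (hc : c = true) : a = true := by
  subst hc; exact h

theorem mulc (a b : ℕ) (A B : ℤ) (ha : (a : ℤ) = A) (hb : (b : ℤ) = B) :
    A * B = ((a * b : ℕ) : ℤ) := by
  rw [← ha, ← hb]; push_cast; rfl

theorem expo_le (c k12 k13 k23 : ℕ) (p : Prof) (hp : Feas 10 c k12 k13 k23 p) :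
    expo 10 c k12 k13 k23 p ≤ ((p.a0 * (c - p.a0) + (p.u12 - p.a0) * (k12 - p.u12)
      + (p.u13 - p.a0) * (k13 - p.u13) + (p.u23 - p.a0) * (k23 - p.u23)
      + (p.zr + p.a0 - (p.u12 + p.u13 + p.u23)) * (k12 + k13 + k23 - c - p.zr)
      + ((p.z - p.zr) * (10 + c - p.z) - (p.z - p.zr) * (p.z - p.zr + 1) / 2)
      + (p.r1 + p.u23 - p.z) * (10 + p.u12 + p.u13 - (p.z + p.r1))
      + (p.r2 + p.u13 - p.z) * (10 + p.u12 - (p.r1 + p.r2))
      + (p.r3 + p.u12 - p.z) * (11 + p.z - (p.r1 + p.r2) - (p.r3 + 1))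
      + (11 + p.z - (p.r1 + p.r2) - (p.r3 + 1)) * (11 + p.z - (p.r1 + p.r2) - (p.r3 + 1) + 1) / 2
      : ℕ) : ℤ) := by
  obtain ⟨⟨h1, h2, h3, h4, h5, h6, h7⟩, ⟨h8, h9, h10, h11, h12, h13, h14⟩,
    ⟨h15, h16, h17, h18, h19, h20, h21⟩, h22, h23, h24, h25, h26, h27, h28, h29, h30, h31, h32,
    h33, h34, h35, h36⟩ := hp
  have t0 : (p.a0 : ℤ) * (c - p.a0) = _ := mulc p.a0 (c - p.a0) _ _ rfl (by clear * - h22; omega)
  have t1 : ((p.u12 : ℤ) - p.a0) * (k12 - p.u12) = _ :=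
    mulc (p.u12 - p.a0) (k12 - p.u12) _ _ (by clear * - h23; omega) (by clear * - h1; omega)
  have t2 : ((p.u13 : ℤ) - p.a0) * (k13 - p.u13) = _ :=
    mulc (p.u13 - p.a0) (k13 - p.u13) _ _ (by clear * - h24; omega) (by clear * - h8; omega)
  have t3 : ((p.u23 : ℤ) - p.a0) * (k23 - p.u23) = _ :=
    mulc (p.u23 - p.a0) (k23 - p.u23) _ _ (by clear * - h25; omega) (by clear * - h15; omega)
  have t4 : ((p.zr : ℤ) + p.a0 - p.u12 - p.u13 - p.u23) * (k12 + k13 + k23 - c - p.zr) = _ :=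
    mulc (p.zr + p.a0 - (p.u12 + p.u13 + p.u23)) (k12 + k13 + k23 - c - p.zr) _ _
      (by clear * - h29; omega) (by clear * - h30; omega)
  have t5 : ((p.z : ℤ) - p.zr) * ((10 : ℕ) + c - p.z) = _ :=
    mulc (p.z - p.zr) (10 + c - p.z) _ _ (by clear * - h31; omega)
      (by clear * - h30 h31 h32; omega)
  have t6 : ((p.r1 : ℤ) + p.u23 - p.z) * ((10 : ℕ) + p.u12 + p.u13 - p.z - p.r1) = _ :=
    mulc (p.r1 + p.u23 - p.z) (10 + p.u12 + p.u13 - (p.z + p.r1)) _ _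
      (by clear * - h33; omega) (by clear * - h34 h1 h7; omega)
  have t7 : ((p.r2 : ℤ) + p.u13 - p.z) * ((10 : ℕ) + p.u12 - p.r1 - p.r2) = _ :=
    mulc (p.r2 + p.u13 - p.z) (10 + p.u12 - (p.r1 + p.r2)) _ _
      (by clear * - h34; omega) (by clear * - h1 h7; omega)
  have t8 : ((p.r3 : ℤ) + p.u12 - p.z) * ((10 : ℕ) + p.z - p.r1 - p.r2 - p.r3) = _ :=
    mulc (p.r3 + p.u12 - p.z) (11 + p.z - (p.r1 + p.r2) - (p.r3 + 1)) _ _
      (by clear * - h35; omega) (by clear * - h36; omega)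
  have t9 : 10 + p.z - (p.r1 + p.r2 + p.r3) = 11 + p.z - (p.r1 + p.r2) - (p.r3 + 1) := by
    clear * -; omega
  unfold expo
  rw [t0, t1, t2, t3, t4, t5, t6, t7, t8, t9]
  clear * -
  generalize p.a0 * (c - p.a0) = x0
  generalize (p.u12 - p.a0) * (k12 - p.u12) = x1
  generalize (p.u13 - p.a0) * (k13 - p.u13) = x2
  generalize (p.u23 - p.a0) * (k23 - p.u23) = x3
  generalize (p.zr + p.a0 - (p.u12 + p.u13 + p.u23)) * (k12 + k13 + k23 - c - p.zr) = x4
  generalize (p.z - p.zr) * (10 + c - p.z) = x5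
  generalize (p.z - p.zr) * (p.z - p.zr + 1) / 2 = x6
  generalize (p.r1 + p.u23 - p.z) * (10 + p.u12 + p.u13 - (p.z + p.r1)) = x7
  generalize (p.r2 + p.u13 - p.z) * (10 + p.u12 - (p.r1 + p.r2)) = x8
  generalize (p.r3 + p.u12 - p.z) * (11 + p.z - (p.r1 + p.r2) - (p.r3 + 1)) = x9
  generalize (11 + p.z - (p.r1 + p.r2) - (p.r3 + 1)) *
    (11 + p.z - (p.r1 + p.r2) - (p.r3 + 1) + 1) / 2 = x10
  omega

theorem mxG_eq (a b : ℕ) : mxG Nat.add Nat.sub a b = max a b := by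
  simp only [mxG, nadd, nsub]; omega

theorem mnG_eq (a b : ℕ) : mnG Nat.sub a b = min a b := by
  simp only [mnG, nsub]; omega

theorem core_sound (c k12 k13 k23 : ℕ) (leaf : ℕ → ℕ → ℕ → ℕ → ℕ → ℕ → ℕ → ℕ → Bool)
    (h : core c k12 k13 k23 leaf = true) (p : Prof) (hp : Feas 10 c k12 k13 k23 p) :
    ∃ e : ℕ, expo 10 c k12 k13 k23 p ≤ e ∧
      leaf p.u12 (tA p.u12 k12 p.r1 p.r2) (rowC p.u13 k13) (rowC p.u23 k23) p.r1 p.r2 p.r3 e = true := by
  have hE := expo_le c k12 k13 k23 p hp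
  obtain ⟨⟨h1, h2, h3, h4, h5, h6, h7⟩, ⟨h8, h9, h10, h11, h12, h13, h14⟩,
    ⟨h15, h16, h17, h18, h19, h20, h21⟩, h22, h23, h24, h25, h26, h27, h28, h29, h30, h31, h32,
    h33, h34, h35, h36⟩ := hp
  have l1 : max (max p.u12 p.u13) (p.z - p.u23) ≤ p.r1 := by clear * - h2 h9 h33; omega
  have l2 : max (max p.u12 p.u23) (p.z - p.u13) ≤ p.r2 := by clear * - h3 h16 h34; omega
  have l3 : max (max p.u13 p.u23) (p.z - p.u12) ≤ p.r3 := by clear * - h10 h17 h35; omega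
  unfold core coreG at h
  dsimp only at h
  simp only [mxG_eq, mnG_eq] at h
  have g1 := allG_spec h p.u12 (Nat.zero_le _) (Nat.lt_succ_of_le h1)
  have g2 := allG_spec g1 p.u13 (Nat.zero_le _) (Nat.lt_succ_of_le h8)
  have g3 := allG_spec g2 p.u23 (Nat.zero_le _) (Nat.lt_succ_of_le h15)
  have g4 := bif'_true g3 (Nat.ble_eq_true_of_le (by
    simp only [nadd, nsub, max_le_iff, le_min_iff]
    clear * - h22 h23 h24 h25 h26 h27 h28
    refine ⟨⟨⟨⟨?_, ?_⟩, ?_⟩, ⟨?_, ?_⟩, ?_⟩, ⟨⟨?_, ?_⟩, ?_⟩, ⟨?_, ?_⟩, ?_⟩ <;> omega))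
  have ha : p.a0 ≤ min (min c p.u12) (min p.u13 p.u23) := by
    simp only [le_min_iff]; exact ⟨⟨h22, h23⟩, h24, h25⟩
  have g5 := allG_spec g4 p.z (by
    simp only [nadd, nsub]
    generalize min (min c p.u12) (min p.u13 p.u23) = a at ha ⊢
    clear * - ha h29 h31
    omega) (by
    simp only [nadd, nsub, ndiv]
    clear * - h30 h31 h32
    omega)
  have g6 := allG_spec g5 p.r1 l1 (by
    simp only [nadd, nsub, nmul, lt_min_iff]
    generalize max (max p.u12 p.u23) (p.z - p.u13) = a at l2 ⊢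
    generalize max (max p.u13 p.u23) (p.z - p.u12) = b at l3 ⊢
    clear * - l2 l3 h5 h7 h14 h36
    refine ⟨⟨⟨?_, ?_⟩, ?_⟩, ?_⟩ <;> omega)
  have g7 := allG_spec g6 p.r2 l2 (by
    simp only [nadd, nsub, nmul, lt_min_iff]
    generalize max (max p.u13 p.u23) (p.z - p.u12) = b at l3 ⊢
    clear * - l3 h6 h7 h21 h36
    refine ⟨⟨?_, ?_, ?_⟩, ?_⟩ <;> omega)
  have g8 := allG_spec g7 p.r3 l3 (by
    simp only [nadd, nsub, nmul, lt_min_iff]
    clear * - h13 h14 h21 h36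
    refine ⟨⟨?_, ?_, ?_⟩, ?_⟩ <;> omega)
  refine ⟨_, hE.trans ?_, g8⟩
  rw [Int.ofNat_le]
  refine Nat.add_le_add_right (Nat.add_le_add_right (Nat.add_le_add_right
    (Nat.add_le_add_right ?_ _) _) _) _
  refine le_trans ?_ (maxG_spec p.a0 (by
    simp only [nadd, nsub, max_le_iff]
    clear * - h26 h27 h28
    refine ⟨⟨?_, ?_⟩, ?_⟩ <;> omega) (Nat.lt_succ_of_le ha))
  refine le_trans ?_ (maxG_spec p.zr (by
    simp only [nadd, nsub, ndiv, max_le_iff]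
    clear * - h29 h30 h31 h32
    refine ⟨?_, ?_⟩ <;> omega) (Nat.lt_succ_of_le (by
    simp only [nadd, nsub, le_min_iff]
    clear * - h30 h31
    refine ⟨?_, ?_⟩ <;> omega)))
  exact le_refl _

end Vale.Agent.P050
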