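import Mathlib

/-!
Definitions for the counterexample to Sidorenko's conjecture (P050).
-/

set_option maxSynthPendingDepth 3

namespace Vale.Agent.P050

open Module
open scoped BigOperators

/-- Symmetric bilinear forms on `V`, as a submodule of all bilinear forms. -/
def SF (F V : Type) [Field F] [AddCommGroup V] [Module F V] :
    Submodule F (LinearMap.BilinForm F V) where
  carrier := {B | ∀ x y, B x y = B y x}
  add_mem' := by
    intro a b ha hb x y
    simp only [LinearMap.add_apply]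
    rw [ha x y, hb x y]
  zero_mem' := by
    intro x y
    simp
  smul_mem' := by
    intro c a ha x y
    simp only [LinearMap.smul_apply]
    rw [ha x y]

section General

variable {F V : Type} [Field F] [AddCommGroup V] [Module F V]

instance addCommGroupSF : AddCommGroup (SF F V) := Submodule.addCommGroup (SF F V)

theorem SF.symm (X : SF F V) (x y : V) : X.1 x y = X.1 y x := X.2 x y

instance finiteBilin [Finite F] [Finite V] : Finite (LinearMap.BilinForm F V) :=
  Finite.of_injective (fun B : LinearMap.BilinForm F V => fun x y => B x y)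
    (fun _ _ h => LinearMap.ext₂ fun x y => congrFun (congrFun h x) y)

noncomputable instance fintypeSF [Finite F] [Finite V] : Fintype (SF F V) := Fintype.ofFinite _

/-- The kernel of `X - Y`. -/
def kr (X Y : SF F V) : Submodule F V := LinearMap.ker (X.1 - Y.1)

theorem mem_kr {X Y : SF F V} {v : V} : v ∈ kr X Y ↔ X.1 v = Y.1 v := by
  simp [kr, sub_eq_zero]

theorem kr_comm (X Y : SF F V) : kr X Y = kr Y X := by
  ext v; simp only [mem_kr]; exact eq_comm

/-- The corank of `X - Y`. -/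
noncomputable def k2 (X Y : SF F V) : ℕ := finrank F (kr X Y)

/-- The dimension of the space where `X`, `Y`, `Z` all agree. -/
noncomputable def k3 (X Y Z : SF F V) : ℕ := finrank F ↥(kr X Y ⊓ kr X Z)

theorem k2_comm (X Y : SF F V) : k2 X Y = k2 Y X := by
  unfold k2; rw [kr_comm]

end General

/-- The ambient space, of dimension `10`. -/
abbrev VV (F : Type) : Type := Fin 10 → F

/-- Symmetric forms on the ambient space. -/
abbrev SS (F : Type) [Field F] : Type := SF F (VV F)

/-- Points of one level: a symmetric form and a sign. -/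
abbrev Pt (F : Type) [Field F] : Type := SS F × Bool

/-- The sign attached to a Boolean. -/
def sg (b : Bool) : ℝ := if b then 1 else -1

section Kernels

variable {F : Type} [Field F] [Fintype F] [DecidableEq F]

/-- The number of symmetric forms of corank five. -/
noncomputable def nR (F : Type) [Field F] : ℕ :=
  {X : SS F | finrank F (LinearMap.ker X.1) = 5}.ncard

/-- The normalised indicator that `X - Y` has corank five. -/
noncomputable def wt (X Y : SS F) : ℝ :=
  if k2 X Y = 5 then (Fintype.card (SS F) : ℝ) / (nR F : ℝ) else 0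

open Classical in
/-- The square class of the discriminant of a form of rank five. -/
noncomputable def theta (R : SS F) : ℝ :=
  if ∃ v : Fin 5 → VV F, (Matrix.of fun i j => R.1 (v i) (v j)).det ≠ 0 ∧
      IsSquare (Matrix.of fun i j => R.1 (v i) (v j)).det then 1 else -1

/-- The quadratic character of the determinant. -/
noncomputable def sigma (S : SS F) : ℝ :=
  ((quadraticChar F (Matrix.of fun i j : Fin 10 =>
    S.1 (Pi.single i 1) (Pi.single j 1)).det : ℤ) : ℝ)

/-- The signed pair function on points. -/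
noncomputable def sigT (x y : Pt F) : ℝ := sg x.2 * sg y.2 * sigma (x.1 - y.1)

/-- The edge kernel of one level in state `z` (inactive if `z = 0`). -/
noncomputable def Wz (z : SignType) (x y : Pt F) : ℝ :=
  if z = 0 then 1 else wt x.1 y.1 * (1 + (z : ℝ) * sg x.2 * sg y.2 * theta (x.1 - y.1))

/-- The unsigned face kernel with the active corners `a`. -/
noncomputable def faceK (a : Fin 3 → Bool) (X : Fin 3 → SS F) : ℝ :=
  𝔼 M : SS F, ∏ i, (if a i then wt (X i) M else 1)

end Kernels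

/-- The twelve faces of the stacked triangulation on eight vertices. -/
def fc : Fin 12 → Fin 3 → Fin 8 :=
  ![![0, 1, 2], ![0, 1, 3], ![0, 2, 3], ![1, 2, 4], ![1, 3, 4], ![2, 3, 5], ![2, 4, 5],
    ![3, 5, 6], ![4, 5, 6], ![3, 4, 7], ![3, 6, 7], ![4, 6, 7]]

/-- First endpoints of the eighteen edges of the triangulation. -/
def e1 : Fin 18 → Fin 8 := ![0, 0, 1, 0, 1, 2, 1, 2, 3, 2, 3, 4, 3, 4, 5, 3, 4, 6]

/-- Second endpoints of the eighteen edges of the triangulation. -/
def e2 : Fin 18 → Fin 8 := ![1, 2, 2, 3, 3, 3, 4, 4, 4, 5, 5, 5, 6, 6, 6, 7, 7, 7]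

/-- First corner of the `p`-th side of a face. -/
def pa : Fin 3 → Fin 3 := ![0, 0, 1]

/-- Second corner of the `p`-th side of a face. -/
def pb : Fin 3 → Fin 3 := ![1, 2, 2]

/-- The edge of the triangulation that is the `p`-th side of the face `b`. -/
def sd : Fin 12 → Fin 3 → Fin 18 :=
  ![![0, 1, 2], ![0, 3, 4], ![1, 3, 5], ![2, 6, 7], ![4, 6, 8], ![5, 9, 10], ![7, 9, 11],
    ![10, 12, 14], ![11, 13, 14], ![8, 15, 16], ![12, 15, 17], ![13, 16, 17]]

/-- The two (face, side) pairs of an edge of the triangulation. -/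
def qs : Fin 18 → Fin 2 → Fin 12 × Fin 3 :=
  ![![(0, 0), (1, 0)], ![(0, 1), (2, 0)], ![(0, 2), (3, 0)], ![(1, 1), (2, 1)],
    ![(1, 2), (4, 0)], ![(2, 2), (5, 0)], ![(3, 1), (4, 1)], ![(3, 2), (6, 0)],
    ![(4, 2), (9, 0)], ![(5, 1), (6, 1)], ![(5, 2), (7, 0)], ![(6, 2), (8, 0)],
    ![(7, 1), (10, 0)], ![(8, 1), (11, 0)], ![(7, 2), (8, 2)], ![(9, 1), (10, 1)],
    ![(9, 2), (11, 1)], ![(10, 2), (11, 2)]]

theorem fc_pa : ∀ b p, fc b (pa p) = e1 (sd b p) := by decide
theorem fc_pb : ∀ b p, fc b (pb p) = e2 (sd b p) := by decide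
theorem sd_qs : ∀ q s, sd (qs q s).1 (qs q s).2 = q := by decide
theorem qs_bijective : Function.Bijective (fun x : Fin 18 × Fin 2 => qs x.1 x.2) := by decide

/-- The product of the states on the two corners of the side `p` of the face `b`. -/
def sideZ (z : Fin 12 × Fin 3 → SignType) (bp : Fin 12 × Fin 3) : ℝ :=
  (z (bp.1, pa bp.2) : ℝ) * (z (bp.1, pb bp.2) : ℝ)

/-- The product of the states around the four-cycle of the incidence graph given by an edge. -/
def zeta (z : Fin 12 × Fin 3 → SignType) (q : Fin 18) : ℝ :=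
  sideZ z (qs q 0) * sideZ z (qs q 1)

/-! ### Profiles for the counting lemma -/

/-- The dimension data of a form `N` relative to three forms. -/
structure Prof where
  a0 : ℕ
  u12 : ℕ
  u13 : ℕ
  u23 : ℕ
  zr : ℕ
  z : ℕ
  r1 : ℕ
  r2 : ℕ
  r3 : ℕ
  deriving DecidableEq

/-- The constraints on the invariants of a triple of forms in dimension `D`. -/
def Valid (D c k12 k13 k23 : ℕ) : Prop :=
  c ≤ k12 ∧ c ≤ k13 ∧ c ≤ k23 ∧ k12 ≤ D ∧ k13 ≤ D ∧ k23 ≤ D ∧ k12 + k13 + k23 ≤ D + 2 * c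

/-- The constraints on a profile. -/
def Feas (D c k12 k13 k23 : ℕ) (p : Prof) : Prop :=
  Valid D p.u12 k12 p.r1 p.r2 ∧ Valid D p.u13 k13 p.r1 p.r3 ∧ Valid D p.u23 k23 p.r2 p.r3 ∧
  p.a0 ≤ c ∧ p.a0 ≤ p.u12 ∧ p.a0 ≤ p.u13 ∧ p.a0 ≤ p.u23 ∧
  p.u12 + c ≤ k12 + p.a0 ∧ p.u13 + c ≤ k13 + p.a0 ∧ p.u23 + c ≤ k23 + p.a0 ∧
  p.u12 + p.u13 + p.u23 ≤ p.zr + p.a0 ∧ p.zr + c ≤ k12 + k13 + k23 ∧ p.zr ≤ p.z ∧
  2 * p.z + (k12 + k13 + k23) ≤ D + 2 * c + 2 * p.zr ∧
  p.z ≤ p.r1 + p.u23 ∧ p.z ≤ p.r2 + p.u13 ∧ p.z ≤ p.r3 + p.u12 ∧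
  p.r1 + p.r2 + p.r3 ≤ D + p.z

/-- The exponent of `q` in the count of forms with a given profile. -/
def expo (D c k12 k13 k23 : ℕ) (p : Prof) : ℤ :=
  (p.a0 : ℤ) * (c - p.a0) + (p.u12 - p.a0) * (k12 - p.u12) + (p.u13 - p.a0) * (k13 - p.u13)
    + (p.u23 - p.a0) * (k23 - p.u23)
    + (p.zr + p.a0 - p.u12 - p.u13 - p.u23) * (k12 + k13 + k23 - c - p.zr)
    + (p.z - p.zr) * (D + c - p.z) - (((p.z - p.zr) * (p.z - p.zr + 1) / 2 : ℕ) : ℤ)
    + (p.r1 + p.u23 - p.z) * (D + p.u12 + p.u13 - p.z - p.r1)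
    + (p.r2 + p.u13 - p.z) * (D + p.u12 - p.r1 - p.r2)
    + (p.r3 + p.u12 - p.z) * (D + p.z - p.r1 - p.r2 - p.r3)
    + (((D + p.z - (p.r1 + p.r2 + p.r3)) * (D + p.z - (p.r1 + p.r2 + p.r3) + 1) / 2 : ℕ) : ℤ)

end Vale.Agent.P050
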