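import Vale.Agent.P050.Triple
import Vale.Agent.P050.ChkLeaf

set_option maxSynthPendingDepth 3
set_option linter.unusedSectionVars false

namespace Vale.Agent.P050

open Module Chk
open scoped BigOperators

/-- A finite set containing every feasible profile. -/
def box : Finset Prof :=
  (Finset.univ : Finset (Fin 9 → Fin 21)).image fun v =>
    ⟨v 0, v 1, v 2, v 3, v 4, v 5, v 6, v 7, v 8⟩

theorem mem_box {c k12 k13 k23 : ℕ} {p : Prof} (h : Feas 10 c k12 k13 k23 p) : p ∈ box := by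
  obtain ⟨⟨a1, a2, a3, a4, a5, a6, -⟩, ⟨b1, -, -, b4, -, b6, -⟩, ⟨c1, -, -, c4, -⟩, -, d2, -, -, -,
    -, -, -, -, d3, -, d4, -⟩ := h
  refine Finset.mem_image.2 ⟨![⟨p.a0, by omega⟩, ⟨p.u12, by omega⟩, ⟨p.u13, by omega⟩,
    ⟨p.u23, by omega⟩, ⟨p.zr, by omega⟩, ⟨p.z, by omega⟩, ⟨p.r1, by omega⟩, ⟨p.r2, by omega⟩,
    ⟨p.r3, by omega⟩], Finset.mem_univ _, ?_⟩
  rfl

/-- The constant lost in one application of the counting lemma. -/
noncomputable def c0 : ℝ := (box.card : ℝ) * 2 ^ 130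

theorem c0_nonneg : 0 ≤ c0 := by unfold c0; positivity

theorem expect_vecCons {A : Type} [Fintype A] {n : ℕ} (f : (Fin (n + 1) → A) → ℝ) :
    𝔼 X : Fin (n + 1) → A, f X = 𝔼 x : A, 𝔼 Y : Fin n → A, f (Matrix.vecCons x Y) := by
  have h : 𝔼 p : A × (Fin n → A), f (Matrix.vecCons p.1 p.2)
      = 𝔼 x : A, 𝔼 Y : Fin n → A, f (Matrix.vecCons x Y) := by
    rw [← Finset.univ_product_univ, Finset.expect_product]
  rw [← h]
  exact (Fintype.expect_equiv (Fin.consEquiv fun _ => A) _ _ (fun _ => rfl)).symm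

theorem expect_vecEmpty {A : Type} [Fintype A] (f : (Fin 0 → A) → ℝ) :
    𝔼 X : Fin 0 → A, f X = f Matrix.vecEmpty := by
  have : ∀ X : Fin 0 → A, f X = f Matrix.vecEmpty := fun X => congrArg f (Subsingleton.elim _ _)
  simp only [this]
  exact Finset.expect_const Finset.univ_nonempty _

theorem expect_eight {A : Type} [Fintype A] (f : (Fin 8 → A) → ℝ) :
    𝔼 X : Fin 8 → A, f X = 𝔼 x0 : A, 𝔼 x1 : A, 𝔼 x2 : A, 𝔼 x3 : A, 𝔼 x4 : A, 𝔼 x5 : A,
      𝔼 x6 : A, 𝔼 x7 : A, f ![x0, x1, x2, x3, x4, x5, x6, x7] := by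
  simp only [expect_vecCons, expect_vecEmpty]

theorem prod_faces {A : Type} (T : Fin 12 → A → A → A → ℝ) (x0 x1 x2 x3 x4 x5 x6 x7 : A) :
    ∏ b, T b (![x0, x1, x2, x3, x4, x5, x6, x7] (fc b 0))
      (![x0, x1, x2, x3, x4, x5, x6, x7] (fc b 1)) (![x0, x1, x2, x3, x4, x5, x6, x7] (fc b 2))
    = T 0 x0 x1 x2 * (T 1 x0 x1 x3 * T 2 x0 x2 x3 * (T 3 x1 x2 x4 * T 4 x1 x3 x4 *
      (T 5 x2 x3 x5 * T 6 x2 x4 x5 * ((T 9 x3 x4 x7 * T 10 x3 x6 x7 * T 11 x4 x6 x7) *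
        T 7 x3 x5 x6 * T 8 x4 x5 x6)))) := by
  simp only [Fin.prod_univ_succ, Fin.prod_univ_zero]
  change T 0 x0 x1 x2 * (T 1 x0 x1 x3 * (T 2 x0 x2 x3 * (T 3 x1 x2 x4 * (T 4 x1 x3 x4 *
    (T 5 x2 x3 x5 * (T 6 x2 x4 x5 * (T 7 x3 x5 x6 * (T 8 x4 x5 x6 * (T 9 x3 x4 x7 *
      (T 10 x3 x6 x7 * (T 11 x4 x6 x7 * 1))))))))))) = _
  ring

variable {F : Type} [Field F] [Fintype F] [DecidableEq F]

omit [DecidableEq F] in
theorem one_le_q : (1 : ℝ) ≤ (Fintype.card F : ℝ) := by exact_mod_cast Fintype.card_pos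

theorem expect_le (hF : ringChar F ≠ 2) (X Y Z : SS F) (Φ : SS F → ℝ) (C : ℝ) (hC : 0 ≤ C)
    (E : ℤ)
    (h : ∀ N p, Feas 10 (k3 X Y Z) (k2 X Y) (k2 X Z) (k2 Y Z) p → p.u12 = k3 X Y N →
      p.u13 = k3 X Z N → p.u23 = k3 Y Z N → p.r1 = k2 X N → p.r2 = k2 Y N → p.r3 = k2 Z N →
      Φ N ≤ C * (Fintype.card F : ℝ) ^
        (E + 55 - expo 10 (k3 X Y Z) (k2 X Y) (k2 X Z) (k2 Y Z) p)) :
    𝔼 N : SS F, Φ N ≤ c0 * C * (Fintype.card F : ℝ) ^ E := by
  obtain ⟨pr, h1, h2⟩ := master_count hF X Y Z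
  rw [finrank_VV] at h1 h2
  have hq1 := one_le_q (F := F)
  set q : ℝ := (Fintype.card F : ℝ) with hq
  have hq0 : 0 < q := by linarith
  rw [Finset.expect_eq_sum_div_card, Finset.card_univ, card_SS, div_le_iff₀ (by positivity),
    ← Finset.sum_fiberwise_of_maps_to (s := Finset.univ) (t := box) (g := pr)
      (fun N _ => mem_box (h1 N).1)]
  have hp : ∀ p ∈ box, ∑ N ∈ Finset.univ.filter (fun N => pr N = p), Φ N
      ≤ 2 ^ 130 * C * q ^ E * q ^ 55 := by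
    intro p _
    have hb : ∀ N ∈ Finset.univ.filter (fun N => pr N = p),
        Φ N ≤ C * q ^ (E + 55 - expo 10 (k3 X Y Z) (k2 X Y) (k2 X Z) (k2 Y Z) p) := by
      intro N hN
      have hN' : pr N = p := (Finset.mem_filter.1 hN).2
      obtain ⟨a0, a1, a2, a3, a4, a5, a6⟩ := h1 N
      rw [hN'] at a0 a1 a2 a3 a4 a5 a6
      exact h N p a0 a1 a2 a3 a4 a5 a6
    refine (Finset.sum_le_card_nsmul _ _ _ hb).trans ?_
    have hc := h2 p
    rw [← Finset.coe_filter_univ, Set.ncard_coe_finset] at hc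
    rw [nsmul_eq_mul]
    refine (mul_le_mul_of_nonneg_right hc (by positivity)).trans (le_of_eq ?_)
    rw [zpow_sub₀ hq0.ne', zpow_add₀ hq0.ne']
    have : q ^ expo 10 (k3 X Y Z) (k2 X Y) (k2 X Z) (k2 Y Z) p ≠ 0 := by positivity
    field_simp
    norm_num
    ring
  refine (Finset.sum_le_card_nsmul _ _ _ hp).trans (le_of_eq ?_)
  rw [nsmul_eq_mul, c0]
  push_cast
  ring

/-- The kernel `T` is bounded by the table `Ψ`, up to the constant `C`. -/
def Bnd (T : SS F → SS F → SS F → ℝ) (Ψ : Tab) (C : ℝ) : Prop :=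
  0 ≤ C ∧ ∀ X Y Z, 0 ≤ T X Y Z ∧
    T X Y Z ≤ C * (Fintype.card F : ℝ) ^ Ψ (k3 X Y Z) (k2 X Y) (k2 X Z) (k2 Y Z)

theorem sub_bound (hF : ringChar F ≠ 2) {A B D : SS F → SS F → SS F → ℝ} {ΨA ΨB ΨD Ψ : Tab}
    {CA CB CD : ℝ} (hA : Bnd A ΨA CA) (hB : Bnd B ΨB CB) (hD : Bnd D ΨD CD)
    (hchk : ∀ c k12 k13 k23, Valid 10 c k12 k13 k23 →
      ChkAt c k12 k13 k23 ΨA ΨB ΨD (Ψ c k12 k13 k23)) :
    Bnd (fun X Y Z => 𝔼 N : SS F, A X Y N * B X Z N * D Y Z N) Ψ (c0 * (CA * CB * CD)) := by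
  have hq1 := one_le_q (F := F)
  have hC : 0 ≤ CA * CB * CD := mul_nonneg (mul_nonneg hA.1 hB.1) hD.1
  refine ⟨mul_nonneg c0_nonneg hC, fun X Y Z => ⟨Finset.expect_nonneg fun N _ =>
    mul_nonneg (mul_nonneg (hA.2 _ _ _).1 (hB.2 _ _ _).1) (hD.2 _ _ _).1, ?_⟩⟩
  refine expect_le hF X Y Z _ _ hC _ fun N p hp e1 e2 e3 e4 e5 e6 => ?_
  have hv := valid_triple X Y Z
  rw [finrank_VV] at hv
  have hc := hchk _ _ _ _ hv p hp
  rw [e1, e2, e3, e4, e5, e6] at hc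
  have a := hA.2 X Y N
  have b := hB.2 X Z N
  have d := hD.2 Y Z N
  have hA0 := hA.1
  have hB0 := hB.1
  have hD0 := hD.1
  set q : ℝ := (Fintype.card F : ℝ) with hq
  have hq0 : 0 < q := by linarith
  calc A X Y N * B X Z N * D Y Z N
      ≤ (CA * q ^ ΨA (k3 X Y N) (k2 X Y) (k2 X N) (k2 Y N)) *
        (CB * q ^ ΨB (k3 X Z N) (k2 X Z) (k2 X N) (k2 Z N)) *
        (CD * q ^ ΨD (k3 Y Z N) (k2 Y Z) (k2 Y N) (k2 Z N)) :=
        mul_le_mul (mul_le_mul a.2 b.2 b.1 (by positivity)) d.2 d.1 (by positivity)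
    _ = CA * CB * CD * q ^ (ΨA (k3 X Y N) (k2 X Y) (k2 X N) (k2 Y N) +
        ΨB (k3 X Z N) (k2 X Z) (k2 X N) (k2 Z N) + ΨD (k3 Y Z N) (k2 Y Z) (k2 Y N) (k2 Z N)) := by
        rw [zpow_add₀ hq0.ne', zpow_add₀ hq0.ne']; ring
    _ ≤ _ := mul_le_mul_of_nonneg_left (zpow_le_zpow_right₀ hq1 (by linarith)) hC

/-- The weight of one corner of a face. -/
noncomputable def wb (b : Bool) (X M : SS F) : ℝ := if b then wt X M else 1

theorem wb_nonneg (b : Bool) (X M : SS F) : 0 ≤ wb b X M := by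
  unfold wb
  split_ifs
  · exact wt_nonneg _ _
  · exact zero_le_one

theorem wb_le (hq : 3 ≤ Fintype.card F) (b : Bool) (X M : SS F) :
    wb b X M ≤ 3 * (Fintype.card F : ℝ) ^ is5 (k2 X M) := by
  have hq1 := one_le_q (F := F)
  unfold wb
  split_ifs
  · by_cases h : k2 X M = 5
    · rw [is5_eq, if_pos h]
      exact wt_le hq X M
    · unfold wt
      rw [if_neg h]
      positivity
  · have := one_le_pow₀ (n := is5 (k2 X M)) hq1
    linarith

theorem wb_ne {X M : SS F} (h : wb true X M ≠ 0) : is5 (k2 X M) = 15 := by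
  rw [is5_eq, if_pos]
  by_contra hc
  apply h
  unfold wb wt
  rw [if_pos rfl, if_neg hc]

theorem face_two (hF : ringChar F ≠ 2) (hq : 3 ≤ Fintype.card F) (a b d : Bool) (X Y Z : SS F)
    (h : ∀ M, wb a X M * wb b Y M * wb d Z M ≠ 0 →
      30 ≤ is5 (k2 X M) + is5 (k2 Y M) + is5 (k2 Z M)) :
    𝔼 M : SS F, wb a X M * wb b Y M * wb d Z M
      ≤ c0 * 27 * (Fintype.card F : ℝ) ^ (ph (k3 X Y Z) (k2 X Y) (k2 X Z) (k2 Y Z) : ℤ) := by
  have hq1 := one_le_q (F := F)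
  refine expect_le hF X Y Z _ _ (by norm_num) _ fun N p hp e1 e2 e3 e4 e5 e6 => ?_
  by_cases h0 : wb a X N * wb b Y N * wb d Z N = 0
  · rw [h0]
    positivity
  have hv := valid_triple X Y Z
  rw [finrank_VV] at hv
  have h30 := h N h0
  have hc := chk_face hv p hp (by rw [e4, e5, e6]; exact h30)
  rw [e4, e5, e6] at hc
  have a1 := wb_le hq a X N
  have a2 := wb_le hq b Y N
  have a3 := wb_le hq d Z N
  set q : ℝ := (Fintype.card F : ℝ) with hq
  calc wb a X N * wb b Y N * wb d Z N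
      ≤ (3 * q ^ is5 (k2 X N)) * (3 * q ^ is5 (k2 Y N)) * (3 * q ^ is5 (k2 Z N)) :=
        mul_le_mul (mul_le_mul a1 a2 (wb_nonneg _ _ _) (by positivity)) a3 (wb_nonneg _ _ _)
          (by positivity)
    _ = 27 * q ^ ((is5 (k2 X N) + is5 (k2 Y N) + is5 (k2 Z N) : ℕ) : ℤ) := by
        rw [zpow_natCast]; ring
    _ ≤ _ := mul_le_mul_of_nonneg_left (zpow_le_zpow_right₀ hq1 (by linarith)) (by norm_num)

theorem face_le (hF : ringChar F ≠ 2) (hq : 3 ≤ Fintype.card F) (a b d : Bool) (X Y Z : SS F) :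
    𝔼 M : SS F, wb a X M * wb b Y M * wb d Z M
      ≤ (1 + c0 * 27) *
        (Fintype.card F : ℝ) ^ (ph (k3 X Y Z) (k2 X Y) (k2 X Z) (k2 Y Z) : ℤ) := by
  have hq1 := one_le_q (F := F)
  have hc := c0_nonneg
  have hP : (1 : ℝ) ≤ (Fintype.card F : ℝ) ^ (ph (k3 X Y Z) (k2 X Y) (k2 X Z) (k2 Y Z) : ℤ) :=
    one_le_zpow₀ hq1 (Int.natCast_nonneg _)
  have h1 : (1 : ℝ) ≤ (1 + c0 * 27) *
      (Fintype.card F : ℝ) ^ (ph (k3 X Y Z) (k2 X Y) (k2 X Z) (k2 Y Z) : ℤ) := by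
    nlinarith
  have h2 : (∀ M, wb a X M * wb b Y M * wb d Z M ≠ 0 →
      30 ≤ is5 (k2 X M) + is5 (k2 Y M) + is5 (k2 Z M)) →
      𝔼 M : SS F, wb a X M * wb b Y M * wb d Z M ≤ (1 + c0 * 27) *
        (Fintype.card F : ℝ) ^ (ph (k3 X Y Z) (k2 X Y) (k2 X Z) (k2 Y Z) : ℤ) := fun h =>
    (face_two hF hq a b d X Y Z h).trans (by nlinarith)
  have wf : ∀ U M : SS F, wb false U M = 1 := fun _ _ => rfl
  have wt' : ∀ U M : SS F, wb true U M = wt U M := fun _ _ => rfl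
  cases a <;> cases b <;> cases d
  · simp only [wf, mul_one]
    rw [Finset.expect_const Finset.univ_nonempty]
    exact h1
  · simp only [wf, wt', one_mul]
    rw [expect_wt hq]
    exact h1
  · simp only [wf, wt', one_mul, mul_one]
    rw [expect_wt hq]
    exact h1
  · refine h2 fun M hM => ?_
    rw [wb_ne (right_ne_zero_of_mul hM),
      wb_ne (right_ne_zero_of_mul (left_ne_zero_of_mul hM))]
    omega
  · simp only [wf, wt', mul_one]
    rw [expect_wt hq]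
    exact h1
  · refine h2 fun M hM => ?_
    rw [wb_ne (right_ne_zero_of_mul hM),
      wb_ne (left_ne_zero_of_mul (left_ne_zero_of_mul hM))]
    omega
  · refine h2 fun M hM => ?_
    rw [wb_ne (right_ne_zero_of_mul (left_ne_zero_of_mul hM)),
      wb_ne (left_ne_zero_of_mul (left_ne_zero_of_mul hM))]
    omega
  · refine h2 fun M hM => ?_
    rw [wb_ne (right_ne_zero_of_mul hM),
      wb_ne (left_ne_zero_of_mul (left_ne_zero_of_mul hM))]
    omega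

/-- The face kernel, cut to degenerate triples if the flag is set. -/
noncomputable def faceD (a : Fin 3 → Bool) (f : Bool) (X Y Z : SS F) : ℝ :=
  if f = true ∧ k2 X Y = 0 ∧ k2 X Z = 0 ∧ k2 Y Z = 0 then 0
  else 𝔼 M : SS F, wb (a 0) X M * wb (a 1) Y M * wb (a 2) Z M

theorem faceD_bnd (hF : ringChar F ≠ 2) (hq : 3 ≤ Fintype.card F) (a : Fin 3 → Bool) (f : Bool) :
    Bnd (faceD (F := F) a f) (dz f ph) (1 + c0 * 27) := by
  have hq1 := one_le_q (F := F)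
  have hc := c0_nonneg
  refine ⟨by positivity, fun X Y Z => ?_⟩
  unfold faceD dz
  split_ifs
  · exact ⟨le_rfl, by positivity⟩
  · exact ⟨Finset.expect_nonneg fun M _ =>
      mul_nonneg (mul_nonneg (wb_nonneg _ _ _) (wb_nonneg _ _ _)) (wb_nonneg _ _ _),
      face_le hF hq _ _ _ X Y Z⟩

omit [Fintype F] [DecidableEq F] in
theorem k2_self (X : SS F) : k2 X X = 10 := by
  unfold k2 kr
  rw [sub_self, LinearMap.ker_zero, finrank_top, finrank_VV]

omit [Fintype F] [DecidableEq F] in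
theorem k3_self (X Y : SS F) : k3 X Y Y = k2 X Y := by
  unfold k3 k2
  rw [inf_idem]

theorem close_bound (hF : ringChar F ≠ 2) {A B : SS F → SS F → SS F → ℝ} {fA fB : Bool}
    {CA CB : ℝ} (hA : Bnd A (dz fA ph) CA) (hB : Bnd B (dz fB ps5) CB)
    (hf : (fA || fB) = true) :
    𝔼 X : SS F, 𝔼 Y : SS F, 𝔼 Z : SS F, A X Y Z * B X Y Z
      ≤ c0 * (c0 * (CA * CB)) * (Fintype.card F : ℝ) ^ (-1 : ℤ) := by
  have hq1 := one_le_q (F := F)
  have hC : 0 ≤ CA * CB := mul_nonneg hA.1 hB.1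
  have h1 : ∀ X Y : SS F, 𝔼 Z : SS F, A X Y Z * B X Y Z
      ≤ c0 * (CA * CB) * (Fintype.card F : ℝ) ^ thz true (k2 X Y) := by
    intro X Y
    refine expect_le hF X Y Y _ _ hC _ fun N p hp e1 _ _ e4 e5 _ => ?_
    rw [k3_self, k2_self] at hp ⊢
    have hv := valid_triple X Y Y
    rw [finrank_VV] at hv
    have hc := chk_close fA fB _ hv.2.2.2.1 p hp
    rw [e1, e4, e5, hf] at hc
    have a := hA.2 X Y N
    have b := hB.2 X Y N
    have hA0 := hA.1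
    have hB0 := hB.1
    set q : ℝ := (Fintype.card F : ℝ) with hq
    have hq0 : 0 < q := by linarith
    calc A X Y N * B X Y N
        ≤ (CA * q ^ dz fA ph (k3 X Y N) (k2 X Y) (k2 X N) (k2 Y N)) *
          (CB * q ^ dz fB ps5 (k3 X Y N) (k2 X Y) (k2 X N) (k2 Y N)) :=
          mul_le_mul a.2 b.2 b.1 (by positivity)
      _ = CA * CB * q ^ (dz fA ph (k3 X Y N) (k2 X Y) (k2 X N) (k2 Y N) +
          dz fB ps5 (k3 X Y N) (k2 X Y) (k2 X N) (k2 Y N)) := by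
          rw [zpow_add₀ hq0.ne']; ring
      _ ≤ _ := mul_le_mul_of_nonneg_left (zpow_le_zpow_right₀ hq1 (by linarith)) hC
  refine Finset.expect_le Finset.univ_nonempty fun X _ => ?_
  have hC' : 0 ≤ c0 * (CA * CB) := mul_nonneg c0_nonneg hC
  refine expect_le hF X X X _ _ hC' _ fun N p hp _ _ _ e4 _ _ => ?_
  rw [k3_self, k2_self] at hp ⊢
  have hc := chk_final p hp
  rw [e4] at hc
  exact (h1 X N).trans
    (mul_le_mul_of_nonneg_left (zpow_le_zpow_right₀ hq1 (by linarith)) hC')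

theorem chain_bound (C : ℝ) : ∃ K : ℝ, ∀ (F : Type) [Field F] [Fintype F] [DecidableEq F],
    ringChar F ≠ 2 → ∀ (T : Fin 12 → SS F → SS F → SS F → ℝ) (f : Fin 12 → Bool),
    (∀ b, Bnd (T b) (dz (f b) ph) C) → (∃ b, f b = true) →
    𝔼 X : Fin 8 → SS F, ∏ b, T b (X (fc b 0)) (X (fc b 1)) (X (fc b 2))
      ≤ K * (Fintype.card F : ℝ) ^ (-1 : ℤ) := by
  refine ⟨?_, fun F _ _ _ hF T f hT hf => ?_⟩
  swap
  rw [expect_eight]
  simp only [prod_faces, ← Finset.mul_expect, ← Finset.expect_mul]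
  have d1 := sub_bound hF (hT 9) (hT 10) (hT 11) (chk1 _ _ _)
  have d2 := sub_bound hF d1 (hT 7) (hT 8) (chk2 _ _ _)
  have d3 := sub_bound hF (hT 5) (hT 6) d2 (chk3 _ _ _)
  have d4 := sub_bound hF (hT 3) (hT 4) d3 (chk4 _ _ _)
  have d5 := sub_bound hF (hT 1) (hT 2) d4 (chk5 _ _ _)
  refine close_bound hF (hT 0) d5 ?_
  obtain ⟨b, hb⟩ := hf
  fin_cases b <;> simp only [Bool.or_eq_true] <;> tauto

theorem faceK_eq (a : Fin 3 → Bool) (X : Fin 3 → SS F) :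
    faceK a X = 𝔼 M : SS F, wb (a 0) (X 0) M * wb (a 1) (X 1) M * wb (a 2) (X 2) M := by
  unfold faceK wb
  simp only [Fin.prod_univ_three]

theorem union_bound (a : Fin 12 → Fin 3 → Bool) (X : Fin 8 → SS F) :
    (if ∃ q, k2 (X (e1 q)) (X (e2 q)) ≠ 0 then
        ∏ b, faceK (a b) (fun i => X (fc b i)) else 0)
      ≤ ∑ b0 : Fin 12, ∏ b, faceD (a b) (decide (b = b0)) (X (fc b 0)) (X (fc b 1))
        (X (fc b 2)) := by
  have hnn : ∀ b0 : Fin 12, 0 ≤ ∏ b, faceD (a b) (decide (b = b0)) (X (fc b 0)) (X (fc b 1))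
      (X (fc b 2)) := by
    intro b0
    refine Finset.prod_nonneg fun b _ => ?_
    unfold faceD
    split_ifs
    · exact le_rfl
    · exact Finset.expect_nonneg fun M _ =>
        mul_nonneg (mul_nonneg (wb_nonneg _ _ _) (wb_nonneg _ _ _)) (wb_nonneg _ _ _)
  split_ifs with h
  · obtain ⟨q, hq⟩ := h
    refine le_trans (le_of_eq ?_)
      (Finset.single_le_sum (fun b0 _ => hnn b0) (Finset.mem_univ (qs q 0).1))
    refine Finset.prod_congr rfl fun b _ => ?_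
    unfold faceD
    rw [if_neg, faceK_eq]
    rintro ⟨hb, h01, h02, h12⟩
    have hb' : b = (qs q 0).1 := of_decide_eq_true hb
    apply hq
    have hall : ∀ p, k2 (X (fc b (pa p))) (X (fc b (pb p))) = 0 := by
      intro p
      fin_cases p
      · exact h01
      · exact h02
      · exact h12
    have := hall (qs q 0).2
    rw [fc_pa, fc_pb, hb', sd_qs] at this
    exact this
  · exact Finset.sum_nonneg fun b0 _ => hnn b0

/-- Configurations with a degenerate difference along an edge have negligible weight. -/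
theorem degenerate_small (η : ℝ) (hη : 0 < η) : ∃ q0 : ℕ, ∀ (F : Type) [Field F] [Fintype F]
    [DecidableEq F], ringChar F ≠ 2 → q0 ≤ Fintype.card F →
    ∀ a : Fin 12 → Fin 3 → Bool,
      𝔼 X : Fin 8 → SS F, (if ∃ q, k2 (X (e1 q)) (X (e2 q)) ≠ 0 then
        ∏ b, faceK (a b) (fun i => X (fc b i)) else 0) ≤ η := by
  obtain ⟨K, hK⟩ := chain_bound (1 + c0 * 27)
  have h0 : Filter.Tendsto (fun q : ℕ => 12 * K / (q : ℝ)) Filter.atTop (nhds 0) :=
    tendsto_const_div_atTop_nhds_zero_nat _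
  obtain ⟨q0, hq0⟩ := Filter.eventually_atTop.1
    ((h0.eventually (ge_mem_nhds hη)).and (Filter.eventually_ge_atTop 3))
  refine ⟨q0, fun F _ _ _ hF hq a => ?_⟩
  obtain ⟨hq1, hq3⟩ := hq0 _ hq
  refine (Finset.expect_le_expect fun X _ => union_bound a X).trans ?_
  rw [Finset.expect_sum_comm]
  have hb : ∀ b0 ∈ (Finset.univ : Finset (Fin 12)), 𝔼 X : Fin 8 → SS F,
      ∏ b, faceD (a b) (decide (b = b0)) (X (fc b 0)) (X (fc b 1)) (X (fc b 2))
      ≤ K * (Fintype.card F : ℝ) ^ (-1 : ℤ) := fun b0 _ =>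
    hK F hF (fun b => faceD (a b) (decide (b = b0))) (fun b => decide (b = b0))
      (fun b => faceD_bnd hF hq3 _ _) ⟨b0, decide_eq_true rfl⟩
  refine (Finset.sum_le_card_nsmul _ _ _ hb).trans (le_trans (le_of_eq ?_) hq1)
  rw [Finset.card_univ, Fintype.card_fin, nsmul_eq_mul, zpow_neg_one, div_eq_mul_inv]
  push_cast
  ring

end Vale.Agent.P050
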