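import Vale.Agent.P050.Defs

set_option maxSynthPendingDepth 3

namespace Vale.Agent.P050

open Module
open scoped BigOperators

section Gram

variable {F V : Type} [Field F] [AddCommGroup V] [Module F V]

/-- Change of generating family (modulo the kernel) in a Gram matrix. -/
theorem gram_change {ι κ : Type} [Fintype κ] (R : SF F V) (w : ι → V) (v : κ → V)
    (A : Matrix ι κ F) (h : ∀ i, w i - ∑ j, A i j • v j ∈ LinearMap.ker R.1) :
    (Matrix.of fun i j => R.1 (w i) (w j)) =
      A * (Matrix.of fun i j => R.1 (v i) (v j)) * A.transpose := by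
  have h1 : ∀ i, R.1 (w i) = ∑ j, A i j • R.1 (v j) := by
    intro i
    have := h i
    rw [LinearMap.mem_ker, map_sub, sub_eq_zero] at this
    rw [this, map_sum]
    simp only [map_smul]
  have h2 : ∀ x i, R.1 x (w i) = ∑ j, R.1 x (v j) * A i j := by
    intro x i
    rw [SF.symm, h1, LinearMap.sum_apply]
    refine Finset.sum_congr rfl fun j _ => ?_
    rw [LinearMap.smul_apply, smul_eq_mul, SF.symm R (v j), mul_comm]
  ext i j
  simp only [Matrix.of_apply, Matrix.mul_apply, Matrix.transpose_apply]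
  rw [h2]
  refine Finset.sum_congr rfl fun k _ => ?_
  rw [h1, LinearMap.sum_apply]
  simp only [LinearMap.smul_apply, smul_eq_mul]

theorem det_gram_eq_zero_iff [DecidableEq F] {n : ℕ} (S : SF F (Fin n → F)) :
    (Matrix.of fun i j : Fin n => S.1 (Pi.single i 1) (Pi.single j 1)).det = 0 ↔
      LinearMap.ker S.1 ≠ ⊥ := by
  have h1 : ∀ (v : Fin n → F) i,
      Matrix.mulVec (Matrix.of fun i j : Fin n => S.1 (Pi.single i 1) (Pi.single j 1)) v i =
        S.1 v (Pi.single i 1) := by
    intro v i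
    rw [SF.symm]
    conv_rhs => rw [pi_eq_sum_univ' v]
    simp [Matrix.mulVec, dotProduct, map_sum, mul_comm]
  rw [← Matrix.exists_mulVec_eq_zero_iff, Submodule.ne_bot_iff]
  constructor
  · rintro ⟨v, hv, h⟩
    refine ⟨v, ?_, hv⟩
    rw [LinearMap.mem_ker]
    refine (Pi.basisFun F (Fin n)).ext fun i => ?_
    rw [Pi.basisFun_apply, ← h1, h]
    rfl
  · rintro ⟨v, h, hv⟩
    refine ⟨v, hv, funext fun i => ?_⟩
    rw [h1, LinearMap.mem_ker.1 h]
    rfl

end Gram

variable {F : Type} [Field F] [Fintype F] [DecidableEq F]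

theorem theta_sq (R : SS F) : theta R * theta R = 1 := by
  unfold theta
  split_ifs <;> norm_num

theorem theta_neg (h1 : IsSquare (-1 : F)) (R : SS F) : theta (-R) = theta R := by
  have key : ∀ R : SS F, (∃ v : Fin 5 → VV F, (Matrix.of fun i j => R.1 (v i) (v j)).det ≠ 0 ∧
      IsSquare (Matrix.of fun i j => R.1 (v i) (v j)).det) →
      ∃ v : Fin 5 → VV F, (Matrix.of fun i j => (-R).1 (v i) (v j)).det ≠ 0 ∧
      IsSquare (Matrix.of fun i j => (-R).1 (v i) (v j)).det := by
    rintro R ⟨v, h2, h3⟩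
    have h4 : (Matrix.of fun i j => (-R).1 (v i) (v j)) =
        -(Matrix.of fun i j => R.1 (v i) (v j)) := by
      ext i j; simp
    refine ⟨v, ?_⟩
    rw [h4, Matrix.det_neg]
    exact ⟨mul_ne_zero (pow_ne_zero _ (neg_ne_zero.2 one_ne_zero)) h2, (h1.pow _).mul h3⟩
  unfold theta
  by_cases h : ∃ v : Fin 5 → VV F, (Matrix.of fun i j => R.1 (v i) (v j)).det ≠ 0 ∧
      IsSquare (Matrix.of fun i j => R.1 (v i) (v j)).det
  · rw [if_pos h, if_pos (key R h)]
  · rw [if_neg h, if_neg fun h' => h (by simpa only [neg_neg] using key (-R) h')]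

theorem Wz_comm (h1 : IsSquare (-1 : F)) (z : SignType) (x y : Pt F) : Wz z x y = Wz z y x := by
  unfold Wz wt
  rw [k2_comm x.1 y.1, ← theta_neg h1 (x.1 - y.1), neg_sub]
  split_ifs <;> ring

theorem sigma_mem (S : SS F) : sigma S = 0 ∨ sigma S = 1 ∨ sigma S = -1 := by
  unfold sigma
  rcases quadraticChar_isQuadratic F (Matrix.of fun i j : Fin 10 =>
    S.1 (Pi.single i 1) (Pi.single j 1)).det with h | h | h <;> simp [h]

theorem det_ne_zero_of_k2 (X Y : SS F) (h : k2 X Y = 0) : (Matrix.of fun i j : Fin 10 =>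
    (X - Y).1 (Pi.single i 1) (Pi.single j 1)).det ≠ 0 := by
  rw [Ne, det_gram_eq_zero_iff, not_not]
  exact Submodule.finrank_eq_zero.1 h

theorem sigma_sq (X Y : SS F) (h : k2 X Y = 0) : sigma (X - Y) * sigma (X - Y) = 1 := by
  unfold sigma
  rcases quadraticChar_dichotomy (det_ne_zero_of_k2 X Y h) with h | h <;> rw [h] <;> norm_num

theorem theta_eq (R : SS F) (v : Fin 5 → VV F)
    (hv : ∀ x, ∃ a : Fin 5 → F, x - ∑ j, a j • v j ∈ LinearMap.ker R.1)
    (hd : (Matrix.of fun i j => R.1 (v i) (v j)).det ≠ 0) :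
    theta R = ((quadraticChar F (Matrix.of fun i j => R.1 (v i) (v j)).det : ℤ) : ℝ) := by
  unfold theta
  split_ifs with h
  · obtain ⟨w, hw, hsq⟩ := h
    choose a ha using hv
    have h1 := gram_change R w v (Matrix.of fun i => a (w i)) fun i => ha (w i)
    rw [← quadraticChar_one_iff_isSquare hw] at hsq
    rw [h1, Matrix.det_mul, Matrix.det_mul, Matrix.det_transpose] at hw hsq
    have h2 : (Matrix.of fun i => a (w i)).det ≠ 0 := right_ne_zero_of_mul hw
    rw [mul_right_comm, map_mul, ← pow_two, quadraticChar_sq_one' h2, one_mul] at hsq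
    rw [hsq]; norm_num
  · rw [quadraticChar_neg_one_iff_not_isSquare.2 fun hs => h ⟨v, hd, hs⟩]; norm_num

/-- The discriminant is multiplicative over the orthogonal splitting by the two kernels. -/
theorem theta_mul_theta (h1 : IsSquare (-1 : F)) (X Y M : SS F)
    (hXY : k2 X Y = 0) (hX : k2 X M = 5) (hY : k2 Y M = 5) :
    theta (X - M) * theta (Y - M) = sigma (X - Y) := by
  have hinf : kr X M ⊓ kr Y M = ⊥ := by
    rw [eq_bot_iff, ← Submodule.finrank_eq_zero.1 hXY]
    intro x hx
    rw [mem_kr, mem_kr.1 hx.1, mem_kr.1 hx.2]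
  have hsup : kr X M ⊔ kr Y M = ⊤ := by
    apply Submodule.eq_top_of_finrank_eq
    have := Submodule.finrank_sup_add_finrank_inf_eq (kr X M) (kr Y M)
    rw [hinf, finrank_bot] at this
    unfold k2 at hX hY
    simp only [Module.finrank_fintype_fun_eq_card, Fintype.card_fin]
    omega
  let bu := Module.finBasisOfFinrankEq F (kr X M) hX
  let bv := Module.finBasisOfFinrankEq F (kr Y M) hY
  let u : Fin 5 → VV F := fun i => bu i
  let v : Fin 5 → VV F := fun i => bv i
  have hu : ∀ i, X.1 (u i) = M.1 (u i) := fun i => mem_kr.1 (bu i).2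
  have hv : ∀ i, Y.1 (v i) = M.1 (v i) := fun i => mem_kr.1 (bv i).2
  have hdec : ∀ x : VV F, ∃ a b : Fin 5 → F, x = ∑ j, a j • u j + ∑ j, b j • v j ∧
      ∑ j, a j • u j ∈ kr X M ∧ ∑ j, b j • v j ∈ kr Y M := by
    intro x
    have hx : x ∈ kr X M ⊔ kr Y M := hsup ▸ Submodule.mem_top
    obtain ⟨y, hy, z, hz, rfl⟩ := Submodule.mem_sup.1 hx
    have e1 : ∑ j, bu.repr ⟨y, hy⟩ j • u j = y := by
      have := congrArg Subtype.val (bu.sum_repr ⟨y, hy⟩)
      rw [Submodule.coe_sum] at this
      exact this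
    have e2 : ∑ j, bv.repr ⟨z, hz⟩ j • v j = z := by
      have := congrArg Subtype.val (bv.sum_repr ⟨z, hz⟩)
      rw [Submodule.coe_sum] at this
      exact this
    exact ⟨bu.repr ⟨y, hy⟩, bv.repr ⟨z, hz⟩, by rw [e1, e2], e1.symm ▸ hy, e2.symm ▸ hz⟩
  choose a b hab ha hb using hdec
  let e : Fin 5 ⊕ Fin 5 ≃ Fin 10 := finSumFinEquiv
  have hG := gram_change (X - Y) (fun i : Fin 5 ⊕ Fin 5 => (Pi.single (e i) 1 : VV F))
    (Sum.elim u v) (Matrix.of fun i => Sum.elim (a (Pi.single (e i) 1)) (b (Pi.single (e i) 1)))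
    (fun i => by
      rw [Fintype.sum_sum_type]
      simp only [Matrix.of_apply, Sum.elim_inl, Sum.elim_inr]
      rw [← hab, sub_self]
      exact Submodule.zero_mem _)
  have hB : (Matrix.of fun i j => (X - Y).1 (Sum.elim u v i) (Sum.elim u v j)) =
      Matrix.fromBlocks (-(Matrix.of fun i j => (Y - M).1 (u i) (u j))) 0 0
        (Matrix.of fun i j => (X - M).1 (v i) (v j)) := by
    ext i j
    rcases i with i | i <;> rcases j with j | j
    · simp [hu]
    · simp only [Matrix.of_apply, Sum.elim_inl, Sum.elim_inr, Matrix.fromBlocks_apply₁₂,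
        Matrix.zero_apply, AddSubgroupClass.coe_sub, LinearMap.sub_apply]
      rw [hu, SF.symm Y, hv, SF.symm M, sub_self]
    · simp only [Matrix.of_apply, Sum.elim_inl, Sum.elim_inr, Matrix.fromBlocks_apply₂₁,
        Matrix.zero_apply, AddSubgroupClass.coe_sub, LinearMap.sub_apply]
      rw [hv, SF.symm X, hu, SF.symm M, sub_self]
    · simp [hv]
  have hD : (Matrix.of fun i j : Fin 10 => (X - Y).1 (Pi.single i 1) (Pi.single j 1)).det =
      (Matrix.of fun i j : Fin 5 ⊕ Fin 5 =>
        (X - Y).1 (Pi.single (e i) 1) (Pi.single (e j) 1)).det := by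
    rw [← Matrix.det_submatrix_equiv_self e]
    rfl
  have hne := det_ne_zero_of_k2 X Y hXY
  unfold sigma
  rw [hD, hG, hB, Matrix.det_mul, Matrix.det_mul, Matrix.det_transpose,
    Matrix.det_fromBlocks_zero₂₁, Matrix.det_neg] at hne ⊢
  have n1 := right_ne_zero_of_mul hne
  have n2 := right_ne_zero_of_mul (left_ne_zero_of_mul hne)
  have n3 := right_ne_zero_of_mul n2
  have n4 := right_ne_zero_of_mul (left_ne_zero_of_mul n2)
  rw [theta_eq (X - M) v (fun x => ⟨b x, by
      have : x - ∑ j, b x j • v j = ∑ j, a x j • u j := by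
        rw [sub_eq_iff_eq_add]; exact hab x
      rw [this]; exact ha x⟩) n3,
    theta_eq (Y - M) u (fun x => ⟨a x, by
      have : x - ∑ j, a x j • u j = ∑ j, b x j • v j := by
        rw [sub_eq_iff_eq_add']; exact hab x
      rw [this]; exact hb x⟩) n4,
    mul_right_comm, map_mul, ← pow_two, quadraticChar_sq_one' n1, one_mul, map_mul, map_mul,
    map_pow, (quadraticChar_one_iff_isSquare (neg_ne_zero.2 one_ne_zero)).2 h1]
  push_cast
  ring

end Vale.Agent.P050
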