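import Vale.Agent.P050.SymForms
import Vale.Agent.P050.Sign

set_option maxSynthPendingDepth 3

namespace Vale.Agent.P050

open Module
open scoped BigOperators

theorem expect_shift {G H : Type} [AddCommGroup G] [Fintype G] [Fintype H] [Nonempty H]
    (s : H → G) (φ : G → ℝ) : 𝔼 x, φ x = 𝔼 x, 𝔼 y, φ (x + s y) := by
  rw [Finset.expect_comm, ← Fintype.expect_const (ι := H) (𝔼 x, φ x)]
  refine Finset.expect_congr rfl fun y _ => ?_
  exact (Fintype.expect_equiv (Equiv.addRight (s y)) _ _ fun x => rfl).symm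

theorem expect_push {G H : Type} [AddCommGroup G] [Fintype G] [AddCommGroup H] [Fintype H]
    (ρ : G → H) (s : H → G) (h : ∀ x y, ρ (x + s y) = ρ x + y) (φ : H → ℝ) :
    𝔼 x, φ (ρ x) = 𝔼 y, φ y := by
  rw [expect_shift s, ← Fintype.expect_const (ι := G) (𝔼 y, φ y)]
  refine Finset.expect_congr rfl fun x _ => ?_
  simp only [h]
  exact Fintype.expect_equiv (Equiv.addLeft (ρ x)) _ _ fun y => rfl

variable {F : Type} [Field F] [Fintype F] [DecidableEq F]

theorem sum_char_shift (hF : ringChar F ≠ 2) (c : F) (hc : c ≠ 0) :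
    ∑ u : F, quadraticChar F u * quadraticChar F (u + c) = -1 := by
  have h1 : ∀ u : F, quadraticChar F u * quadraticChar F (u + c) =
      quadraticChar F (1 + c * u⁻¹) - if u = 0 then 1 else 0 := by
    intro u
    by_cases hu : u = 0
    · simp [hu]
    · have : u + c = u * (1 + c * u⁻¹) := by field_simp
      rw [if_neg hu, this, map_mul, ← mul_assoc, ← pow_two, quadraticChar_sq_one hu]
      ring
  simp only [h1, Finset.sum_sub_distrib, Finset.sum_ite_eq', Finset.mem_univ, if_true]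
  have h2 : ∑ u : F, quadraticChar F (1 + c * u⁻¹) = ∑ w : F, quadraticChar F w :=
    Fintype.sum_equiv (((Equiv.inv F).trans (Equiv.mulLeft₀ c hc)).trans (Equiv.addLeft 1)) _ _
      fun u => rfl
  rw [h2, quadraticChar_sum_zero hF]
  norm_num

theorem abs_char_le (a : F) : |((quadraticChar F a : ℤ) : ℝ)| ≤ 1 := by
  rcases quadraticChar_isQuadratic F a with h | h | h <;> simp [h]

theorem expect_char_corr (hF : ringChar F ≠ 2) (D m : F) (hm : m ≠ 0) (s s' : F) :
    |𝔼 t : F, ((quadraticChar F (D + (t - s) * m) : ℤ) : ℝ) *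
      ((quadraticChar F (D + (t - s') * m) : ℤ) : ℝ)| ≤
      (if s = s' then 1 else 0) + 1 / (Fintype.card F : ℝ) := by
  have hq : (0 : ℝ) < Fintype.card F := by exact_mod_cast Fintype.card_pos
  split_ifs with h
  · refine le_trans (Finset.abs_expect_le _ _) (le_trans (Finset.expect_le
      Finset.univ_nonempty (a := 1) fun t _ => ?_) (le_add_of_nonneg_right (by positivity)))
    rw [abs_mul]
    exact mul_le_one₀ (abs_char_le _) (abs_nonneg _) (abs_char_le _)
  · have h1 : ∑ t : F, quadraticChar F (D + (t - s) * m) * quadraticChar F (D + (t - s') * m)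
        = -1 := by
      rw [← sum_char_shift hF ((s - s') * m) (mul_ne_zero (sub_ne_zero.2 h) hm)]
      refine Fintype.sum_equiv (((Equiv.subRight s).trans (Equiv.mulRight₀ m hm)).trans
        (Equiv.addLeft D)) _ _ fun t => ?_
      have e : D + (t - s') * m = D + (t - s) * m + (s - s') * m := by ring
      rw [e]
      rfl
    have h2 : ∑ t : F, ((quadraticChar F (D + (t - s) * m) : ℤ) : ℝ) *
        ((quadraticChar F (D + (t - s') * m) : ℤ) : ℝ) = -1 := by exact_mod_cast h1
    rw [Fintype.expect_eq_sum_div_card, h2, zero_add, abs_div, abs_neg, abs_one, abs_of_pos hq]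

/-- The bilinear bound for the quadratic character along a line. -/
theorem paley_bound (hF : ringChar F ≠ 2) (D m : F) (hm : m ≠ 0) (f g : F → ℝ)
    (hf : ∀ t, |f t| ≤ 1) (hg : ∀ s, |g s| ≤ 1) :
    (𝔼 t : F, 𝔼 s : F, ((quadraticChar F (D + (t - s) * m) : ℤ) : ℝ) * f t * g s) ^ 2 ≤
      2 / (Fintype.card F : ℝ) := by
  set K : F → F → ℝ := fun t s => ((quadraticChar F (D + (t - s) * m) : ℤ) : ℝ) with hK
  have e1 : ∀ t, 𝔼 s : F, K t s * f t * g s = f t * 𝔼 s : F, K t s * g s := by
    intro t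
    rw [Finset.mul_expect]
    exact Finset.expect_congr rfl fun s _ => by ring
  have e2 : 𝔼 t : F, (𝔼 s : F, K t s * g s) ^ 2 =
      𝔼 s : F, 𝔼 s' : F, g s * g s' * 𝔼 t : F, K t s * K t s' := by
    simp only [pow_two, Fintype.expect_mul_expect]
    simp only [Finset.mul_expect]
    rw [Finset.expect_comm]
    refine Finset.expect_congr rfl fun s _ => ?_
    rw [Finset.expect_comm]
    exact Finset.expect_congr rfl fun s' _ => Finset.expect_congr rfl fun t _ => by ring
  have h1 : 𝔼 t : F, f t ^ 2 ≤ 1 :=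
    Finset.expect_le Finset.univ_nonempty fun t _ => (sq_le_one_iff_abs_le_one _).2 (hf t)
  have h2 : 𝔼 t : F, (𝔼 s : F, K t s * g s) ^ 2 ≤ 2 / (Fintype.card F : ℝ) := by
    rw [e2]
    refine Finset.expect_le Finset.univ_nonempty fun s _ => ?_
    calc _ ≤ 𝔼 s' : F, ((if s = s' then (1 : ℝ) else 0) + 1 / (Fintype.card F : ℝ)) := by
          refine Finset.expect_le_expect fun s' _ => le_trans (le_abs_self _) ?_
          rw [abs_mul, abs_mul]
          refine le_trans (mul_le_of_le_one_left (abs_nonneg _)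
            (mul_le_one₀ (hg s) (abs_nonneg _) (hg s'))) ?_
          exact expect_char_corr hF D m hm s s'
      _ = _ := by
          rw [Finset.expect_add_distrib, Fintype.expect_const, Fintype.expect_eq_sum_div_card]
          simp only [Finset.sum_ite_eq, Finset.mem_univ, if_true]
          ring
  change (𝔼 t : F, 𝔼 s : F, K t s * f t * g s) ^ 2 ≤ _
  simp only [e1]
  refine le_trans (Finset.expect_mul_sq_le_sq_mul_sq _ _ _) ?_
  refine le_trans (mul_le_of_le_one_left ?_ h1) h2
  exact Finset.expect_nonneg fun t _ => sq_nonneg _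

omit [Fintype F] [DecidableEq F] in
theorem det_add_corner {n : ℕ} (A : Fin (n + 1) → Fin (n + 1) → F) (t : F) :
    (Matrix.of fun i j => A i j + if i = 0 ∧ j = 0 then t else 0).det =
      (Matrix.of A).det + t * ((Matrix.of A).submatrix Fin.succ Fin.succ).det := by
  have h : ∀ j : Fin (n + 1), (Matrix.of fun i j => A i j +
      if i = 0 ∧ j = 0 then t else 0).submatrix Fin.succ j.succAbove =
      (Matrix.of A).submatrix Fin.succ j.succAbove := by
    intro j
    ext a b
    simp
  rw [Matrix.det_succ_row_zero, Matrix.det_succ_row_zero (Matrix.of A)]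
  simp only [h, Fin.sum_univ_succ, Matrix.of_apply, true_and, if_true, Fin.succ_ne_zero, if_false,
    add_zero, Fin.val_zero, pow_zero, one_mul, Fin.succAbove_zero]
  ring

/-- The rank one form given by the first coordinate. -/
def rk1 (F : Type) [Field F] : SS F :=
  ⟨(LinearMap.mul F F).compl₁₂ (LinearMap.proj 0) (LinearMap.proj 0), fun x y => mul_comm _ _⟩

/-- Restriction of a form to the last nine coordinates. -/
def resF (X : SS F) : SF F (Fin 9 → F) :=
  ⟨X.1.compl₁₂ (LinearMap.pi fun i : Fin 10 => Fin.cases 0 (fun k => LinearMap.proj k) i)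
    (LinearMap.pi fun i : Fin 10 => Fin.cases 0 (fun k => LinearMap.proj k) i),
    fun _ _ => SF.symm X _ _⟩

/-- Extension of a form on the last nine coordinates. -/
def extF (Y : SF F (Fin 9 → F)) : SS F :=
  ⟨Y.1.compl₁₂ (LinearMap.funLeft F F Fin.succ) (LinearMap.funLeft F F Fin.succ),
    fun _ _ => SF.symm Y _ _⟩

omit [Fintype F] [DecidableEq F] in
theorem resF_add_extF (X : SS F) (Y : SF F (Fin 9 → F)) : resF (X + extF Y) = resF X + Y :=
  rfl

omit [Fintype F] in
theorem det_add_rk1 (X : SS F) (t : F) :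
    (Matrix.of fun i j : Fin 10 => (X + t • rk1 F).1 (Pi.single i 1) (Pi.single j 1)).det =
      (Matrix.of fun i j : Fin 10 => X.1 (Pi.single i 1) (Pi.single j 1)).det + t *
        (Matrix.of fun i j : Fin 9 => (resF X).1 (Pi.single i 1) (Pi.single j 1)).det := by
  have h1 : ∀ i : Fin 9, (LinearMap.pi fun i : Fin 10 =>
      Fin.cases (motive := fun _ => (Fin 9 → F) →ₗ[F] F) 0 (fun k => LinearMap.proj k) i)
      (Pi.single i (1 : F)) = Pi.single i.succ 1 := by
    intro i
    funext k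
    refine Fin.cases ?_ (fun k => ?_) k
    · simp
    · simp [Pi.single_apply]
  have h2 : (Matrix.of fun i j : Fin 9 => (resF X).1 (Pi.single i 1) (Pi.single j 1)) =
      (Matrix.of fun i j : Fin 10 => X.1 (Pi.single i 1) (Pi.single j 1)).submatrix
        Fin.succ Fin.succ := by
    ext i j
    simp only [resF, Matrix.of_apply, LinearMap.compl₁₂_apply, h1, Matrix.submatrix_apply]
  have h3 : ∀ i j : Fin 10, (X + t • rk1 F).1 (Pi.single i 1) (Pi.single j 1) =
      X.1 (Pi.single i 1) (Pi.single j 1) + if i = 0 ∧ j = 0 then t else 0 := by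
    intro i j
    by_cases hi : i = 0 <;> by_cases hj : j = 0 <;> simp [rk1, hi, hj]
  rw [h2]
  simp only [h3]
  exact det_add_corner _ t

theorem abs_sigma_le (S : SS F) : |sigma S| ≤ 1 := abs_char_le _

theorem pair_bound (hF : ringChar F ≠ 2) {δ : ℝ} (hδ : 0 ≤ δ)
    (hq : 2 / (Fintype.card F : ℝ) ≤ δ ^ 2) (S : SS F) (f g : F → ℝ)
    (hf : ∀ t, |f t| ≤ 1) (hg : ∀ s, |g s| ≤ 1) :
    |𝔼 t : F, 𝔼 s : F, sigma (S + (t - s) • rk1 F) * f t * g s| ≤
      (if LinearMap.ker (resF S).1 ≠ ⊥ then 1 else 0) + δ := by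
  split_ifs with h
  · refine le_trans ?_ (le_add_of_nonneg_right hδ)
    refine le_trans (Finset.abs_expect_le _ _) (Finset.expect_le Finset.univ_nonempty fun t _ => ?_)
    refine le_trans (Finset.abs_expect_le _ _) (Finset.expect_le Finset.univ_nonempty fun s _ => ?_)
    rw [abs_mul, abs_mul]
    exact mul_le_one₀ (mul_le_one₀ (abs_sigma_le _) (abs_nonneg _) (hf t)) (abs_nonneg _) (hg s)
  · rw [← det_gram_eq_zero_iff] at h
    rw [zero_add]
    refine abs_le_of_sq_le_sq (le_trans ?_ hq) hδ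
    unfold sigma
    simp only [det_add_rk1]
    exact paley_bound hF _ _ h f g hf hg

theorem expect_degenerate_le :
    𝔼 Y : SF F (Fin 9 → F), (if LinearMap.ker Y.1 ≠ ⊥ then (1 : ℝ) else 0) ≤
      2 / (Fintype.card F : ℝ) := by
  have hq : (0 : ℝ) < Fintype.card F := by exact_mod_cast Fintype.card_pos
  have hc : (0 : ℝ) < Fintype.card (SF F (Fin 9 → F)) := by exact_mod_cast Fintype.card_pos
  rw [Fintype.expect_eq_sum_div_card, Finset.sum_boole, div_le_div_iff₀ hc hq,
    ← Set.ncard_coe_finset, Finset.coe_filter_univ]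
  exact card_degenerate_le

theorem edge_aux : ∀ q q' : Fin 18, q' ≠ q → (e1 q' ≠ e2 q ∧ e2 q' ≠ e2 q) ∨
    (e1 q' ≠ e1 q ∧ e2 q' ≠ e1 q) := by decide

theorem edge_ne : ∀ q : Fin 18, e1 q ≠ e2 q := by decide

/-- Quasirandomness of the quadratic character of the determinant of differences. -/
theorem equi (η : ℝ) (hη : 0 < η) : ∃ q0 : ℕ, ∀ (F : Type) [Field F] [Fintype F]
    [DecidableEq F], ringChar F ≠ 2 → q0 ≤ Fintype.card F →
    ∀ Γ : Finset (Fin 18), Γ.Nonempty →
      |𝔼 X : Fin 8 → SS F, ∏ q ∈ Γ, sigma (X (e1 q) - X (e2 q))| ≤ η := by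
  have h0 : Filter.Tendsto (fun q : ℕ => 2 / (q : ℝ)) Filter.atTop (nhds 0) :=
    tendsto_const_div_atTop_nhds_zero_nat 2
  obtain ⟨q0, hq0⟩ := Filter.eventually_atTop.1
    ((h0.eventually (ge_mem_nhds (half_pos hη))).and
      (h0.eventually (ge_mem_nhds (pow_pos (half_pos hη) 2))))
  refine ⟨q0, fun F _ _ _ hF hq Γ ⟨q, hqΓ⟩ => ?_⟩
  obtain ⟨hq1, hq2⟩ := hq0 _ hq
  have hij := edge_ne q
  let sh : F × F → Fin 8 → SS F := fun p =>
    Pi.single (e1 q) (p.1 • rk1 F) + Pi.single (e2 q) (p.2 • rk1 F)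
  let T : (Fin 8 → SS F) → Fin 18 → F → F → ℝ := fun X q' t s =>
    sigma ((X + sh (t, s)) (e1 q') - (X + sh (t, s)) (e2 q'))
  have hprod : ∀ (X : Fin 8 → SS F) (t s : F), ∏ q' ∈ Γ, T X q' t s =
      sigma (X (e1 q) - X (e2 q) + (t - s) • rk1 F) *
      (∏ q' ∈ (Γ.erase q).filter (fun q' => e1 q' ≠ e2 q ∧ e2 q' ≠ e2 q), T X q' t 0) *
      ∏ q' ∈ (Γ.erase q).filter (fun q' => ¬ (e1 q' ≠ e2 q ∧ e2 q' ≠ e2 q)), T X q' 0 s := by
    intro X t s
    rw [← Finset.mul_prod_erase Γ _ hqΓ, mul_assoc, ← Finset.prod_filter_mul_prod_filter_not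
      (Γ.erase q) (fun q' => e1 q' ≠ e2 q ∧ e2 q' ≠ e2 q)]
    congr 1
    · simp only [T, sh, Pi.add_apply, Pi.single_eq_same, Pi.single_eq_of_ne hij,
        Pi.single_eq_of_ne hij.symm, sub_smul]
      congr 1
      abel
    congr 1
    · refine Finset.prod_congr rfl fun q' hq' => ?_
      obtain ⟨-, h1, h2⟩ := Finset.mem_filter.1 hq'
      simp only [T, sh, Pi.add_apply, Pi.single_eq_of_ne h1, Pi.single_eq_of_ne h2]
    · refine Finset.prod_congr rfl fun q' hq' => ?_
      obtain ⟨h0, h⟩ := Finset.mem_filter.1 hq'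
      obtain ⟨h1, h2⟩ := (edge_aux q q' (Finset.ne_of_mem_erase h0)).resolve_left h
      simp only [T, sh, Pi.add_apply, Pi.single_eq_of_ne h1, Pi.single_eq_of_ne h2]
  have habs : ∀ (s : Finset (Fin 18)) (u : Fin 18 → ℝ), (∀ q', |u q'| ≤ 1) →
      |∏ q' ∈ s, u q'| ≤ 1 := fun s u hu => by
    rw [Finset.abs_prod]
    exact Finset.prod_le_one (fun _ _ => abs_nonneg _) fun _ _ => hu _
  rw [expect_shift sh]
  refine le_trans (Finset.abs_expect_le _ _) ?_
  calc _ ≤ 𝔼 X : Fin 8 → SS F, ((if LinearMap.ker (resF (X (e1 q) - X (e2 q))).1 ≠ ⊥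
        then (1 : ℝ) else 0) + η / 2) := by
        refine Finset.expect_le_expect fun X _ => ?_
        rw [← Finset.univ_product_univ, Finset.expect_product]
        change |𝔼 t : F, 𝔼 s : F, ∏ q' ∈ Γ, T X q' t s| ≤ _
        simp only [hprod]
        exact pair_bound hF (half_pos hη).le hq2 _ _ _
          (fun t => habs _ _ fun _ => abs_sigma_le _) fun s => habs _ _ fun _ => abs_sigma_le _
    _ ≤ η / 2 + η / 2 := by
        rw [Finset.expect_add_distrib, Fintype.expect_const]
        refine add_le_add_left (le_trans (le_of_eq ?_) (expect_degenerate_le.trans hq1)) _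
        refine expect_push (fun X : Fin 8 → SS F => resF (X (e1 q) - X (e2 q)))
          (fun Y => Pi.single (e1 q) (extF Y)) (fun X Y => ?_)
          fun Y => if LinearMap.ker Y.1 ≠ ⊥ then (1 : ℝ) else 0
        simp only [Pi.add_apply, Pi.single_eq_same, Pi.single_eq_of_ne hij.symm, add_zero]
        rw [add_sub_right_comm, resF_add_extF]
    _ = η := add_halves η

end Vale.Agent.P050
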