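import Vale.Agent.P050.Triple
import Vale.Agent.P050.Sign

set_option maxSynthPendingDepth 3

namespace Vale.Agent.P050

open Module
open scoped BigOperators

theorem face_num (η : ℝ) (hη : 0 < η) : ∃ q0 : ℕ, ∀ q : ℕ, q0 ≤ q → 3 ≤ q ∧
    1 ≤ (1 + η) * ((1 - 1 / (q : ℝ)) ^ 5 * (1 - 2 / (q : ℝ)) ^ 2) ∧
    (1 + 1 / (q : ℝ)) ^ 4 ≤ (1 + η) * ((1 - 1 / (q : ℝ)) ^ 5 * (1 - 2 / (q : ℝ)) ^ 3) := by
  have h0 : Filter.Tendsto (fun q : ℕ => 1 / (q : ℝ)) Filter.atTop (nhds 0) :=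
    tendsto_one_div_atTop_nhds_zero_nat
  have c1 : Continuous fun u : ℝ => (1 + η) * ((1 - u) ^ 5 * (1 - 2 * u) ^ 2) - 1 := by fun_prop
  have c2 : Continuous fun u : ℝ =>
      (1 + η) * ((1 - u) ^ 5 * (1 - 2 * u) ^ 3) - (1 + u) ^ 4 := by fun_prop
  have e1 := ((c1.tendsto 0).comp h0).eventually (lt_mem_nhds (a := 0) (by simpa using hη))
  have e2 := ((c2.tendsto 0).comp h0).eventually (lt_mem_nhds (a := 0) (by simpa using hη))
  obtain ⟨q0, h⟩ := Filter.eventually_atTop.1 ((Filter.eventually_ge_atTop 3).and (e1.and e2))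
  refine ⟨q0, fun q hq => ?_⟩
  obtain ⟨h1, h2, h3⟩ := h q hq
  simp only [Function.comp_apply, mul_one_div] at h2 h3
  exact ⟨h1, by linarith, by linarith⟩

variable {F : Type} [Field F] [Fintype F] [DecidableEq F]

theorem expect_ite_const (P : SS F → Prop) [DecidablePred P] (c : ℝ) :
    𝔼 M : SS F, (if P M then c else 0) =
      (({M : SS F | P M}.ncard : ℕ) : ℝ) * c / (Fintype.card (SS F) : ℝ) := by
  rw [Finset.expect_eq_sum_div_card, ← Finset.sum_filter, Finset.sum_const, nsmul_eq_mul,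
    Finset.card_univ, ← Set.ncard_coe_finset, Finset.coe_filter_univ]

theorem expect_wt2_le {η : ℝ} (hη : 0 < η) (hq : 3 ≤ Fintype.card F)
    (h : 1 ≤ (1 + η) * ((1 - 1 / (Fintype.card F : ℝ)) ^ 5 * (1 - 2 / (Fintype.card F : ℝ)) ^ 2))
    (X Y : SS F) (hXY : k2 X Y = 0) : 𝔼 M : SS F, wt X M * wt Y M ≤ 1 + η := by
  have e : ∀ M, wt X M * wt Y M = if k2 X M = 5 ∧ k2 Y M = 5 then
      ((Fintype.card (SS F) : ℝ) / (nR F : ℝ)) ^ 2 else 0 := by
    intro M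
    unfold wt
    by_cases h1 : k2 X M = 5 <;> by_cases h2 : k2 Y M = 5 <;> simp [h1, h2, pow_two]
  simp only [e]
  rw [expect_ite_const, card_SS]
  have h1 := card_common2_le X Y hXY
  have h2 := nR_lower (F := F)
  have h3 := nR_pos hq
  push_cast
  generalize (({M : SS F | k2 X M = 5 ∧ k2 Y M = 5}.ncard : ℕ) : ℝ) = N at h1
  generalize (nR F : ℝ) = r at h2 h3
  have hq' : (3 : ℝ) ≤ Fintype.card F := by exact_mod_cast hq
  generalize (Fintype.card F : ℝ) = q at *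
  have hq0 : 0 < q := by linarith
  have ha : 0 < 1 - 1 / q := by rw [sub_pos, div_lt_one hq0]; linarith
  have hb : 0 < 1 - 2 / q := by rw [sub_pos, div_lt_one hq0]; linarith
  generalize 1 - 1 / q = a at *
  generalize 1 - 2 / q = b at *
  have e2 : N * (q ^ 55 / r) ^ 2 / q ^ 55 = N * q ^ 55 / r ^ 2 := by field_simp
  rw [e2, div_le_iff₀ (by positivity)]
  have h4 : (b * q ^ 40) ^ 2 ≤ r ^ 2 := by gcongr
  refine le_of_mul_le_mul_right ?_ (pow_pos ha 5)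
  calc N * q ^ 55 * a ^ 5 = N * a ^ 5 * q ^ 55 := by ring
    _ ≤ q ^ 25 * q ^ 55 := by gcongr
    _ = 1 * q ^ 80 := by ring
    _ ≤ (1 + η) * (a ^ 5 * b ^ 2) * q ^ 80 := by gcongr
    _ = (1 + η) * (b * q ^ 40) ^ 2 * a ^ 5 := by ring
    _ ≤ (1 + η) * r ^ 2 * a ^ 5 := by gcongr

theorem expect_wt3_le {η : ℝ} (hη : 0 < η) (hF : ringChar F ≠ 2) (hq : 3 ≤ Fintype.card F)
    (h : (1 + 1 / (Fintype.card F : ℝ)) ^ 4 ≤
      (1 + η) * ((1 - 1 / (Fintype.card F : ℝ)) ^ 5 * (1 - 2 / (Fintype.card F : ℝ)) ^ 3))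
    (X Y Z : SS F) (hXY : k2 X Y = 0) (hXZ : k2 X Z = 0) (hYZ : k2 Y Z = 0) :
    𝔼 M : SS F, wt X M * wt Y M * wt Z M ≤ 2 * (1 + η) := by
  have e : ∀ M, wt X M * wt Y M * wt Z M = if k2 X M = 5 ∧ k2 Y M = 5 ∧ k2 Z M = 5 then
      ((Fintype.card (SS F) : ℝ) / (nR F : ℝ)) ^ 3 else 0 := by
    intro M
    unfold wt
    by_cases h1 : k2 X M = 5 <;> by_cases h2 : k2 Y M = 5 <;> by_cases h3 : k2 Z M = 5 <;>
      simp [h1, h2, h3, pow_succ]
  simp only [e]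
  rw [expect_ite_const, card_SS]
  have h1 := card_common3_le hF X Y Z hXY hXZ hYZ
  have h2 := nR_lower (F := F)
  have h3 := nR_pos hq
  push_cast
  generalize (({M : SS F | k2 X M = 5 ∧ k2 Y M = 5 ∧ k2 Z M = 5}.ncard : ℕ) : ℝ) = N at h1
  generalize (nR F : ℝ) = r at h2 h3
  have hq' : (3 : ℝ) ≤ Fintype.card F := by exact_mod_cast hq
  generalize (Fintype.card F : ℝ) = q at *
  have hq0 : 0 < q := by linarith
  have ha : 0 < 1 - 1 / q := by rw [sub_pos, div_lt_one hq0]; linarith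
  have hb : 0 < 1 - 2 / q := by rw [sub_pos, div_lt_one hq0]; linarith
  generalize 1 - 1 / q = a at *
  generalize 1 - 2 / q = b at *
  generalize (1 + 1 / q) ^ 4 = c at *
  have e2 : N * (q ^ 55 / r) ^ 3 / q ^ 55 = N * q ^ 110 / r ^ 3 := by field_simp
  rw [e2, div_le_iff₀ (by positivity)]
  have h4 : (b * q ^ 40) ^ 3 ≤ r ^ 3 := by gcongr
  refine le_of_mul_le_mul_right ?_ (pow_pos ha 5)
  calc N * q ^ 110 * a ^ 5 = N * a ^ 5 * q ^ 110 := by ring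
    _ ≤ 2 * c * q ^ 10 * q ^ 110 := by gcongr
    _ = 2 * c * q ^ 120 := by ring
    _ ≤ 2 * ((1 + η) * (a ^ 5 * b ^ 3)) * q ^ 120 := by gcongr
    _ = 2 * (1 + η) * (b * q ^ 40) ^ 3 * a ^ 5 := by ring
    _ ≤ 2 * (1 + η) * r ^ 3 * a ^ 5 := by gcongr

/-- The unsigned weight of a corner. -/
noncomputable def wz (z : SignType) (X M : SS F) : ℝ := if z = 0 then 1 else wt X M

/-- The sign of a corner. -/
noncomputable def sz (z : SignType) (x : Pt F) (M : SS F) : ℝ :=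
  (z : ℝ) * sg x.2 * theta (x.1 - M)

theorem Wz_eq (z : SignType) (x : Pt F) (M : SS F) (e : Bool) :
    Wz z x (M, e) = wz z x.1 M * (1 + sz z x M * sg e) := by
  unfold Wz wz sz
  split_ifs with h
  · simp [h]
  · ring

theorem sz_mul_sz (h1 : IsSquare (-1 : F)) (z z' : SignType) (x x' : Pt F) (M : SS F)
    (h : k2 x.1 x'.1 = 0) (hw : wz z x.1 M ≠ 0) (hw' : wz z' x'.1 M ≠ 0) :
    sz z x M * sz z' x' M = (z : ℝ) * (z' : ℝ) * sigT x x' := by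
  unfold sz sigT
  by_cases hz : z = 0
  · simp [hz]
  by_cases hz' : z' = 0
  · simp [hz']
  unfold wz wt at hw hw'
  rw [if_neg hz] at hw
  rw [if_neg hz'] at hw'
  rw [← theta_mul_theta h1 x.1 x'.1 M h (by by_contra hc; exact hw (if_neg hc))
    (by by_contra hc; exact hw' (if_neg hc))]
  ring

theorem sz_sq (z : SignType) (hz : z ≠ 0) (x : Pt F) (M : SS F) : sz z x M * sz z x M = 1 := by
  have h1 : (z : ℝ) * (z : ℝ) = 1 := by cases z <;> simp at hz ⊢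
  have h2 : sg x.2 * sg x.2 = 1 := by cases x.2 <;> simp [sg]
  unfold sz
  calc _ = ((z : ℝ) * (z : ℝ)) * (sg x.2 * sg x.2) * (theta (x.1 - M) * theta (x.1 - M)) := by
        ring
    _ = 1 := by rw [h1, h2, theta_sq]; norm_num

theorem one_add_sigT_nonneg (z z' : SignType) (x x' : Pt F) :
    0 ≤ 1 + (z : ℝ) * (z' : ℝ) * sigT x x' := by
  unfold sigT
  rcases sigma_mem (x.1 - x'.1) with h | h | h <;> rw [h] <;> cases z <;> cases z' <;>
    cases x.2 <;> cases x'.2 <;> simp [sg]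

theorem expect_wz2_le {η : ℝ} (hη : 0 < η) (hq : 3 ≤ Fintype.card F)
    (h : 1 ≤ (1 + η) * ((1 - 1 / (Fintype.card F : ℝ)) ^ 5 * (1 - 2 / (Fintype.card F : ℝ)) ^ 2))
    (z z' : SignType) (X Y : SS F) (hXY : k2 X Y = 0) :
    𝔼 M : SS F, wz z X M * wz z' Y M ≤ 1 + η := by
  unfold wz
  by_cases hz : z = 0 <;> by_cases hz' : z' = 0 <;>
    simp only [hz, hz', if_true, if_false, one_mul, mul_one]
  · rw [Finset.expect_const Finset.univ_nonempty]; linarith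
  · rw [expect_wt hq]; linarith
  · rw [expect_wt hq]; linarith
  · exact expect_wt2_le hη hq h X Y hXY

theorem expect_face (h1 : IsSquare (-1 : F)) (z : Fin 3 → SignType) (x : Fin 3 → Pt F)
    (h01 : k2 (x 0).1 (x 1).1 = 0) (h02 : k2 (x 0).1 (x 2).1 = 0)
    (h12 : k2 (x 1).1 (x 2).1 = 0) :
    𝔼 y : Pt F, ∏ i, Wz (z i) (x i) y =
      (𝔼 M : SS F, wz (z 0) (x 0).1 M * wz (z 1) (x 1).1 M * wz (z 2) (x 2).1 M) *
        (1 + (z 0 : ℝ) * (z 1 : ℝ) * sigT (x 0) (x 1) + (z 0 : ℝ) * (z 2 : ℝ) * sigT (x 0) (x 2)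
          + (z 1 : ℝ) * (z 2 : ℝ) * sigT (x 1) (x 2)) := by
  rw [← Finset.univ_product_univ, Finset.expect_product, Finset.expect_mul]
  refine Finset.expect_congr rfl fun M _ => ?_
  rw [Finset.expect_eq_sum_div_card]
  simp only [Fin.prod_univ_three, Wz_eq, Fintype.univ_bool, Finset.mem_singleton,
    Bool.true_eq_false, not_false_eq_true, Finset.sum_insert, Finset.sum_singleton,
    Finset.card_insert_of_notMem, Finset.card_singleton, sg, if_true, Bool.false_eq_true,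
    if_false]
  by_cases w0 : wz (z 0) (x 0).1 M = 0
  · simp [w0]
  by_cases w1 : wz (z 1) (x 1).1 M = 0
  · simp [w1]
  by_cases w2 : wz (z 2) (x 2).1 M = 0
  · simp [w2]
  rw [← sz_mul_sz h1 _ _ _ _ M h01 w0 w1, ← sz_mul_sz h1 _ _ _ _ M h02 w0 w2,
    ← sz_mul_sz h1 _ _ _ _ M h12 w1 w2]
  push_cast
  ring

/-- The face kernel at three points in general position. -/
theorem face_generic (η : ℝ) (hη : 0 < η) : ∃ q0 : ℕ, ∀ (F : Type) [Field F] [Fintype F]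
    [DecidableEq F], ringChar F ≠ 2 → IsSquare (-1 : F) → q0 ≤ Fintype.card F →
    ∀ (z : Fin 3 → SignType) (x : Fin 3 → Pt F), (∀ p, k2 (x (pa p)).1 (x (pb p)).1 = 0) →
      𝔼 y : Pt F, ∏ i, Wz (z i) (x i) y ≤ (1 + η) *
        ∏ p, (1 + (z (pa p) : ℝ) * (z (pb p) : ℝ) * sigT (x (pa p)) (x (pb p))) := by
  obtain ⟨q0, hq0⟩ := face_num η hη
  refine ⟨q0, fun F _ _ _ hF h1 hq z x hx => ?_⟩
  obtain ⟨hq3, hn2, hn3⟩ := hq0 _ hq
  have h01 : k2 (x 0).1 (x 1).1 = 0 := hx 0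
  have h02 : k2 (x 0).1 (x 2).1 = 0 := hx 1
  have h12 : k2 (x 1).1 (x 2).1 = 0 := hx 2
  rw [expect_face h1 z x h01 h02 h12, Fin.prod_univ_three]
  change _ ≤ (1 + η) * ((1 + (z 0 : ℝ) * (z 1 : ℝ) * sigT (x 0) (x 1)) *
    (1 + (z 0 : ℝ) * (z 2 : ℝ) * sigT (x 0) (x 2)) *
    (1 + (z 1 : ℝ) * (z 2 : ℝ) * sigT (x 1) (x 2)))
  have p01 := one_add_sigT_nonneg (z 0) (z 1) (x 0) (x 1)
  have p02 := one_add_sigT_nonneg (z 0) (z 2) (x 0) (x 2)
  have p12 := one_add_sigT_nonneg (z 1) (z 2) (x 1) (x 2)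
  have w0 : ∀ X M : SS F, wz 0 X M = 1 := fun X M => if_pos rfl
  by_cases z0 : z 0 = 0
  · simp only [z0, w0, SignType.coe_zero, zero_mul, add_zero, one_mul]
    exact mul_le_mul_of_nonneg_right (expect_wz2_le hη hq3 hn2 _ _ _ _ h12) p12
  by_cases z1 : z 1 = 0
  · simp only [z1, w0, SignType.coe_zero, zero_mul, mul_zero, add_zero, one_mul, mul_one]
    exact mul_le_mul_of_nonneg_right (expect_wz2_le hη hq3 hn2 _ _ _ _ h02) p02
  by_cases z2 : z 2 = 0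
  · simp only [z2, w0, SignType.coe_zero, zero_mul, mul_zero, add_zero, one_mul, mul_one]
    exact mul_le_mul_of_nonneg_right (expect_wz2_le hη hq3 hn2 _ _ _ _ h01) p01
  by_cases hM : ∀ M : SS F, wz (z 0) (x 0).1 M * wz (z 1) (x 1).1 M * wz (z 2) (x 2).1 M = 0
  · simp only [hM, Finset.expect_const_zero, zero_mul]
    positivity
  obtain ⟨M, hM⟩ := not_forall.1 hM
  have v2 := right_ne_zero_of_mul hM
  have v1 := right_ne_zero_of_mul (left_ne_zero_of_mul hM)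
  have v0 := left_ne_zero_of_mul (left_ne_zero_of_mul hM)
  have key : (1 + (z 0 : ℝ) * (z 1 : ℝ) * sigT (x 0) (x 1) +
      (z 0 : ℝ) * (z 2 : ℝ) * sigT (x 0) (x 2) + (z 1 : ℝ) * (z 2 : ℝ) * sigT (x 1) (x 2)) =
      (1 + (z 0 : ℝ) * (z 1 : ℝ) * sigT (x 0) (x 1)) *
      (1 + (z 0 : ℝ) * (z 2 : ℝ) * sigT (x 0) (x 2)) *
      (1 + (z 1 : ℝ) * (z 2 : ℝ) * sigT (x 1) (x 2)) / 2 := by
    rw [← sz_mul_sz h1 _ _ _ _ M h01 v0 v1, ← sz_mul_sz h1 _ _ _ _ M h02 v0 v2,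
      ← sz_mul_sz h1 _ _ _ _ M h12 v1 v2]
    have s0 := sz_sq _ z0 (x 0) M
    have s1 := sz_sq _ z1 (x 1) M
    have s2 := sz_sq _ z2 (x 2) M
    generalize sz (z 0) (x 0) M = a at *
    generalize sz (z 1) (x 1) M = b at *
    generalize sz (z 2) (x 2) M = c at *
    rcases mul_self_eq_one_iff.1 s0 with rfl | rfl <;>
      rcases mul_self_eq_one_iff.1 s1 with rfl | rfl <;>
      rcases mul_self_eq_one_iff.1 s2 with rfl | rfl <;> norm_num
  have hE := expect_wt3_le hη hF hq3 hn3 _ _ _ h01 h02 h12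
  simp only [wz, if_neg z0, if_neg z1, if_neg z2]
  rw [key]
  have hP := mul_nonneg (mul_nonneg p01 p02) p12
  generalize (1 + (z 0 : ℝ) * (z 1 : ℝ) * sigT (x 0) (x 1)) *
      (1 + (z 0 : ℝ) * (z 2 : ℝ) * sigT (x 0) (x 2)) *
      (1 + (z 1 : ℝ) * (z 2 : ℝ) * sigT (x 1) (x 2)) = P at *
  calc _ ≤ 2 * (1 + η) * (P / 2) := by gcongr
    _ = _ := by ring

end Vale.Agent.P050
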