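import Mathlib

namespace Vale.Agent.P050

open scoped BigOperators

namespace KG

open Finset

theorem tangent (x p : ℝ) (hx : 0 ≤ x) (hp : 0 ≤ p) (e : ℕ) :
    p ^ (e + 1) + (e + 1) * p ^ e * (x - p) ≤ x ^ (e + 1) := by
  induction e with
  | zero => simp
  | succ e ih =>
    have h1 := mul_le_mul_of_nonneg_left ih hx
    have h2 : 0 ≤ ((e : ℝ) + 1) * p ^ e * (x - p) ^ 2 := by positivity
    rw [pow_succ' x (e + 1)]
    refine le_trans ?_ h1
    push_cast
    rw [pow_succ p (e + 1), pow_succ p e]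
    nlinarith

/-- Product weight of a configuration. -/
noncomputable def wt {S : Type} [Fintype S] (k : S → ℝ) (ω : S → Bool) : ℝ :=
  ∏ s, if ω s then k s else 1 - k s

theorem sum_wt_prod {S : Type} [Fintype S] [DecidableEq S] (k : S → ℝ) (T : Finset S) :
    ∑ ω : S → Bool, wt k ω * ∏ s ∈ T, (if ω s then (1 : ℝ) else 0) = ∏ s ∈ T, k s := by
  have e1 : ∀ ω : S → Bool, wt k ω * ∏ s ∈ T, (if ω s then (1 : ℝ) else 0) =
      ∏ s, ((if ω s then k s else 1 - k s) *
        (if s ∈ T then (if ω s then (1 : ℝ) else 0) else 1)) := by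
    intro ω
    rw [prod_mul_distrib, wt, Fintype.prod_ite_mem]
  simp only [e1]
  rw [← Fintype.prod_sum (fun s (b : Bool) => (if b then k s else 1 - k s) *
    (if s ∈ T then (if b then (1 : ℝ) else 0) else 1)), ← Fintype.prod_ite_mem T k]
  refine prod_congr rfl fun s _ => ?_
  by_cases hs : s ∈ T <;> simp [hs]

theorem card_noninj (α U : Type) [Fintype α] [DecidableEq α] [Fintype U] [DecidableEq U] :
    (univ.filter (fun φ : α → U => ¬ Function.Injective φ)).card * Fintype.card U ≤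
      Fintype.card α ^ 2 * Fintype.card U ^ Fintype.card α := by
  have h1 : ∀ p : α × α, (univ.filter (fun φ : α → U => p.1 ≠ p.2 ∧ φ p.1 = φ p.2)).card *
      Fintype.card U ≤ Fintype.card U ^ Fintype.card α := by
    intro p
    rw [← card_univ, ← card_product, card_univ, ← Fintype.card_fun, ← card_univ]
    refine card_le_card_of_injOn (fun x => Function.update x.1 p.1 x.2) (fun _ _ => mem_univ _) ?_
    rintro ⟨φ, u⟩ h ⟨φ', u'⟩ h' e
    have a1 := (mem_filter.1 (mem_product.1 (mem_coe.1 h)).1).2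
    have a2 := (mem_filter.1 (mem_product.1 (mem_coe.1 h')).1).2
    have b1 : ∀ a, a ≠ p.1 → φ a = φ' a := fun a ha => by
      simpa only [Function.update_of_ne ha] using congrFun e a
    have b2 : u = u' := by simpa only [Function.update_self] using congrFun e p.1
    refine Prod.ext (funext fun a => ?_) b2
    by_cases ha : a = p.1
    · subst ha
      exact a1.2.trans ((b1 _ a1.1.symm).trans a2.2.symm)
    · exact b1 a ha
  have h2 : univ.filter (fun φ : α → U => ¬ Function.Injective φ) ⊆ univ.biUnion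
      (fun p : α × α => univ.filter (fun φ : α → U => p.1 ≠ p.2 ∧ φ p.1 = φ p.2)) := by
    intro φ hφ
    obtain ⟨a, b, h1, h2⟩ := Function.not_injective_iff.1 (mem_filter.1 hφ).2
    exact mem_biUnion.2 ⟨(a, b), mem_univ _, mem_filter.2 ⟨mem_univ _, h2, h1⟩⟩
  refine (Nat.mul_le_mul_right _ ((card_le_card h2).trans card_biUnion_le)).trans ?_
  rw [sum_mul]
  refine (sum_le_card_nsmul _ _ _ fun p _ => h1 p).trans (le_of_eq ?_)
  simp [sq]

theorem two_mul_edges {U : Type} [Fintype U] (G : SimpleGraph U) [DecidableRel G.Adj] :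
    2 * (G.edgeSet.ncard : ℝ) = ∑ x, ∑ y, if G.Adj x y then (1 : ℝ) else 0 := by
  classical
  have h1 := G.sum_degrees_eq_twice_card_edges
  have h2 : G.edgeSet.ncard = G.edgeFinset.card := by
    rw [← SimpleGraph.coe_edgeFinset, Set.ncard_coe_finset]
  have h3 : ∀ x, ∑ y, (if G.Adj x y then (1 : ℝ) else 0) = G.degree x := fun x => by
    rw [sum_boole, ← SimpleGraph.card_neighborFinset_eq_degree,
      SimpleGraph.neighborFinset_eq_filter]
  simp only [h3, h2]
  exact_mod_cast h1.symm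

theorem card_hom_le {ι α U : Type} [Fintype ι] [Fintype α] [DecidableEq α] [Fintype U]
    (src tgt : ι → α) (H : SimpleGraph α) (hH : ∀ e, H.Adj (src e) (tgt e))
    (ω : Sym2 U → Bool) :
    (Nat.card (H →g SimpleGraph.fromEdgeSet {s | ω s = true}) : ℝ) ≤
      ∑ φ : α → U, ∏ e, if ω s(φ (src e), φ (tgt e)) then (1 : ℝ) else 0 := by
  classical
  simp only [Fintype.prod_boole, sum_boole, Nat.cast_le]
  rw [← Fintype.card_subtype, ← Nat.card_eq_fintype_card]
  refine Nat.card_le_card_of_injective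
    (fun f => ⟨f, fun e => ((SimpleGraph.fromEdgeSet_adj _).1 (f.map_adj (hH e))).1⟩) ?_
  intro f g h
  exact RelHom.ext fun a => congrFun (congrArg Subtype.val h) a

theorem aux {ι α : Type} [Fintype ι] [Fintype α] [DecidableEq α] (src tgt : ι → α)
    (H : SimpleGraph α) (hH : ∀ e, H.Adj (src e) (tgt e))
    (hinj : Function.Injective fun e => s(src e, tgt e)) (N : ℕ) (hN : 0 < N)
    (K : Fin N → Fin N → ℝ) (hs : ∀ x y, K x y = K y x) (h0 : ∀ x y, 0 ≤ K x y)
    (h1 : ∀ x y, K x y ≤ 1) (e : ℕ)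
    (hlt : 𝔼 φ : α → Fin N, ∏ e, K (φ (src e)) (φ (tgt e)) +
      ((e + 1) + Fintype.card α ^ 2) / N < (𝔼 x, 𝔼 y, K x y) ^ (e + 1)) :
    ∃ G : SimpleGraph (Fin N), (Nat.card (H →g G) : ℝ) / (N : ℝ) ^ Fintype.card α
        < (2 * (G.edgeSet.ncard : ℝ) / (N : ℝ) ^ 2) ^ (e + 1) := by
  classical
  have hN' : (0 : ℝ) < N := by exact_mod_cast hN
  set k : Sym2 (Fin N) → ℝ := Sym2.lift ⟨K, hs⟩ with hk
  have hkK : ∀ x y, k s(x, y) = K x y := fun x y => rfl
  have hw0 : ∀ ω, 0 ≤ wt k ω := fun ω => prod_nonneg fun s _ => by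
    induction s using Sym2.ind with
    | _ x y =>
    rw [hkK]
    split_ifs
    · exact h0 x y
    · linarith [h1 x y]
  have hw1 : ∑ ω, wt k ω = 1 := by simpa using sum_wt_prod k ∅
  set G : (Sym2 (Fin N) → Bool) → SimpleGraph (Fin N) :=
    fun ω => SimpleGraph.fromEdgeSet {s | ω s = true} with hG
  simp only [Fintype.expect_eq_sum_div_card, Fintype.card_fun, Fintype.card_fin, ← sum_div,
    Nat.cast_pow] at hlt
  set p := (∑ x, ∑ y, K x y) / N / N with hp
  have hp0 : 0 ≤ p := div_nonneg (div_nonneg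
    (sum_nonneg fun x _ => sum_nonneg fun y _ => h0 x y) hN'.le) hN'.le
  have hp1 : p ≤ 1 := by
    rw [hp, div_le_one hN', div_le_iff₀ hN']
    refine (sum_le_sum fun x _ => sum_le_sum fun y _ => h1 x y).trans (le_of_eq ?_)
    simp
  have hA : ∑ ω, wt k ω * (Nat.card (H →g G ω) : ℝ) ≤
      ∑ φ : α → Fin N, ∏ e, K (φ (src e)) (φ (tgt e)) +
        (univ.filter (fun φ : α → Fin N => ¬ Function.Injective φ)).card := by
    refine (sum_le_sum fun ω _ =>
      mul_le_mul_of_nonneg_left (card_hom_le src tgt H hH ω) (hw0 ω)).trans ?_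
    simp only [mul_sum]
    rw [sum_comm, ← sum_boole, ← sum_add_distrib]
    refine sum_le_sum fun φ _ => ?_
    by_cases hφ : Function.Injective φ
    · have hi : Function.Injective fun e => s(φ (src e), φ (tgt e)) := fun e e' h =>
        hinj (Sym2.map.injective hφ h)
      have a1 := sum_wt_prod k (univ.image fun e => s(φ (src e), φ (tgt e)))
      simp only [prod_image (fun e _ e' _ h => hi h), hkK] at a1
      rw [a1, if_neg (not_not.2 hφ), add_zero]
    · rw [if_pos hφ]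
      refine le_add_of_nonneg_of_le (prod_nonneg fun e _ => h0 _ _) ?_
      refine le_trans (sum_le_sum fun ω _ => mul_le_of_le_one_right (hw0 ω) ?_) hw1.le
      exact prod_le_one (fun _ _ => by split_ifs <;> norm_num)
        (fun _ _ => by split_ifs <;> norm_num)
  have hB : ∑ x, ∑ y, K x y - N ≤ ∑ ω, wt k ω * (2 * ((G ω).edgeSet.ncard : ℝ)) := by
    simp only [two_mul_edges, mul_sum]
    conv_rhs => rw [sum_comm]
    have : (N : ℝ) = ∑ x : Fin N, ∑ y : Fin N, if x = y then (1 : ℝ) else 0 := by simp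
    rw [this, ← sum_sub_distrib]
    refine sum_le_sum fun x _ => ?_
    rw [sum_comm, ← sum_sub_distrib]
    refine sum_le_sum fun y _ => ?_
    by_cases hxy : x = y
    · rw [if_pos hxy]
      refine le_trans (by linarith [h1 x y]) (sum_nonneg fun ω _ => mul_nonneg (hw0 ω) ?_)
      split_ifs <;> norm_num
    · have a1 := sum_wt_prod k {s(x, y)}
      simp only [prod_singleton, hkK] at a1
      rw [if_neg hxy, sub_zero, ← a1]
      refine le_of_eq (sum_congr rfl fun ω _ => ?_)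
      simp [hG, SimpleGraph.fromEdgeSet_adj, hxy]
  have hC : ((univ.filter (fun φ : α → Fin N => ¬ Function.Injective φ)).card : ℝ) /
      (N : ℝ) ^ Fintype.card α ≤ Fintype.card α ^ 2 / N := by
    rw [div_le_div_iff₀ (by positivity) hN']
    have := card_noninj α (Fin N)
    rw [Fintype.card_fin] at this
    exact_mod_cast this
  by_contra hcon
  push Not at hcon
  have hD : ∑ ω, wt k ω * (p ^ (e + 1) + (e + 1) * p ^ e *
      (2 * ((G ω).edgeSet.ncard : ℝ) / (N : ℝ) ^ 2 - p)) ≤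
      ∑ ω, wt k ω * ((Nat.card (H →g G ω) : ℝ) / (N : ℝ) ^ Fintype.card α) :=
    sum_le_sum fun ω _ => mul_le_mul_of_nonneg_left
      ((tangent _ p (by positivity) hp0 e).trans (hcon (G ω))) (hw0 ω)
  have e1 : ∑ ω, wt k ω * (p ^ (e + 1) + (e + 1) * p ^ e *
      (2 * ((G ω).edgeSet.ncard : ℝ) / (N : ℝ) ^ 2 - p)) =
      p ^ (e + 1) + (e + 1) * p ^ e *
        ((∑ ω, wt k ω * (2 * ((G ω).edgeSet.ncard : ℝ))) / (N : ℝ) ^ 2 - p) := by
    have : ∀ ω, wt k ω * (p ^ (e + 1) + (e + 1) * p ^ e *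
        (2 * ((G ω).edgeSet.ncard : ℝ) / (N : ℝ) ^ 2 - p)) =
        wt k ω * (p ^ (e + 1) - (e + 1) * p ^ e * p) + (e + 1) * p ^ e / (N : ℝ) ^ 2 *
          (wt k ω * (2 * ((G ω).edgeSet.ncard : ℝ))) := fun ω => by ring
    simp only [this, sum_add_distrib, ← sum_mul, ← mul_sum, hw1]
    ring
  have e2 : ∑ ω, wt k ω * ((Nat.card (H →g G ω) : ℝ) / (N : ℝ) ^ Fintype.card α) =
      (∑ ω, wt k ω * (Nat.card (H →g G ω) : ℝ)) / (N : ℝ) ^ Fintype.card α := by
    simp only [sum_div, mul_div_assoc]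
  rw [e1, e2] at hD
  have hE := div_le_div_of_nonneg_right hA (show (0 : ℝ) ≤ (N : ℝ) ^ Fintype.card α by positivity)
  rw [add_div] at hE
  have hF : -(1 / (N : ℝ)) ≤
      (∑ ω, wt k ω * (2 * ((G ω).edgeSet.ncard : ℝ))) / (N : ℝ) ^ 2 - p := by
    have a1 := div_le_div_of_nonneg_right hB (show (0 : ℝ) ≤ (N : ℝ) ^ 2 by positivity)
    have a2 : (∑ x, ∑ y, K x y - N) / (N : ℝ) ^ 2 = p - 1 / N := by
      rw [hp]
      field_simp
    linarith
  have hpe : p ^ e ≤ 1 := pow_le_one₀ hp0 hp1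
  have hG1 := mul_le_mul_of_nonneg_left hF (show 0 ≤ ((e : ℝ) + 1) * p ^ e by positivity)
  have hG2 : ((e : ℝ) + 1) * p ^ e * (1 / N) ≤ ((e : ℝ) + 1) / N := by
    rw [mul_one_div]
    refine div_le_div_of_nonneg_right ?_ hN'.le
    nlinarith
  rw [add_div] at hlt
  linarith

theorem expect_blowup {α Ω : Type} [Fintype α] [DecidableEq α] [Fintype Ω] (m N : ℕ)
    (hm : 0 < m) (q : Fin N ≃ Ω × Fin m) (F : (α → Ω) → ℝ) :
    𝔼 φ : α → Fin N, F (fun a => (q (φ a)).1) = 𝔼 ψ : α → Ω, F ψ := by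
  have : Nonempty (Fin m) := ⟨⟨0, hm⟩⟩
  rw [Fintype.expect_equiv ((Equiv.arrowCongr (Equiv.refl α) q).trans
    (Equiv.arrowProdEquivProdArrow α (fun _ => Ω) (fun _ => Fin m)))
    (fun φ => F (fun a => (q (φ a)).1)) (fun x => F x.1) (fun φ => rfl), ← univ_product_univ,
    expect_product]
  simp

theorem expect_blowup1 {Ω : Type} [Fintype Ω] (m N : ℕ)
    (hm : 0 < m) (q : Fin N ≃ Ω × Fin m) (F : Ω → ℝ) :
    𝔼 x : Fin N, F (q x).1 = 𝔼 y : Ω, F y := by
  have : Nonempty (Fin m) := ⟨⟨0, hm⟩⟩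
  rw [Fintype.expect_equiv q _ (fun x => F x.1) (fun φ => rfl), ← univ_product_univ,
    expect_product]
  simp

end KG

/-- A finite weighted kernel violating Sidorenko's inequality gives a simple graph
violating it. -/
theorem kernel_to_graph {ι α Ω : Type} [Fintype ι] [Fintype α] [DecidableEq α] [Fintype Ω]
    [Nonempty Ω] (src tgt : ι → α) (H : SimpleGraph α)
    (hH : ∀ u v, H.Adj u v ↔ ∃ e, s(u, v) = s(src e, tgt e))
    (hinj : Function.Injective fun e => s(src e, tgt e))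
    (W : Ω → Ω → ℝ) (hs : ∀ x y, W x y = W y x) (h0 : ∀ x y, 0 ≤ W x y)
    (hlt : 𝔼 φ : α → Ω, ∏ e, W (φ (src e)) (φ (tgt e))
      < (𝔼 x, 𝔼 y, W x y) ^ Fintype.card ι) :
    ∃ (n : ℕ) (G : SimpleGraph (Fin n)), 0 < n ∧
      (Nat.card (H →g G) : ℝ) / (n : ℝ) ^ Fintype.card α
        < (2 * (G.edgeSet.ncard : ℝ) / (n : ℝ) ^ 2) ^ H.edgeSet.ncard := by
  have hE : H.edgeSet.ncard = Fintype.card ι := by
    have : H.edgeSet = Set.range fun e => s(src e, tgt e) := by
      ext x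
      induction x using Sym2.ind with
      | _ u v =>
      rw [SimpleGraph.mem_edgeSet, hH]
      exact exists_congr fun e => eq_comm
    rw [this, Set.ncard_range_of_injective hinj, Nat.card_eq_fintype_card]
  obtain ⟨e, he⟩ : ∃ e, Fintype.card ι = e + 1 := by
    refine Nat.exists_eq_succ_of_ne_zero fun h => ?_
    have := Fintype.card_eq_zero_iff.1 h
    simp at hlt
  set c : ℝ := 1 + ∑ x, ∑ y, W x y with hc
  have hc1 : ∀ x y, W x y ≤ c := fun x y => le_add_of_nonneg_of_le zero_le_one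
    ((Finset.single_le_sum (f := fun y => W x y) (fun y _ => h0 x y) (Finset.mem_univ y)).trans
      (Finset.single_le_sum (f := fun x => ∑ y, W x y)
        (fun x _ => Finset.sum_nonneg fun y _ => h0 x y) (Finset.mem_univ x)))
  have hc0 : 0 < c := add_pos_of_pos_of_nonneg one_pos
    (Finset.sum_nonneg fun x _ => Finset.sum_nonneg fun y _ => h0 x y)
  have hlt2 : 𝔼 φ : α → Ω, ∏ e, W (φ (src e)) (φ (tgt e)) / c
      < (𝔼 x, 𝔼 y, W x y / c) ^ (e + 1) := by
    simp only [Finset.prod_div_distrib, Finset.prod_const, Finset.card_univ, ← Finset.expect_div,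
      div_pow, ← he]
    exact div_lt_div_of_pos_right hlt (by positivity)
  obtain ⟨m, hm⟩ := exists_nat_gt ((((e : ℝ) + 1) + Fintype.card α ^ 2) /
    ((𝔼 x, 𝔼 y, W x y / c) ^ (e + 1) - 𝔼 φ : α → Ω, ∏ e, W (φ (src e)) (φ (tgt e)) / c))
  have hm0' : (0 : ℝ) < m := lt_of_le_of_lt (div_nonneg (by positivity) (by linarith)) hm
  have hm0 : 0 < m := by exact_mod_cast hm0'
  have : Nonempty (Fin m) := ⟨⟨0, hm0⟩⟩
  set N := Fintype.card (Ω × Fin m) with hN
  set q := (Fintype.equivFin (Ω × Fin m)).symm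
  have hN0 : 0 < N := Fintype.card_pos
  have hNm : (m : ℝ) ≤ N := by
    have : m ≤ N := by
      rw [hN, Fintype.card_prod, Fintype.card_fin]
      exact Nat.le_mul_of_pos_left _ Fintype.card_pos
    exact_mod_cast this
  obtain ⟨G, hG⟩ := KG.aux src tgt H (fun e => (hH _ _).2 ⟨e, rfl⟩) hinj N hN0
    (fun x y => W (q x).1 (q y).1 / c) (fun x y => by rw [hs]) (fun x y => div_nonneg (h0 _ _) hc0.le)
    (fun x y => (div_le_one hc0).2 (hc1 _ _)) e (by
      rw [KG.expect_blowup m N hm0 q (fun φ => ∏ e, W (φ (src e)) (φ (tgt e)) / c)]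
      simp only [fun x => KG.expect_blowup1 m N hm0 q (fun y => W x y / c)]
      rw [KG.expect_blowup1 m N hm0 q (fun x => 𝔼 y, W x y / c)]
      rw [div_lt_iff₀ (by linarith), mul_comm, ← div_lt_iff₀ hm0'] at hm
      have := div_le_div_of_nonneg_left
        (show (0 : ℝ) ≤ ((e : ℝ) + 1) + Fintype.card α ^ 2 by positivity) hm0' hNm
      linarith)
  exact ⟨N, G, hN0, by rw [hE, he]; exact hG⟩

end Vale.Agent.P050
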