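import Vale.Agent.P050.ModelAux

namespace Vale.Agent.P050

open scoped BigOperators

theorem pw_mul (m : Fin 8) (x y : Fin 3 → ℝ) :
    pw m (fun h => x h * y h) = pw m x * pw m y := by
  unfold pw
  rw [← Finset.prod_mul_distrib]
  refine Finset.prod_congr rfl fun h _ => ?_
  split_ifs <;> simp

theorem prod_one_add_eq (x : Fin 3 → ℝ) : ∏ h, (1 + x h) = ∑ m : Fin 8, pw m x := by
  simp only [pw, Fin.prod_univ_three, Fin.sum_univ_eight]
  simp [bt]
  ring

/-- The real vector of a state. -/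
def cz (x : Fin 3 → SignType) : Fin 3 → ℝ := fun h => (x h : ℝ)

theorem pw_cast (m : Fin 8) (x : Fin 3 → ℤ) :
    ((pw m x : ℤ) : ℝ) = pw m (fun h => (x h : ℝ)) := by
  unfold pw
  push_cast
  rfl

theorem pw_cz (m : Fin 8) (x : Fin 3 → SignType) :
    pw m (cz x) = ((pw m (fun h => ((x h : SignType) : ℤ)) : ℤ) : ℝ) := by
  rw [pw_cast]
  congr 1
  funext h
  unfold cz
  cases x h <;> simp

theorem expand_levels (z : Fin 12 × Fin 3 → Fin 3 → SignType) :
    ∏ h : Fin 3, ∏ q, (1 + zeta (fun e => z e h) q) = ∑ P : Fin 18 → Fin 8,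
      ∏ e : Fin 12 × Fin 3,
        (pw (P (sd e.1 (pa e.2))) (cz (z e)) * pw (P (sd e.1 (pb e.2))) (cz (z e))) := by
  rw [Finset.prod_comm]
  simp only [prod_one_add_eq]
  rw [Finset.prod_univ_sum, Fintype.piFinset_univ]
  refine Finset.sum_congr rfl fun P _ => ?_
  have h1 : ∀ q, pw (P q) (fun h => zeta (fun e => z e h) q) = ∏ s : Fin 2,
      pw (P (sd (qs q s).1 (qs q s).2)) (fun h => sideZ (fun e => z e h) (qs q s)) := by
    intro q
    rw [Fin.prod_univ_two, sd_qs, sd_qs, ← pw_mul]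
    rfl
  simp only [h1]
  rw [← Fintype.prod_prod_type' (f := fun q s =>
    pw (P (sd (qs q s).1 (qs q s).2)) (fun h => sideZ (fun e => z e h) (qs q s)))]
  rw [Fintype.prod_bijective _ qs_bijective _
    (fun e : Fin 12 × Fin 3 => pw (P (sd e.1 e.2)) (fun h => sideZ (fun e => z e h) e))
    (fun _ => rfl)]
  rw [Fintype.prod_prod_type, Fintype.prod_prod_type]
  refine Finset.prod_congr rfl fun b _ => ?_
  have h2 : ∀ p, pw (P (sd b p)) (fun h => sideZ (fun e => z e h) (b, p))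
      = pw (P (sd b p)) (cz (z (b, pa p))) * pw (P (sd b p)) (cz (z (b, pb p))) := by
    intro p
    rw [← pw_mul]
    rfl
  simp only [h2, Fin.prod_univ_three]
  have a0 : pa 0 = 0 := rfl
  have a1 : pa 1 = 0 := rfl
  have a2 : pa 2 = 1 := rfl
  have b0 : pb 0 = 1 := rfl
  have b1 : pb 1 = 2 := rfl
  have b2 : pb 2 = 2 := rfl
  rw [a0, a1, a2, b0, b1, b2]
  ring

/-- Mixed moments of a measure on states. -/
noncomputable def mom (ν : (Fin 3 → SignType) → ℝ) (a b : Fin 8) : ℝ :=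
  ∑ x, ν x * (pw a (cz x) * pw b (cz x))

theorem sum_states (ν : Fin 12 × Fin 3 → (Fin 3 → SignType) → ℝ) :
    ∑ z : Fin 12 × Fin 3 → Fin 3 → SignType, (∏ e, ν e (z e)) *
        ∏ h : Fin 3, ∏ q, (1 + zeta (fun e => z e h) q)
      = ∑ P : Fin 18 → Fin 8, ∏ e : Fin 12 × Fin 3,
        mom (ν e) (P (sd e.1 (pa e.2))) (P (sd e.1 (pb e.2))) := by
  simp only [expand_levels, Finset.mul_sum]
  rw [Finset.sum_comm]
  refine Finset.sum_congr rfl fun P _ => ?_
  unfold mom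
  rw [Finset.prod_univ_sum, Fintype.piFinset_univ]
  refine Finset.sum_congr rfl fun z _ => ?_
  rw [← Finset.prod_mul_distrib]

theorem sum_split (U : Fin 12 × Fin 3 → Fin 8 → Fin 8 → ℝ) (h0 : ∀ e b, U e 0 b = 0)
    (h0' : ∀ e a, U e a 0 = 0) :
    ∑ P : Fin 18 → Fin 8, ∏ e : Fin 12 × Fin 3,
        ((if P (sd e.1 (pa e.2)) = 0 ∧ P (sd e.1 (pb e.2)) = 0 then 1 else 0) +
          U e (P (sd e.1 (pa e.2))) (P (sd e.1 (pb e.2))))
      = 1 + ∑ P : Fin 18 → Fin 8, ∏ e : Fin 12 × Fin 3,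
        U e (P (sd e.1 (pa e.2))) (P (sd e.1 (pb e.2))) := by
  have key : ∀ P : Fin 18 → Fin 8, ∏ e : Fin 12 × Fin 3,
        ((if P (sd e.1 (pa e.2)) = 0 ∧ P (sd e.1 (pb e.2)) = 0 then 1 else 0) +
          U e (P (sd e.1 (pa e.2))) (P (sd e.1 (pb e.2))))
      = (if P = 0 then 1 else 0) + ∏ e : Fin 12 × Fin 3,
        U e (P (sd e.1 (pa e.2))) (P (sd e.1 (pb e.2))) := by
    intro P
    by_cases H : ∀ b i, P (sd b (pa i)) = 0 ↔ P (sd b (pb i)) = 0
    · have hc := edge_conn (fun q => P q = 0) H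
      by_cases hP : P 0 = 0
      · have : P = 0 := funext fun q => (hc q).2 hP
        subst this
        simp [h0]
      · have hP' : P ≠ 0 := fun h => hP (by rw [h]; rfl)
        rw [if_neg hP', zero_add]
        refine Finset.prod_congr rfl fun e _ => ?_
        rw [if_neg (fun h => hP ((hc _).1 h.1)), zero_add]
    · push Not at H
      obtain ⟨b, i, H⟩ := H
      have hP' : P ≠ 0 := by
        rintro rfl
        simp at H
      have hU : U (b, i) (P (sd b (pa i))) (P (sd b (pb i))) = 0 := by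
        rcases H with ⟨h, -⟩ | ⟨-, h⟩
        · rw [h, h0]
        · rw [h, h0']
      rw [if_neg hP', zero_add, Finset.prod_eq_zero (f := fun e : Fin 12 × Fin 3 =>
        U e (P (sd e.1 (pa e.2))) (P (sd e.1 (pb e.2)))) (Finset.mem_univ (b, i)) hU]
      refine Finset.prod_eq_zero (Finset.mem_univ (b, i)) ?_
      rw [hU, add_zero, if_neg]
      rintro ⟨h1, h2⟩
      rcases H with ⟨-, h⟩ | ⟨h, -⟩
      · exact h h2
      · exact h h1
  simp only [key, Finset.sum_add_distrib]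
  simp

/-- The point mass at the inactive state. -/
noncomputable def dirac0 (z : Fin 3 → SignType) : ℝ := if z = 0 then 1 else 0

/-- The mixture of the point mass and a base measure. -/
noncomputable def mix (w : ℝ) (d : Fin 5) (z : Fin 3 → SignType) : ℝ :=
  (1 - w) * dirac0 z + w * ((baseW d z : ℝ) / 32)

theorem dirac0_nonneg (z : Fin 3 → SignType) : 0 ≤ dirac0 z := by
  unfold dirac0
  split_ifs <;> norm_num

theorem sum_dirac0 : ∑ z, dirac0 z = 1 := by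
  simp [dirac0]

theorem mix_nonneg {w : ℝ} (h0 : 0 ≤ w) (h1 : w ≤ 1) (d : Fin 5) (z : Fin 3 → SignType) :
    0 ≤ mix w d z := by
  unfold mix
  have := dirac0_nonneg z
  have h2 : 0 ≤ 1 - w := by linarith
  positivity

theorem sum_mix (w : ℝ) (d : Fin 5) : ∑ z, mix w d z = 1 := by
  unfold mix
  rw [Finset.sum_add_distrib, ← Finset.mul_sum, ← Finset.mul_sum, sum_dirac0, ← Finset.sum_div]
  have : ∑ z : Fin 3 → SignType, (baseW d z : ℝ) = 32 := by exact_mod_cast base_total d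
  rw [this]
  ring

theorem mom_dirac0 (a b : Fin 8) : mom dirac0 a b = if a = 0 ∧ b = 0 then 1 else 0 := by
  unfold mom dirac0
  simp only [ite_mul, one_mul, zero_mul, Finset.sum_ite_eq', Finset.mem_univ, if_true]
  rw [pw_cz, pw_cz, ← Int.cast_mul]
  have := pw_zero_zero a b
  have h : (fun h : Fin 3 => (((0 : Fin 3 → SignType) h : SignType) : ℤ)) = fun _ => 0 := by
    funext h
    simp
  rw [h, this]
  split_ifs <;> simp

theorem mom_mix (w : ℝ) (d : Fin 5) (a b : Fin 8) :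
    mom (mix w d) a b = (if a = 0 ∧ b = 0 then 1 else 0) + w * ((momM d a b : ℝ) / 32) := by
  have h1 : mom (mix w d) a b = (1 - w) * mom dirac0 a b + w * ((∑ z : Fin 3 → SignType,
      (baseW d z : ℝ) * (pw a (cz z) * pw b (cz z))) / 32) := by
    unfold mom mix
    rw [Finset.mul_sum, Finset.sum_div, Finset.mul_sum, ← Finset.sum_add_distrib]
    refine Finset.sum_congr rfl fun z _ => ?_
    ring
  have h2 : ∑ z : Fin 3 → SignType, (baseW d z : ℝ) * (pw a (cz z) * pw b (cz z))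
      = (if a = 0 ∧ b = 0 then 32 else 0) + (momM d a b : ℝ) := by
    have := congrArg (fun n : ℤ => (n : ℝ)) (base_moment d a b)
    simp only [pw_cz]
    push_cast at this ⊢
    exact this
  rw [h1, h2, mom_dirac0]
  split_ifs <;> ring

section Types

variable {D : Type} (L : ℕ) (ty : D → Fin 5) (w : Fin 5 → ℝ)

/-- The state distribution of a pair of points. -/
noncomputable def piM : D ⊕ Fin L → D ⊕ Fin L → (Fin 3 → SignType) → ℝ
  | .inl a, .inr _ => mix (w (ty a)) (ty a)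
  | .inr _, .inl a => mix (w (ty a)) (ty a)
  | .inl _, .inl _ => dirac0
  | .inr _, .inr _ => dirac0

/-- The moment matrix of a point. -/
noncomputable def uM : D ⊕ Fin L → Fin 8 → Fin 8 → ℝ
  | .inl a => fun x y => w (ty a) * ((momM (ty a) x y : ℝ) / 32)
  | .inr _ => fun _ _ => 0

/-- The indicator of the star points. -/
def stM : D ⊕ Fin L → ℝ
  | .inl _ => 0
  | .inr _ => 1

theorem mom_piM (s t : D ⊕ Fin L) (a b : Fin 8) :
    mom (piM L ty w s t) a b = (if a = 0 ∧ b = 0 then 1 else 0) +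
      (uM L ty w s a b * stM L t + stM L s * uM L ty w t a b) := by
  cases s <;> cases t <;> simp [piM, uM, stM, mom_mix, mom_dirac0]

theorem uM_zero_left (s : D ⊕ Fin L) (b : Fin 8) : uM L ty w s 0 b = 0 := by
  cases s <;> simp [uM, momM_zero_left]

theorem uM_zero_right (s : D ⊕ Fin L) (a : Fin 8) : uM L ty w s a 0 = 0 := by
  cases s <;> simp [uM, momM_zero_right]

theorem prod_two_cases (s : Fin 8 → D ⊕ Fin L) (t : Fin 12 → D ⊕ Fin L)
    (x y : Fin 12 × Fin 3 → Fin 8) :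
    ∏ e : Fin 12 × Fin 3, (uM L ty w (s (fc e.1 e.2)) (x e) (y e) * stM L (t e.1) +
        stM L (s (fc e.1 e.2)) * uM L ty w (t e.1) (x e) (y e))
      = (∏ e : Fin 12 × Fin 3, uM L ty w (s (fc e.1 e.2)) (x e) (y e)) *
          (∏ e : Fin 12 × Fin 3, stM L (t e.1)) +
        (∏ e : Fin 12 × Fin 3, stM L (s (fc e.1 e.2))) *
          ∏ e : Fin 12 × Fin 3, uM L ty w (t e.1) (x e) (y e) := by
  rw [← Finset.prod_mul_distrib, ← Finset.prod_mul_distrib]
  have hl : ∀ k : D ⊕ Fin L, k.isLeft → stM L k = 0 := by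
    intro k hk
    cases k
    · rfl
    · simp at hk
  have hr : ∀ (k : D ⊕ Fin L) a b, ¬ k.isLeft → uM L ty w k a b = 0 := by
    intro k a b hk
    cases k
    · simp at hk
    · rfl
  by_cases H : ∀ b i, (s (fc b i)).isLeft ↔ ¬ (t b).isLeft
  · have hc := vertex_conn (fun v => (s v).isLeft) (fun b => ¬ (t b).isLeft) H
    by_cases h0 : (s 0).isLeft
    · have h1 : ∀ b i, stM L (s (fc b i)) = 0 := fun b i => hl _ ((hc b i).2 h0)
      simp [h1]
    · have h1 : ∀ b i a a', uM L ty w (s (fc b i)) a a' = 0 :=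
        fun b i a a' => hr _ _ _ (fun h => h0 ((hc b i).1 h))
      simp [h1]
  · push Not at H
    obtain ⟨b, i, H⟩ := H
    have h1 : uM L ty w (s (fc b i)) (x (b, i)) (y (b, i)) * stM L (t b) = 0 := by
      rcases H with ⟨-, h⟩ | ⟨h, -⟩
      · rw [hl _ h, mul_zero]
      · rw [hr _ _ _ h, zero_mul]
    have h2 : stM L (s (fc b i)) * uM L ty w (t b) (x (b, i)) (y (b, i)) = 0 := by
      rcases H with ⟨h, -⟩ | ⟨-, h⟩
      · rw [hl _ h, zero_mul]
      · rw [hr _ _ _ h, mul_zero]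
    rw [Finset.prod_eq_zero (Finset.mem_univ (b, i)) (by rw [h1, h2, add_zero]),
      Finset.prod_eq_zero (Finset.mem_univ (b, i)) h1,
      Finset.prod_eq_zero (Finset.mem_univ (b, i)) h2, add_zero]

variable [Fintype D]

theorem sum_stM_pow (n : ℕ) : ∑ k : D ⊕ Fin L, stM L k ^ (n + 3) = (L : ℝ) := by
  simp [stM]

theorem sum_stM_face :
    ∑ t : Fin 12 → D ⊕ Fin L, ∏ e : Fin 12 × Fin 3, stM L (t e.1) = (L : ℝ) ^ 12 := by
  classical
  have h : ∀ t : Fin 12 → D ⊕ Fin L,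
      ∏ e : Fin 12 × Fin 3, stM L (t e.1) = ∏ b, stM L (t b) ^ (0 + 3) := by
    intro t
    rw [Fintype.prod_prod_type]
    simp
  simp only [h]
  rw [← Fintype.piFinset_univ, ← Finset.prod_univ_sum (fun _ => Finset.univ)
    (fun (_ : Fin 12) (k : D ⊕ Fin L) => stM L k ^ (0 + 3))]
  simp only [sum_stM_pow]
  simp

theorem sum_stM_vertex :
    ∑ s : Fin 8 → D ⊕ Fin L, ∏ e : Fin 12 × Fin 3, stM L (s (fc e.1 e.2)) = (L : ℝ) ^ 8 := by
  classical
  have h : ∀ s : Fin 8 → D ⊕ Fin L, ∏ e : Fin 12 × Fin 3, stM L (s (fc e.1 e.2))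
      = ∏ v, stM L (s v) ^ ((dg v : ℕ) + 3) := fun s => prod_corner (fun v => stM L (s v))
  simp only [h]
  rw [← Fintype.piFinset_univ, ← Finset.prod_univ_sum (fun _ => Finset.univ)
    (fun (v : Fin 8) (k : D ⊕ Fin L) => stM L k ^ ((dg v : ℕ) + 3))]
  simp only [sum_stM_pow]
  simp

theorem sum_uM {ι : Type} [Fintype ι] [DecidableEq ι] (c : Fin 12 × Fin 3 → ι)
    (hc : Function.Surjective c) (x y : Fin 12 × Fin 3 → Fin 8) :
    ∑ s : ι → D ⊕ Fin L, ∏ e, uM L ty w (s (c e)) (x e) (y e) = ∑ s : ι → D,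
      ∏ e, w (ty (s (c e))) * ((momM (ty (s (c e))) (x e) (y e) : ℝ) / 32) := by
  symm
  refine Fintype.sum_of_injective (fun (s : ι → D) i => (Sum.inl (s i) : D ⊕ Fin L)) ?_ _ _ ?_ ?_
  · intro s s' h
    funext i
    exact Sum.inl_injective (congrFun h i)
  · intro s hs
    by_contra hne
    apply hs
    have : ∀ i, ∃ a, Sum.inl a = s i := by
      intro i
      obtain ⟨e, rfl⟩ := hc i
      cases hk : s (c e) with
      | inl a => exact ⟨a, rfl⟩
      | inr k =>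
        exfalso
        apply hne
        refine Finset.prod_eq_zero (Finset.mem_univ e) ?_
        rw [hk]
        rfl
    choose s' hs' using this
    exact ⟨s', funext hs'⟩
  · intro s
    rfl

/-- The contribution of the degree types placed through `c`. -/
noncomputable def contrib {ι : Type} [Fintype ι] [DecidableEq ι] (c : Fin 12 × Fin 3 → ι) : ℝ :=
  ∑ P : Fin 18 → Fin 8, ∑ s : ι → D, ∏ e : Fin 12 × Fin 3, w (ty (s (c e))) *
    ((momM (ty (s (c e))) (P (sd e.1 (pa e.2))) (P (sd e.1 (pb e.2))) : ℝ) / 32)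

theorem total_eq :
    ∑ s : Fin 8 → D ⊕ Fin L, ∑ t : Fin 12 → D ⊕ Fin L, ∑ P : Fin 18 → Fin 8,
      ∏ e : Fin 12 × Fin 3,
        (uM L ty w (s (fc e.1 e.2)) (P (sd e.1 (pa e.2))) (P (sd e.1 (pb e.2))) * stM L (t e.1) +
        stM L (s (fc e.1 e.2)) * uM L ty w (t e.1) (P (sd e.1 (pa e.2))) (P (sd e.1 (pb e.2))))
      = contrib ty w (fun e => fc e.1 e.2) * (L : ℝ) ^ 12 +
        (L : ℝ) ^ 8 * contrib ty w (fun e => e.1) := by
  classical
  simp only [prod_two_cases]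
  rw [Finset.sum_congr rfl fun s _ => Finset.sum_comm, Finset.sum_comm]
  unfold contrib
  rw [Finset.sum_mul, Finset.mul_sum, ← Finset.sum_add_distrib]
  refine Finset.sum_congr rfl fun P _ => ?_
  simp only [Finset.sum_add_distrib]
  rw [← Finset.sum_mul_sum, ← Finset.sum_mul_sum, sum_stM_face, sum_stM_vertex,
    sum_uM L ty w (fun e : Fin 12 × Fin 3 => fc e.1 e.2) fc_surj,
    sum_uM L ty w (fun e : Fin 12 × Fin 3 => e.1) Prod.fst_surjective]

end Types

theorem blowup {ι T : Type} [Fintype ι] [DecidableEq ι] [Fintype T] [DecidableEq T] (N : T → ℕ)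
    (f : (ι → T) → ℝ) :
    ∑ s : ι → (Σ d : T, Fin (N d)), f (fun i => (s i).1) = ∑ φ : ι → T, (∏ i, (N (φ i) : ℝ)) * f φ := by
  classical
  rw [← Finset.sum_fiberwise' Finset.univ
    (fun (s : ι → (Σ d : T, Fin (N d))) (i : ι) => (s i).1) f]
  refine Finset.sum_congr rfl fun φ _ => ?_
  rw [Finset.sum_const, nsmul_eq_mul]
  congr 1
  have h : (Finset.univ.filter fun s : ι → (Σ d : T, Fin (N d)) => (fun i => (s i).1) = φ)
      = Fintype.piFinset fun i => Finset.univ.filter fun k : (Σ d : T, Fin (N d)) => k.1 = φ i := by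
    ext s
    simp [funext_iff]
  rw [h, Fintype.card_piFinset]
  push_cast
  refine Finset.prod_congr rfl fun i _ => ?_
  congr 1
  have h2 : (Finset.univ.filter fun k : (Σ d : T, Fin (N d)) => k.1 = φ i)
      = (Finset.univ : Finset (Fin (N (φ i)))).map (Function.Embedding.sigmaMk (φ i)) := by
    ext ⟨d, k⟩
    simp only [Finset.mem_filter, Finset.mem_univ, true_and, Finset.mem_map,
      Function.Embedding.sigmaMk_apply]
    constructor
    · rintro rfl
      exact ⟨k, rfl⟩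
    · rintro ⟨k', h⟩
      exact (congrArg Sigma.fst h).symm
  rw [h2, Finset.card_map, Finset.card_univ, Fintype.card_fin]

/-- Exponents of the class sizes. -/
def nn : Fin 5 → ℕ := ![40, 33, 24, 13, 0]

/-- Exponents of the activities. -/
def ww : Fin 5 → ℕ := ![8, 6, 4, 2, 0]

/-- Squared distance of two classes. -/
def sqd (j g : Fin 5) : ℕ := ((j : ℕ) - g) ^ 2 + ((g : ℕ) - j) ^ 2

theorem expo_id : ∀ j g : Fin 5,
    nn j + sqd j g = (4 - (g : ℕ)) ^ 2 + ww j * ((g : ℕ) + 3) := by decide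

theorem sqd_self : ∀ j : Fin 5, sqd j j = 0 := by decide

theorem sqd_pos : ∀ j g : Fin 5, j ≠ g → sqd j g ≠ 0 := by decide

theorem pow_id (K : ℝ) (hK : K ≠ 0) (j g : Fin 5) :
    K ^ nn j * ((K⁻¹) ^ ww j) ^ ((g : ℕ) + 3) = K ^ ((4 - (g : ℕ)) ^ 2) * (K⁻¹) ^ sqd j g := by
  rw [← pow_mul, inv_pow, inv_pow, ← div_eq_mul_inv, ← div_eq_mul_inv,
    div_eq_div_iff (pow_ne_zero _ hK) (pow_ne_zero _ hK), ← pow_add, ← pow_add, expo_id]

theorem contrib_eq (K : ℕ) (hK : K ≠ 0) :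
    contrib (D := Σ d : Fin 5, Fin (K ^ nn d)) Sigma.fst (fun d => ((K : ℝ)⁻¹) ^ ww d)
        (fun e => fc e.1 e.2)
      = (∏ v, (K : ℝ) ^ ((4 - (dg v : ℕ)) ^ 2)) / 32 ^ 36 * ∑ φ : Fin 8 → Fin 5,
        (∏ v, ((K : ℝ)⁻¹) ^ sqd (φ v) (dg v)) * ((∑ P, labW φ P : ℤ) : ℝ) := by
  have hK' : (K : ℝ) ≠ 0 := by exact_mod_cast hK
  unfold contrib
  rw [Finset.sum_comm]
  rw [blowup (fun d => K ^ nn d) (fun φ : Fin 8 → Fin 5 => ∑ P : Fin 18 → Fin 8,
    ∏ e : Fin 12 × Fin 3, ((K : ℝ)⁻¹) ^ ww (φ (fc e.1 e.2)) *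
    ((momM (φ (fc e.1 e.2)) (P (sd e.1 (pa e.2))) (P (sd e.1 (pb e.2))) : ℝ) / 32))]
  rw [Finset.mul_sum]
  refine Finset.sum_congr rfl fun φ _ => ?_
  have h1 : ∀ P : Fin 18 → Fin 8, ∏ e : Fin 12 × Fin 3, ((K : ℝ)⁻¹) ^ ww (φ (fc e.1 e.2)) *
      ((momM (φ (fc e.1 e.2)) (P (sd e.1 (pa e.2))) (P (sd e.1 (pb e.2))) : ℝ) / 32)
      = (∏ v, (((K : ℝ)⁻¹) ^ ww (φ v)) ^ ((dg v : ℕ) + 3)) / 32 ^ 36 * (labW φ P : ℝ) := by
    intro P
    rw [Finset.prod_mul_distrib, Finset.prod_div_distrib,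
      prod_corner (fun v => ((K : ℝ)⁻¹) ^ ww (φ v))]
    unfold labW
    push_cast
    simp only [Finset.prod_const, Finset.card_univ, Fintype.card_prod, Fintype.card_fin]
    ring
  simp only [h1]
  rw [← Finset.mul_sum]
  push_cast
  have h2 : (∏ v, (K : ℝ) ^ nn (φ v)) * ∏ v, (((K : ℝ)⁻¹) ^ ww (φ v)) ^ ((dg v : ℕ) + 3)
      = (∏ v, (K : ℝ) ^ ((4 - (dg v : ℕ)) ^ 2)) * ∏ v, ((K : ℝ)⁻¹) ^ sqd (φ v) (dg v) := by
    rw [← Finset.prod_mul_distrib, ← Finset.prod_mul_distrib]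
    exact Finset.prod_congr rfl fun v _ => pow_id _ hK' _ _
  calc _ = ((∏ v, (K : ℝ) ^ nn (φ v)) * ∏ v, (((K : ℝ)⁻¹) ^ ww (φ v)) ^ ((dg v : ℕ) + 3))
        / 32 ^ 36 * ∑ P, (labW φ P : ℝ) := by ring
    _ = _ := by rw [h2]; ring

theorem exists_contrib_neg : ∃ K : ℕ, K ≠ 0 ∧
    contrib (D := Σ d : Fin 5, Fin (K ^ nn d)) Sigma.fst (fun d => ((K : ℝ)⁻¹) ^ ww d)
        (fun e => fc e.1 e.2) < 0 := by
  classical
  set Z : (Fin 8 → Fin 5) → ℝ := fun φ => ((∑ P, labW φ P : ℤ) : ℝ) with hZ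
  have hneg : Z dg < 0 := by
    simp only [hZ]
    exact_mod_cast sum_labW_dg_neg
  obtain ⟨K, hK⟩ := exists_nat_gt (max 1 ((∑ φ, |Z φ|) / (-Z dg)))
  have hK1 : (1 : ℝ) < K := lt_of_le_of_lt (le_max_left _ _) hK
  have hK2 : (∑ φ, |Z φ|) / (-Z dg) < K := lt_of_le_of_lt (le_max_right _ _) hK
  have hK0 : (0 : ℝ) < K := by linarith
  have hKn : K ≠ 0 := by exact_mod_cast hK0.ne'
  refine ⟨K, hKn, ?_⟩
  rw [contrib_eq K hKn]
  refine mul_neg_of_pos_of_neg (by positivity) ?_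
  have hi0 : (0 : ℝ) ≤ (K : ℝ)⁻¹ := by positivity
  have hi1 : (K : ℝ)⁻¹ ≤ 1 := inv_le_one_of_one_le₀ hK1.le
  have hterm : ∀ φ : Fin 8 → Fin 5, (∏ v, ((K : ℝ)⁻¹) ^ sqd (φ v) (dg v)) * Z φ
      ≤ (if φ = dg then Z dg else 0) + (K : ℝ)⁻¹ * |Z φ| := by
    intro φ
    by_cases h : φ = dg
    · subst h
      simp only [sqd_self, pow_zero, Finset.prod_const_one, one_mul, if_true]
      have : 0 ≤ (K : ℝ)⁻¹ * |Z dg| := mul_nonneg hi0 (abs_nonneg _)
      linarith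
    · rw [if_neg h, zero_add]
      obtain ⟨v, hv⟩ := Function.ne_iff.1 h
      have h1 : ∏ v, ((K : ℝ)⁻¹) ^ sqd (φ v) (dg v) ≤ (K : ℝ)⁻¹ := by
        rw [Finset.prod_pow_eq_pow_sum]
        refine pow_le_of_le_one hi0 hi1 ?_
        intro h0
        exact sqd_pos _ _ hv ((Finset.sum_eq_zero_iff.1 h0) v (Finset.mem_univ v))
      have h2 : 0 ≤ ∏ v, ((K : ℝ)⁻¹) ^ sqd (φ v) (dg v) := by positivity
      calc _ ≤ (∏ v, ((K : ℝ)⁻¹) ^ sqd (φ v) (dg v)) * |Z φ| :=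
            mul_le_mul_of_nonneg_left (le_abs_self _) h2
        _ ≤ _ := mul_le_mul_of_nonneg_right h1 (abs_nonneg _)
  have hsum : ∑ φ : Fin 8 → Fin 5, (∏ v, ((K : ℝ)⁻¹) ^ sqd (φ v) (dg v)) * Z φ
      ≤ ∑ φ : Fin 8 → Fin 5, ((if φ = dg then Z dg else 0) + (K : ℝ)⁻¹ * |Z φ|) :=
    Finset.sum_le_sum fun φ _ => hterm φ
  refine lt_of_le_of_lt hsum ?_
  rw [Finset.sum_add_distrib, ← Finset.mul_sum]
  simp only [Finset.sum_ite_eq', Finset.mem_univ, if_true]
  rw [div_lt_iff₀ (by linarith)] at hK2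
  have : (K : ℝ)⁻¹ * ∑ φ, |Z φ| < -Z dg := by
    rw [inv_mul_lt_iff₀ hK0]
    exact hK2
  linarith

/-- The finite plaquette model takes a value below one. -/
theorem model_lt_one : ∃ (κ : Type) (_ : Fintype κ) (_ : Nonempty κ)
    (π : κ → κ → (Fin 3 → SignType) → ℝ),
    (∀ s t, π s t = π t s) ∧ (∀ s t z, 0 ≤ π s t z) ∧ (∀ s t, ∑ z, π s t z = 1) ∧
    𝔼 s : Fin 8 → κ, 𝔼 t : Fin 12 → κ, ∑ z : Fin 12 × Fin 3 → Fin 3 → SignType,
      (∏ e : Fin 12 × Fin 3, π (s (fc e.1 e.2)) (t e.1) (z e)) *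
        ∏ h : Fin 3, ∏ q, (1 + zeta (fun e => z e h) q) < 1 := by
  classical
  obtain ⟨K, hK, hA⟩ := exists_contrib_neg
  set D := Σ d : Fin 5, Fin (K ^ nn d) with hD
  set w : Fin 5 → ℝ := fun d => ((K : ℝ)⁻¹) ^ ww d with hw
  set A := contrib (D := D) Sigma.fst w (fun e => fc e.1 e.2) with hAdef
  set B := contrib (D := D) Sigma.fst w (fun e : Fin 12 × Fin 3 => e.1) with hBdef
  obtain ⟨L, hL⟩ := exists_nat_gt (max 1 (|B| / (-A)))
  have hL1 : (1 : ℝ) < L := lt_of_le_of_lt (le_max_left _ _) hL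
  have hL2 : |B| / (-A) < L := lt_of_le_of_lt (le_max_right _ _) hL
  have hL0 : 0 < L := by exact_mod_cast (zero_lt_one.trans hL1)
  have hK1 : (1 : ℝ) ≤ K := by exact_mod_cast Nat.one_le_iff_ne_zero.2 hK
  have hw0 : ∀ d, 0 ≤ w d := fun d => by positivity
  have hw1 : ∀ d, w d ≤ 1 := fun d =>
    pow_le_one₀ (by positivity) (inv_le_one_of_one_le₀ hK1)
  have hne : Nonempty (D ⊕ Fin L) := ⟨Sum.inr ⟨0, hL0⟩⟩
  refine ⟨D ⊕ Fin L, inferInstance, hne, piM L Sigma.fst w, ?_, ?_, ?_, ?_⟩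
  · intro s t
    cases s <;> cases t <;> rfl
  · intro s t z
    cases s <;> cases t
    · exact dirac0_nonneg z
    · exact mix_nonneg (hw0 _) (hw1 _) _ z
    · exact mix_nonneg (hw0 _) (hw1 _) _ z
    · exact dirac0_nonneg z
  · intro s t
    cases s <;> cases t
    · exact sum_dirac0
    · exact sum_mix _ _
    · exact sum_mix _ _
    · exact sum_dirac0
  · have h1 : ∀ (s : Fin 8 → D ⊕ Fin L) (t : Fin 12 → D ⊕ Fin L),
        ∑ z : Fin 12 × Fin 3 → Fin 3 → SignType,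
        (∏ e : Fin 12 × Fin 3, piM L Sigma.fst w (s (fc e.1 e.2)) (t e.1) (z e)) *
          ∏ h : Fin 3, ∏ q, (1 + zeta (fun e => z e h) q) = 1 + ∑ P : Fin 18 → Fin 8,
        ∏ e : Fin 12 × Fin 3,
        (uM L Sigma.fst w (s (fc e.1 e.2)) (P (sd e.1 (pa e.2))) (P (sd e.1 (pb e.2))) *
          stM L (t e.1) + stM L (s (fc e.1 e.2)) *
          uM L Sigma.fst w (t e.1) (P (sd e.1 (pa e.2))) (P (sd e.1 (pb e.2)))) := by
      intro s t
      rw [sum_states (fun e => piM L Sigma.fst w (s (fc e.1 e.2)) (t e.1))]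
      simp only [mom_piM]
      exact sum_split (fun e a b => uM L Sigma.fst w (s (fc e.1 e.2)) a b * stM L (t e.1) +
        stM L (s (fc e.1 e.2)) * uM L Sigma.fst w (t e.1) a b)
        (fun e b => by simp [uM_zero_left]) (fun e a => by simp [uM_zero_right])
    simp only [h1, Finset.expect_add_distrib, Fintype.expect_const]
    rw [add_lt_iff_neg_left]
    simp only [Finset.expect_eq_sum_div_card]
    rw [← Finset.sum_div, total_eq]
    have hneg : A * (L : ℝ) ^ 12 + (L : ℝ) ^ 8 * B < 0 := by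
      rw [div_lt_iff₀ (by linarith)] at hL2
      have h8 : (0 : ℝ) < (L : ℝ) ^ 8 := by positivity
      have h4 : (L : ℝ) ≤ (L : ℝ) ^ 4 := le_self_pow₀ hL1.le (by norm_num)
      have h5 : A * (L : ℝ) ^ 4 + B < 0 := by
        have := le_abs_self B
        nlinarith
      calc _ = (L : ℝ) ^ 8 * (A * (L : ℝ) ^ 4 + B) := by ring
        _ < 0 := mul_neg_of_pos_of_neg h8 h5
    refine div_neg_of_neg_of_pos (div_neg_of_neg_of_pos hneg ?_) ?_
    · exact_mod_cast Finset.card_pos.2 Finset.univ_nonempty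
    · exact_mod_cast Finset.card_pos.2 Finset.univ_nonempty

end Vale.Agent.P050
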