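import Vale.Agent.P050.MainLemma
import Vale.Agent.P050.Model
import Vale.Agent.P050.KernelGraph

set_option maxSynthPendingDepth 3

namespace Vale.Agent.P050

open Module
open scoped BigOperators

/-- The vertex of the incidence graph given by a corner. -/
def fsrc (e : Fin 12 × Fin 3) : Fin (8 + 12) := Fin.castAdd 12 (fc e.1 e.2)

/-- The vertex of the incidence graph given by a face. -/
def ftgt (e : Fin 12 × Fin 3) : Fin (8 + 12) := Fin.natAdd 8 e.1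

theorem fsrc_lt : ∀ e, (fsrc e).val < 8 := by decide
theorem ftgt_ge : ∀ e, 8 ≤ (ftgt e).val := by decide
theorem fpair_inj : ∀ e e', fsrc e = fsrc e' → ftgt e = ftgt e' → e = e' := by decide

theorem fn_three_prod (L P : Fin 3 → ℝ) (η : ℝ) (hη0 : 0 ≤ η) (hη1 : η ≤ 1)
    (hL0 : ∀ h, 0 ≤ L h) (hL : ∀ h, L h ≤ P h + η) (hP0 : ∀ h, 0 ≤ P h)
    (hP : ∀ h, P h ≤ 2 ^ 18) : ∏ h, L h ≤ ∏ h, P h + 2 ^ 40 * η := by
  refine (Finset.prod_le_prod (fun h _ => hL0 h) (fun h _ => hL h)).trans ?_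
  rw [Fin.prod_univ_three, Fin.prod_univ_three]
  have a01 : P 0 * P 1 ≤ 2 ^ 18 * 2 ^ 18 := mul_le_mul (hP 0) (hP 1) (hP0 1) (by positivity)
  have a02 : P 0 * P 2 ≤ 2 ^ 18 * 2 ^ 18 := mul_le_mul (hP 0) (hP 2) (hP0 2) (by positivity)
  have a12 : P 1 * P 2 ≤ 2 ^ 18 * 2 ^ 18 := mul_le_mul (hP 1) (hP 2) (hP0 2) (by positivity)
  have b1 : η * (P 0 + P 1 + P 2) ≤ 1 * (3 * 2 ^ 18) :=
    mul_le_mul hη1 (by linarith [hP 0, hP 1, hP 2]) (by linarith [hP0 0, hP0 1, hP0 2])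
      zero_le_one
  have b2 : η * η ≤ 1 := mul_le_one₀ hη1 hη0 hη1
  have b3 : P 0 * P 1 + P 0 * P 2 + P 1 * P 2 + η * (P 0 + P 1 + P 2) + η * η ≤ 2 ^ 40 := by
    norm_num at a01 a02 a12 b1 ⊢
    linarith
  have := mul_le_mul_of_nonneg_right b3 hη0
  nlinarith

theorem fn_levels {A B Ω : Type} [Fintype A] [DecidableEq A] [Fintype B] [DecidableEq B]
    [Fintype Ω] (f : Fin 3 → (A → Ω) → (B → Ω) → ℝ) :
    𝔼 x : A → Fin 3 → Ω, 𝔼 y : B → Fin 3 → Ω, ∏ h, f h (fun a => x a h) (fun b => y b h)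
      = ∏ h, 𝔼 x : A → Ω, 𝔼 y : B → Ω, f h x y := by
  rw [← ml_expect_pi_prod (fun h x => 𝔼 y : B → Ω, f h x y)]
  refine Fintype.expect_equiv (Equiv.piComm (fun _ _ => Ω)) _ _ (fun x => ?_)
  rw [← ml_expect_pi_prod (fun h y => f h _ y)]
  exact Fintype.expect_equiv (Equiv.piComm (fun _ _ => Ω)) _ _ (fun y => rfl)

theorem fn_append {Ω : Type} [Fintype Ω] (f : (Fin (8 + 12) → Ω) → ℝ) :
    𝔼 φ : Fin (8 + 12) → Ω, f φ = 𝔼 X : Fin 8 → Ω, 𝔼 Y : Fin 12 → Ω, f (Fin.append X Y) := by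
  rw [← ml_expect_prod (fun XY : (Fin 8 → Ω) × (Fin 12 → Ω) => f (Fin.append XY.1 XY.2))]
  symm
  exact Fintype.expect_equiv (Fin.appendEquiv 8 12) _ _ (fun XY => rfl)

theorem not_sidorenko : ∃ (k n : ℕ) (H : SimpleGraph (Fin k)) (G : SimpleGraph (Fin n)),
    0 < n ∧ H.IsBipartite ∧ H.edgeSet.Nonempty ∧
      (Nat.card (H →g G) : ℝ) / (n : ℝ) ^ k
        < (2 * (G.edgeSet.ncard : ℝ) / (n : ℝ) ^ 2) ^ H.edgeSet.ncard := by
  classical
  obtain ⟨κ, _, _, π, hπs, hπ0, hπ1, hlt⟩ := model_lt_one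
  set V : ℝ := 𝔼 s : Fin 8 → κ, 𝔼 t : Fin 12 → κ, ∑ z : Fin 12 × Fin 3 → Fin 3 → SignType,
      (∏ e : Fin 12 × Fin 3, π (s (fc e.1 e.2)) (t e.1) (z e)) *
        ∏ h : Fin 3, ∏ q, (1 + zeta (fun e => z e h) q) with hV
  set η : ℝ := min 1 ((1 - V) / 2 ^ 41) with hη
  have hη0 : 0 < η := lt_min one_pos (by have := sub_pos.mpr hlt; positivity)
  have hη1 : η ≤ 1 := min_le_left _ _
  have hη2 : V + 2 ^ 40 * η < 1 := by
    have : η ≤ (1 - V) / 2 ^ 41 := min_le_right _ _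
    rw [le_div_iff₀ (by positivity)] at this
    linarith
  obtain ⟨q0, hq0⟩ := main_lemma η hη0
  obtain ⟨p, hp, hpq, hp4⟩ := Nat.exists_prime_gt_modEq_one (max q0 3) (k := 4) (by norm_num)
  have : Fact p.Prime := ⟨hp⟩
  have hp3 : 3 < p := lt_of_le_of_lt (le_max_right _ _) hpq
  have hchar : ringChar (ZMod p) ≠ 2 := by rw [ZMod.ringChar_zmod_n]; omega
  have hsq : IsSquare (-1 : ZMod p) := ZMod.exists_sq_eq_neg_one_iff.mpr (by
    unfold Nat.ModEq at hp4; omega)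
  have hcard : Fintype.card (ZMod p) = p := ZMod.card p
  have hmain := hq0 (ZMod p) hchar hsq (by rw [hcard]; exact le_trans (le_max_left _ _) hpq.le)
  set H : SimpleGraph (Fin (8 + 12)) :=
    SimpleGraph.fromEdgeSet (Set.range fun e => s(fsrc e, ftgt e)) with hHdef
  have hH : ∀ u v, H.Adj u v ↔ ∃ e, s(u, v) = s(fsrc e, ftgt e) := by
    intro u v
    rw [hHdef, SimpleGraph.fromEdgeSet_adj]
    constructor
    · rintro ⟨⟨e, he⟩, -⟩; exact ⟨e, he.symm⟩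
    · rintro ⟨e, he⟩
      refine ⟨⟨e, he.symm⟩, ?_⟩
      have a1 := fsrc_lt e
      have a2 := ftgt_ge e
      rintro rfl
      rcases Sym2.eq_iff.mp he with ⟨h1, h2⟩ | ⟨h1, h2⟩
      · rw [← h1] at a1; rw [← h2] at a2; omega
      · rw [← h2] at a1; rw [← h1] at a2; omega
  have hinj : Function.Injective fun e => s(fsrc e, ftgt e) := by
    intro e e' h
    rcases Sym2.eq_iff.mp h with ⟨h1, h2⟩ | ⟨h1, h2⟩
    · exact fpair_inj e e' h1 h2
    · have a1 := fsrc_lt e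
      have a2 := ftgt_ge e'
      rw [h1] at a1
      omega
  set W : κ × (Fin 3 → Pt (ZMod p)) → κ × (Fin 3 → Pt (ZMod p)) → ℝ :=
    fun a b => ∑ z, π a.1 b.1 z * ∏ h, Wz (z h) (a.2 h) (b.2 h) with hW
  have hWs : ∀ a b, W a b = W b a := by
    intro a b
    simp only [hW, hπs a.1 b.1, Wz_comm hsq _ (a.2 _) (b.2 _)]
  have hW0 : ∀ a b, 0 ≤ W a b := fun a b =>
    Finset.sum_nonneg fun z _ => mul_nonneg (hπ0 _ _ _)
      (Finset.prod_nonneg fun h _ => Wz_nonneg _ _ _)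
  have hW1 : 𝔼 a, 𝔼 b, W a b = 1 := by
    have : ∀ a, 𝔼 b, W a b = 1 := by
      intro a
      rw [ml_expect_prod]
      have : ∀ t : κ, 𝔼 y : Fin 3 → Pt (ZMod p), W a (t, y) = 1 := by
        intro t
        simp only [hW]
        rw [Finset.expect_sum_comm, ← hπ1 a.1 t]
        refine Finset.sum_congr rfl fun z _ => ?_
        rw [← Finset.mul_expect, ml_expect_pi_prod (fun h y => Wz (z h) (a.2 h) y)]
        simp only [expect_Wz (by rw [hcard]; omega : 3 ≤ Fintype.card (ZMod p))]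
        simp
      simp only [this]
      simp
    simp only [this]
    simp
  obtain ⟨n, G, hn, hG⟩ := kernel_to_graph fsrc ftgt H hH hinj W hWs hW0 (by
    rw [hW1, one_pow]
    refine lt_of_le_of_lt ?_ hη2
    have e1 : 𝔼 φ : Fin (8 + 12) → κ × (Fin 3 → Pt (ZMod p)), ∏ e, W (φ (fsrc e)) (φ (ftgt e))
        = 𝔼 X : Fin 8 → κ × (Fin 3 → Pt (ZMod p)), 𝔼 Y : Fin 12 → κ × (Fin 3 → Pt (ZMod p)),
          ∏ e : Fin 12 × Fin 3, W (X (fc e.1 e.2)) (Y e.1) := by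
      rw [fn_append]
      simp [fsrc, ftgt]
    rw [e1, ml_expect_arrow_prod]
    have e2 : V + 2 ^ 40 * η = 𝔼 s : Fin 8 → κ, 𝔼 t : Fin 12 → κ,
        ∑ z : Fin 12 × Fin 3 → Fin 3 → SignType,
          (∏ e : Fin 12 × Fin 3, π (s (fc e.1 e.2)) (t e.1) (z e)) *
            (∏ h : Fin 3, ∏ q, (1 + zeta (fun e => z e h) q) + 2 ^ 40 * η) := by
      have : ∀ (s : Fin 8 → κ) (t : Fin 12 → κ), ∑ z : Fin 12 × Fin 3 → Fin 3 → SignType,
          ∏ e : Fin 12 × Fin 3, π (s (fc e.1 e.2)) (t e.1) (z e) = 1 := by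
        intro s t
        rw [← Fintype.piFinset_univ, ← Finset.prod_univ_sum]
        simp [hπ1]
      simp only [mul_add, Finset.sum_add_distrib, Finset.expect_add_distrib, ← Finset.sum_mul,
        this, one_mul, Fintype.expect_const, hV]
    rw [e2]
    refine Finset.expect_le_expect fun s _ => ?_
    simp only [ml_expect_arrow_prod (ι := Fin 12) (A := κ) (B := Fin 3 → Pt (ZMod p))]
    rw [Finset.expect_comm]
    refine Finset.expect_le_expect fun t _ => ?_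
    have e3 : ∀ (x : Fin 8 → Fin 3 → Pt (ZMod p)) (y : Fin 12 → Fin 3 → Pt (ZMod p)),
        ∏ e : Fin 12 × Fin 3, W (s (fc e.1 e.2), x (fc e.1 e.2)) (t e.1, y e.1)
        = ∑ z : Fin 12 × Fin 3 → Fin 3 → SignType,
          (∏ e : Fin 12 × Fin 3, π (s (fc e.1 e.2)) (t e.1) (z e)) *
            ∏ h : Fin 3, ∏ e : Fin 12 × Fin 3, Wz (z e h) (x (fc e.1 e.2) h) (y e.1 h) := by
      intro x y
      simp only [hW]
      rw [Finset.prod_univ_sum, Fintype.piFinset_univ]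
      refine Finset.sum_congr rfl fun z _ => ?_
      rw [Finset.prod_mul_distrib, Finset.prod_comm]
    simp only [e3, Finset.expect_sum_comm, ← Finset.mul_expect]
    refine Finset.sum_le_sum fun z _ => mul_le_mul_of_nonneg_left ?_
      (Finset.prod_nonneg fun e _ => hπ0 _ _ _)
    rw [fn_levels (fun h (x : Fin 8 → Pt (ZMod p)) (y : Fin 12 → Pt (ZMod p)) =>
      ∏ e : Fin 12 × Fin 3, Wz (z e h) (x (fc e.1 e.2)) (y e.1))]
    exact fn_three_prod _ _ η hη0.le hη1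
      (fun h => Finset.expect_nonneg fun x _ => Finset.expect_nonneg fun y _ =>
        Finset.prod_nonneg fun e _ => Wz_nonneg _ _ _)
      (fun h => hmain (fun e => z e h)) (fun h => ml_prod_zeta_nonneg _)
      (fun h => ml_prod_zeta_le _))
  refine ⟨8 + 12, n, H, G, hn, ?_, ?_, by simpa using hG⟩
  · refine ⟨SimpleGraph.Coloring.mk (fun v => if v.val < 8 then 0 else 1) ?_⟩
    intro u v huv
    obtain ⟨e, he⟩ := (hH u v).mp huv
    have a1 := fsrc_lt e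
    have a2 := ftgt_ge e
    rcases Sym2.eq_iff.mp he with ⟨rfl, rfl⟩ | ⟨rfl, rfl⟩
    · simp [a1, not_lt.mpr a2]
    · simp [a1, not_lt.mpr a2]
  · exact ⟨s(fsrc (0, 0), ftgt (0, 0)), (hH _ _).mpr ⟨(0, 0), rfl⟩⟩

end Vale.Agent.P050
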