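import Vale.Agent.P050.Defs

set_option maxSynthPendingDepth 3

namespace Vale.Agent.P050

open Module
open scoped BigOperators

variable {F V : Type} [Field F] [Fintype F] [AddCommGroup V] [Module F V] [Finite V]

open Classical in
/-- The number of adapted tuples of length `k` spanning `Z` over `A`. -/
noncomputable def tupW (A : Submodule F V) : ℕ → Submodule F V → ℝ
  | 0, Z => if Z = A then 1 else 0
  | k + 1, Z =>
    ∑ Z' ∈ (Set.toFinite (Set.univ : Set (Submodule F V))).toFinset,
      tupW A k Z' * (({v : V | v ∉ Z' ∧ Z' ⊔ Submodule.span F {v} = Z}.ncard : ℕ) : ℝ)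

omit [Fintype F] in
lemma tupW_nonneg (A : Submodule F V) (k : ℕ) (Z : Submodule F V) : 0 ≤ tupW A k Z := by
  induction k generalizing Z with
  | zero => unfold tupW; split_ifs <;> norm_num
  | succ k ih =>
    unfold tupW
    exact Finset.sum_nonneg fun Z' _ => mul_nonneg (ih Z') (Nat.cast_nonneg _)

omit [Fintype F] in
lemma finrank_sup_span {Z : Submodule F V} {v : V} (hv : v ∉ Z) :
    finrank F ↥(Z ⊔ Submodule.span F {v}) = finrank F Z + 1 := by
  have : Module.Finite F V := Module.Finite.of_finite
  have hv0 : v ≠ 0 := fun h => hv (h ▸ Z.zero_mem)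
  have h1 := Submodule.finrank_sup_add_finrank_inf_eq Z (Submodule.span F {v})
  have h2 : Z ⊓ Submodule.span F {v} = ⊥ :=
    disjoint_iff.mp ((Submodule.disjoint_span_singleton' hv0).mpr hv)
  rw [h2, finrank_bot, finrank_span_singleton hv0] at h1
  omega

omit [Fintype F] in
lemma tupW_support (A : Submodule F V) (k : ℕ) (Z : Submodule F V) (h : tupW A k Z ≠ 0) :
    A ≤ Z ∧ finrank F Z = finrank F A + k := by
  induction k generalizing Z with
  | zero =>
    unfold tupW at h
    split_ifs at h with h1
    · subst h1; simp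
    · exact absurd rfl h
  | succ k ih =>
    unfold tupW at h
    obtain ⟨Z', -, h'⟩ := Finset.exists_ne_zero_of_sum_ne_zero h
    obtain ⟨h1, h2⟩ := mul_ne_zero_iff.mp h'
    obtain ⟨v, hv, rfl⟩ := Set.nonempty_of_ncard_ne_zero (Nat.cast_ne_zero.mp h2)
    obtain ⟨h3, h4⟩ := ih Z' h1
    exact ⟨h3.trans le_sup_left, by rw [finrank_sup_span hv, h4, add_assoc]⟩

open Classical in
/-- Total weight of the subspaces satisfying `Q`. -/
noncomputable def tupS (A : Submodule F V) (k : ℕ) (Q : Submodule F V → Prop) : ℝ :=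
  ∑ Z ∈ (Set.toFinite (Set.univ : Set (Submodule F V))).toFinset, if Q Z then tupW A k Z else 0

omit [Fintype F] in
lemma tupS_succ (A : Submodule F V) (k : ℕ) (Q : Submodule F V → Prop) :
    tupS A (k + 1) Q = ∑ Z' ∈ (Set.toFinite (Set.univ : Set (Submodule F V))).toFinset,
      tupW A k Z' * (({v : V | v ∉ Z' ∧ Q (Z' ⊔ Submodule.span F {v})}.ncard : ℕ) : ℝ) := by
  classical
  have := Fintype.ofFinite V
  have hc : ∀ p : V → Prop, (({v : V | p v}.ncard : ℕ) : ℝ) = ∑ v : V, if p v then 1 else 0 := by
    intro p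
    rw [Finset.sum_boole, ← Set.ncard_coe_finset]
    congr 2
    ext v; simp
  unfold tupS
  simp only [tupW, hc]
  have e : ∀ Z : Submodule F V, (if Q Z then
      ∑ Z' ∈ (Set.toFinite (Set.univ : Set (Submodule F V))).toFinset, tupW A k Z' *
        ∑ v : V, (if v ∉ Z' ∧ Z' ⊔ Submodule.span F {v} = Z then (1 : ℝ) else 0) else 0) =
      ∑ Z' ∈ (Set.toFinite (Set.univ : Set (Submodule F V))).toFinset, tupW A k Z' *
        ∑ v : V, (if Z' ⊔ Submodule.span F {v} = Z then
          (if v ∉ Z' ∧ Q (Z' ⊔ Submodule.span F {v}) then (1 : ℝ) else 0) else 0) := by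
    intro Z
    split_ifs with h
    · refine Finset.sum_congr rfl fun Z' _ => ?_
      congr 1
      refine Finset.sum_congr rfl fun v _ => ?_
      by_cases h1 : Z' ⊔ Submodule.span F {v} = Z
      · simp [h1, h]
      · simp [h1]
    · symm
      refine Finset.sum_eq_zero fun Z' _ => ?_
      rw [Finset.sum_eq_zero, mul_zero]
      intro v _
      by_cases h1 : Z' ⊔ Submodule.span F {v} = Z
      · simp [h1, h]
      · simp [h1]
  refine (Finset.sum_congr rfl fun Z _ => by convert e Z).trans ?_
  rw [Finset.sum_comm]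
  refine Finset.sum_congr rfl fun Z' _ => ?_
  rw [← Finset.mul_sum, Finset.sum_comm]
  congr 1
  refine Finset.sum_congr rfl fun v _ => ?_
  rw [Finset.sum_ite_eq]
  simp

lemma ncard_submodule (Z : Submodule F V) :
    (((Z : Set V).ncard : ℕ) : ℝ) = (Fintype.card F : ℝ) ^ finrank F Z := by
  have : Module.Finite F V := Module.Finite.of_finite
  have h := Module.natCard_eq_pow_finrank (K := F) (V := Z)
  rw [Nat.card_eq_fintype_card (α := F)] at h
  rw [← Nat.card_coe_set_eq]
  exact_mod_cast h

lemma one_lt_q : (1 : ℝ) < (Fintype.card F : ℝ) := by exact_mod_cast Fintype.one_lt_card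

lemma tupW_lower (A : Submodule F V) (t : ℕ) (Z : Submodule F V) (hA : A ≤ Z)
    (hZ : finrank F Z = finrank F A + t) :
    ((Fintype.card F : ℝ) ^ (finrank F A + t) * (1 - 1 / (Fintype.card F : ℝ))) ^ t
      ≤ tupW A t Z := by
  classical
  have : Module.Finite F V := Module.Finite.of_finite
  have hq := one_lt_q (F := F)
  set c := (Fintype.card F : ℝ) ^ (finrank F A + t) * (1 - 1 / (Fintype.card F : ℝ)) with hc
  have hc0 : 0 ≤ c := by
    refine mul_nonneg (by positivity) (sub_nonneg.mpr ?_)
    rw [div_le_one (by linarith)]; linarith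
  have key : ∀ k ≤ t, c ^ k ≤ tupS A k (· ≤ Z) := by
    intro k
    induction k with
    | zero =>
      intro _
      unfold tupS
      rw [Finset.sum_eq_single A]
      · simp [hA, tupW]
      · intro Z' _ h; simp [tupW, h]
      · intro h; simp at h
    | succ k ih =>
      intro hk
      rw [tupS_succ, pow_succ]
      refine (mul_le_mul_of_nonneg_right (ih (by omega)) hc0).trans ?_
      unfold tupS
      rw [Finset.sum_mul]
      refine Finset.sum_le_sum fun Z' _ => ?_
      split_ifs with h
      · by_cases h0 : tupW A k Z' = 0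
        · simp [h0]
        refine mul_le_mul_of_nonneg_left ?_ (tupW_nonneg _ _ _)
        obtain ⟨-, h2⟩ := tupW_support A k Z' h0
        have e : {v : V | v ∉ Z' ∧ Z' ⊔ Submodule.span F {v} ≤ Z} = (Z : Set V) \ (Z' : Set V) := by
          ext v
          simp [h, Submodule.span_singleton_le_iff_mem, and_comm]
        have h3 := Set.ncard_sdiff_add_ncard_of_subset (s := (Z' : Set V)) (t := (Z : Set V)) h
        have h4 : ((((Z : Set V) \ (Z' : Set V)).ncard : ℕ) : ℝ) =
            (Fintype.card F : ℝ) ^ (finrank F A + t) - (Fintype.card F : ℝ) ^ (finrank F A + k) := by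
          rw [← hZ, ← h2, ← ncard_submodule, ← ncard_submodule, ← h3]
          push_cast; ring
        rw [e, h4, hc, mul_sub, mul_one, mul_one_div]
        refine sub_le_sub_left ?_ _
        rw [le_div_iff₀ (by linarith), ← pow_succ]
        exact pow_le_pow_right₀ hq.le (by omega)
      · rw [zero_mul]
        exact mul_nonneg (tupW_nonneg _ _ _) (Nat.cast_nonneg _)
  refine (key t le_rfl).trans (le_of_eq ?_)
  unfold tupS
  rw [Finset.sum_eq_single Z]
  · simp
  · intro Z' _ h
    split_ifs with h1
    · by_contra h0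
      obtain ⟨-, h2⟩ := tupW_support A t Z' h0
      exact h (Submodule.eq_of_le_of_finrank_eq h1 (by rw [h2, hZ]))
    · rfl
  · intro h; simp at h

/-- Counting subspaces in a hereditary family by counting adapted tuples of vectors. -/
theorem card_family_le (A : Submodule F V) (t : ℕ) (P : Submodule F V → Prop)
    (hP : ∀ Z Z', P Z → A ≤ Z' → Z' ≤ Z → P Z') (M : ℕ → ℝ) (hM0 : ∀ k, 0 ≤ M k)
    (hM : ∀ k < t, ∀ Z', A ≤ Z' → finrank F Z' = finrank F A + k → P Z' →
      (({v : V | v ∉ Z' ∧ P (Z' ⊔ Submodule.span F {v})}.ncard : ℕ) : ℝ) ≤ M k) :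
    (({Z : Submodule F V | A ≤ Z ∧ finrank F Z = finrank F A + t ∧ P Z}.ncard : ℕ) : ℝ) *
      ((Fintype.card F : ℝ) ^ (finrank F A + t) * (1 - 1 / (Fintype.card F : ℝ))) ^ t
      ≤ ∏ k ∈ Finset.range t, M k := by
  classical
  have key : ∀ k ≤ t, tupS A k P ≤ ∏ j ∈ Finset.range k, M j := by
    intro k
    induction k with
    | zero =>
      intro _
      unfold tupS
      rw [Finset.sum_eq_single A]
      · simp only [tupW, if_true, Finset.range_zero, Finset.prod_empty]
        split_ifs <;> norm_num
      · intro Z' _ h; simp [tupW, h]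
      · intro h; simp at h
    | succ k ih =>
      intro hk
      rw [tupS_succ, Finset.prod_range_succ]
      refine le_trans ?_ (mul_le_mul_of_nonneg_right (ih (by omega)) (hM0 k))
      unfold tupS
      rw [Finset.sum_mul]
      refine Finset.sum_le_sum fun Z' _ => ?_
      by_cases h0 : tupW A k Z' = 0
      · simp [h0]
      obtain ⟨h1, h2⟩ := tupW_support A k Z' h0
      split_ifs with h
      · exact mul_le_mul_of_nonneg_left (hM k (by omega) Z' h1 h2 h) (tupW_nonneg _ _ _)
      · have e : {v : V | v ∉ Z' ∧ P (Z' ⊔ Submodule.span F {v})} = ∅ :=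
          Set.eq_empty_of_forall_notMem fun v hv => h (hP _ _ hv.2 h1 le_sup_left)
        simp [e]
  refine le_trans ?_ (key t le_rfl)
  set S := {Z : Submodule F V | A ≤ Z ∧ finrank F Z = finrank F A + t ∧ P Z} with hS
  rw [Set.ncard_eq_toFinset_card S, ← nsmul_eq_mul, ← Finset.sum_const]
  unfold tupS
  refine le_trans (Finset.sum_le_sum (g := fun Z => if P Z then tupW A t Z else 0) fun Z hZ => ?_)
    (Finset.sum_le_sum_of_subset_of_nonneg (fun Z _ => by simp) fun Z _ _ => ?_)
  · have hZ' : Z ∈ S := by simpa using hZ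
    rw [if_pos hZ'.2.2]
    exact tupW_lower A t Z hZ'.1 hZ'.2.1
  · split_ifs
    · exact tupW_nonneg _ _ _
    · exact le_rfl

/-- Sharp bound for the number of subspaces between `A` and `B`. -/
theorem card_between_le (A B : Submodule F V) (k : ℕ) :
    (({U : Submodule F V | A ≤ U ∧ U ≤ B ∧ finrank F U = finrank F A + k}.ncard : ℕ) : ℝ) *
      (1 - 1 / (Fintype.card F : ℝ)) ^ k
      ≤ (Fintype.card F : ℝ) ^ (k * (finrank F B - finrank F A - k)) := by
  have : Module.Finite F V := Module.Finite.of_finite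
  have hq := one_lt_q (F := F)
  by_cases hab : finrank F A + k ≤ finrank F B
  · have h := card_family_le A k (· ≤ B) (fun Z Z' h _ h' => h'.trans h)
      (fun _ => (Fintype.card F : ℝ) ^ finrank F B) (fun _ => by positivity)
      (fun j _ Z' _ _ _ => by
        rw [← ncard_submodule]
        refine Nat.cast_le.mpr (Set.ncard_le_ncard fun v hv => ?_)
        exact (Submodule.span_singleton_le_iff_mem _ _).mp (le_sup_right.trans hv.2))
    have e : {Z : Submodule F V | A ≤ Z ∧ finrank F Z = finrank F A + k ∧ Z ≤ B} =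
        {U : Submodule F V | A ≤ U ∧ U ≤ B ∧ finrank F U = finrank F A + k} := by
      ext U; simp only [Set.mem_ofPred_eq]; tauto
    rw [e, Finset.prod_const, Finset.card_range, mul_pow, ← pow_mul, ← pow_mul] at h
    have e2 : finrank F B * k = k * (finrank F B - finrank F A - k) + (finrank F A + k) * k := by
      obtain ⟨m, hm⟩ := Nat.exists_eq_add_of_le hab
      rw [hm, show finrank F A + k + m - finrank F A - k = m by omega]; ring
    rw [e2, pow_add] at h
    refine le_of_mul_le_mul_right (le_trans (le_of_eq ?_) h)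
      (show 0 < (Fintype.card F : ℝ) ^ ((finrank F A + k) * k) by positivity)
    ring
  · have e : {U : Submodule F V | A ≤ U ∧ U ≤ B ∧ finrank F U = finrank F A + k} = ∅ :=
      Set.eq_empty_of_forall_notMem fun U hU =>
        hab (hU.2.2 ▸ Submodule.finrank_mono hU.2.1)
    rw [e]
    simp

/-- Crude bound for the number of subspaces of dimension `d` between `A` and `B`. -/
theorem card_between_le_zpow (A B : Submodule F V) (d : ℕ) :
    (({U : Submodule F V | A ≤ U ∧ U ≤ B ∧ finrank F U = d}.ncard : ℕ) : ℝ)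
      ≤ 2 ^ d * (Fintype.card F : ℝ) ^ (((d : ℤ) - finrank F A) * ((finrank F B : ℤ) - d)) := by
  have : Module.Finite F V := Module.Finite.of_finite
  have hq := one_lt_q (F := F)
  have hq2 : (2 : ℝ) ≤ (Fintype.card F : ℝ) := by exact_mod_cast Fintype.one_lt_card
  rcases Set.eq_empty_or_nonempty {U : Submodule F V | A ≤ U ∧ U ≤ B ∧ finrank F U = d} with
    h | ⟨U, h1, h2, h3⟩
  · rw [h]
    simp only [Set.ncard_empty, Nat.cast_zero]
    positivity
  have ha : finrank F A ≤ d := h3 ▸ Submodule.finrank_mono h1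
  have hb : d ≤ finrank F B := h3 ▸ Submodule.finrank_mono h2
  obtain ⟨k, rfl⟩ := Nat.exists_eq_add_of_le ha
  have h := card_between_le A B k
  have e : (((finrank F A + k : ℕ) : ℤ) - finrank F A) * ((finrank F B : ℤ) - (finrank F A + k : ℕ))
      = ((k * (finrank F B - finrank F A - k) : ℕ) : ℤ) := by
    obtain ⟨m, hm⟩ := Nat.exists_eq_add_of_le hb
    rw [hm, show finrank F A + k + m - finrank F A - k = m by omega]
    push_cast; ring
  rw [e, zpow_natCast]
  have h4 : (1 / 2 : ℝ) ^ k ≤ (1 - 1 / (Fintype.card F : ℝ)) ^ k := by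
    refine pow_le_pow_left₀ (by norm_num) ?_ k
    have : 1 / (Fintype.card F : ℝ) ≤ 1 / 2 := one_div_le_one_div_of_le (by norm_num) hq2
    linarith
  have h5 := (mul_le_mul_of_nonneg_left h4 (Nat.cast_nonneg _)).trans h
  rw [one_div, inv_pow, ← div_eq_mul_inv, div_le_iff₀ (by positivity)] at h5
  refine h5.trans ?_
  rw [mul_comm]
  exact mul_le_mul_of_nonneg_right (pow_le_pow_right₀ (by norm_num) (by omega)) (by positivity)

end Vale.Agent.P050
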