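import Vale.Agent.P050.Grass

set_option maxSynthPendingDepth 3

namespace Vale.Agent.P050

open Module
open scoped BigOperators

variable {F V : Type} [Field F] [AddCommGroup V] [Module F V]

/-- `Z` is totally isotropic for `β`. -/
def IsIso (β : SF F V) (Z : Submodule F V) : Prop := ∀ x ∈ Z, ∀ y ∈ Z, β.1 x y = 0

theorem iso_two_mul_le [Module.Finite F V] (β : SF F V) (Z : Submodule F V) (hZ : IsIso β Z) :
    2 * finrank F Z + finrank F (LinearMap.ker β.1)
      ≤ finrank F V + 2 * finrank F ↥(Z ⊓ LinearMap.ker β.1) := by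
  have h1 := LinearMap.BilinForm.finrank_add_finrank_orthogonal' (B := β.1) Z
  have h2 := Submodule.finrank_sup_add_finrank_inf_eq Z (LinearMap.ker β.1)
  have h3 : Z ⊔ LinearMap.ker β.1 ≤ β.1.orthogonal Z := by
    refine sup_le (fun x hx y hy => hZ y hy x hx) fun x hx y _ => ?_
    have : β.1 x = 0 := hx
    show β.1 y x = 0
    rw [SF.symm β, this]
    rfl
  have h4 := Submodule.finrank_mono h3
  omega

section Key

open Finset

theorem iso_card_submodule [Fintype F] [Fintype V] (W : Submodule F V) [DecidablePred (· ∈ W)] :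
    (univ.filter (· ∈ W)).card = Fintype.card F ^ finrank F W := by
  have : Module.Finite F W := Module.Finite.of_finite
  rw [← Nat.card_eq_fintype_card, ← Module.natCard_eq_pow_finrank, ← Fintype.card_subtype,
    Nat.card_eq_fintype_card]

theorem iso_key [Fintype F] [Finite V] (hF : ringChar F ≠ 2) (b : LinearMap.BilinForm F V)
    (hb : ∀ x y, b x y = b y x) :
    ((({v : V | b v v = 0}.ncard : ℕ) : ℝ) -
      (Fintype.card F : ℝ) ^ finrank F V / Fintype.card F) ^ 2 ≤
      (Fintype.card F : ℝ) ^ (finrank F V + finrank F (LinearMap.ker b)) := by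
  classical
  have := Fintype.ofFinite V
  have : Module.Finite F V := Module.Finite.of_finite
  have h2 : (2 : F) ≠ 0 := Ring.two_ne_zero hF
  set q : ℝ := (Fintype.card F : ℝ) with hq
  have hq0 : 0 < q := by rw [hq]; exact_mod_cast Fintype.card_pos
  set Q : ℝ := q ^ finrank F V with hQ
  set R : ℝ := q ^ finrank F (LinearMap.ker b) with hR
  have hQV : (Fintype.card V : ℝ) = Q := by
    rw [hQ, hq, Module.card_eq_pow_finrank (K := F)]
    push_cast
    rfl
  set N : F → ℝ := fun a => ∑ v : V, if b v v = a then 1 else 0 with hN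
  have hN0 : (({v : V | b v v = 0}.ncard : ℕ) : ℝ) = N 0 := by
    rw [hN, Set.ncard_eq_toFinset_card']
    simp
  have hS1 : ∑ a, N a = Q := by
    simp only [hN]
    rw [sum_comm]
    simp [hQV]
  have hS2 : ∑ a, N a ^ 2 = ∑ x : V, ∑ y : V, if b x y = 0 then (1 : ℝ) else 0 := by
    have e1 : ∑ a, N a ^ 2 = ∑ p : V × V, if b p.1 p.1 = b p.2 p.2 then (1 : ℝ) else 0 := by
      simp only [hN, sq, sum_mul_sum]
      rw [Fintype.sum_prod_type, sum_comm]
      refine sum_congr rfl fun v _ => ?_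
      rw [sum_comm]
      refine sum_congr rfl fun w _ => ?_
      simp only [ite_mul, one_mul, zero_mul, sum_ite_eq, mem_univ, if_true]
      simp only [eq_comm]
    rw [e1, ← Fintype.sum_prod_type']
    refine Fintype.sum_bijective (fun p : V × V => (p.1 + p.2, p.1 - p.2)) ?_ _ _ fun p => ?_
    · refine (Finite.injective_iff_bijective).1 fun p p' h => ?_
      simp only [Prod.mk.injEq] at h
      have a1 : (2 : F) • (p.1 - p'.1) = 0 := by
        rw [two_smul]
        have : p.1 - p'.1 + (p.1 - p'.1) = (p.1 + p.2) + (p.1 - p.2) - ((p'.1 + p'.2) + (p'.1 - p'.2)) := by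
          abel
        rw [this, h.1, h.2, sub_self]
      have a2 : p.1 = p'.1 := sub_eq_zero.1 ((smul_eq_zero.1 a1).resolve_left h2)
      refine Prod.ext a2 ?_
      have := h.1
      rwa [a2, add_right_inj] at this
    · have : b (p.1 + p.2) (p.1 - p.2) = b p.1 p.1 - b p.2 p.2 := by
        simp only [map_add, map_sub, LinearMap.add_apply, hb p.2 p.1]
        ring
      simp only [this, sub_eq_zero]
  have hS3 : ∀ x : V, ∑ y : V, (if b x y = 0 then (1 : ℝ) else 0) =
      Q / q + (if x ∈ LinearMap.ker b then Q - Q / q else 0) := by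
    intro x
    split_ifs with hx
    · have : b x = 0 := hx
      simp [this, hQV]
    · have hx' : b x ≠ 0 := hx
      have a1 := Module.Dual.finrank_ker_add_one_of_ne_zero hx'
      have a2 := iso_card_submodule (LinearMap.ker (b x))
      simp only [LinearMap.mem_ker] at a2
      rw [sum_boole, a2, hQ, ← a1, pow_succ]
      push_cast
      field_simp
      rw [add_zero]
  have hS4 : ∑ a, N a ^ 2 = Q * (Q / q) + R * (Q - Q / q) := by
    rw [hS2]
    simp only [hS3, sum_add_distrib, ← sum_filter, sum_const, card_univ, nsmul_eq_mul, hQV,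
      iso_card_submodule]
    push_cast
    rfl
  have hS5 : ∑ a, (N a - Q / q) ^ 2 = R * (Q - Q / q) := by
    have : ∀ a, (N a - Q / q) ^ 2 = N a ^ 2 - 2 * (Q / q) * N a + (Q / q) ^ 2 := fun a => by ring
    simp only [this, sum_add_distrib, sum_sub_distrib, ← mul_sum, hS1, hS4, sum_const, card_univ,
      nsmul_eq_mul, ← hq]
    field_simp
    ring
  rw [hN0, pow_add]
  have h3 := single_le_sum (f := fun a => (N a - Q / q) ^ 2) (fun _ _ => sq_nonneg _) (mem_univ 0)
  have h4 : 0 ≤ R * (Q / q) := by positivity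
  rw [hS5] at h3
  nlinarith

end Key

variable [Fintype F] [Finite V]

theorem iso_step (hF : ringChar F ≠ 2) (β : SF F V) (Z : Submodule F V) (k j : ℕ)
    (hk : finrank F Z = finrank F ↥(Z ⊓ LinearMap.ker β.1) + k)
    (hj : finrank F (LinearMap.ker β.1) + 2 * k + 2 * j ≤ finrank F V) (S : Set V)
    (hS : ∀ v ∈ S, IsIso β (Z ⊔ Submodule.span F {v})) :
    ((S.ncard : ℕ) : ℝ) ≤ (Fintype.card F : ℝ) ^ (finrank F V - k) *
      (1 / (Fintype.card F : ℝ) + 1 / (Fintype.card F : ℝ) ^ j) := by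
  have : Module.Finite F V := Module.Finite.of_finite
  set W := β.1.orthogonal Z with hW
  have h1 := LinearMap.BilinForm.finrank_add_finrank_orthogonal' (B := β.1) Z
  have h2 := LinearMap.BilinForm.finrank_add_finrank_orthogonal' (B := β.1) W
  have h3 := Submodule.finrank_mono (inf_le_right : W ⊓ LinearMap.ker β.1 ≤ LinearMap.ker β.1)
  rw [← hW] at h1
  have h4 : finrank F (LinearMap.ker (β.1.restrict W)) ≤ finrank F (β.1.orthogonal W) := by
    rw [← Submodule.finrank_map_subtype_eq]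
    refine Submodule.finrank_mono ?_
    rintro _ ⟨x, hx, rfl⟩ y hy
    have : β.1.restrict W x ⟨y, hy⟩ = 0 := by
      have h : β.1.restrict W x = 0 := hx
      rw [h]
      rfl
    show β.1 y x = 0
    rw [SF.symm β]
    exact this
  have h5 := iso_key hF (β.1.restrict W) (fun x y => SF.symm β x y)
  have h6 : S.ncard ≤ {v : W | β.1.restrict W v v = 0}.ncard := by
    rw [← Set.ncard_image_of_injective {v : W | β.1.restrict W v v = 0} Subtype.val_injective]
    refine Set.ncard_le_ncard (fun v hv => ?_) (Set.toFinite _)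
    have a1 : v ∈ Z ⊔ Submodule.span F {v} :=
      Submodule.mem_sup_right (Submodule.mem_span_singleton_self v)
    exact ⟨⟨v, fun y hy => hS v hv y (Submodule.mem_sup_left hy) v a1⟩, hS v hv v a1 v a1, rfl⟩
  have h7 : finrank F V - k = finrank F W := by omega
  rw [h7]
  set q : ℝ := (Fintype.card F : ℝ) with hq
  have hq1 : 1 ≤ q := by rw [hq]; exact_mod_cast Fintype.card_pos
  have h8 : q ^ (finrank F W + finrank F (LinearMap.ker (β.1.restrict W))) ≤
      (q ^ finrank F W / q ^ j) ^ 2 := by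
    rw [div_pow, le_div_iff₀ (by positivity), ← pow_mul, ← pow_mul, ← pow_add]
    exact pow_le_pow_right₀ hq1 (by omega)
  have h9 := (abs_le_of_sq_le_sq' (h5.trans h8) (by positivity)).2
  have h10 : ((S.ncard : ℕ) : ℝ) ≤ ({v : W | β.1.restrict W v v = 0}.ncard : ℕ) := by
    exact_mod_cast h6
  rw [mul_add, mul_one_div, mul_one_div]
  linarith

theorem iso_prod (q : ℝ) (hq : 0 < q) (D : ℤ) (t : ℕ) :
    ∏ k ∈ Finset.range t, (2 * q ^ (D - k - 1)) =
      2 ^ t * q ^ (t * D - ((t * (t + 1) / 2 : ℕ) : ℤ)) := by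
  induction t with
  | zero => simp
  | succ t ih =>
    have h1 : (t + 1) * (t + 1 + 1) / 2 = t * (t + 1) / 2 + (t + 1) := by
      rw [show (t + 1) * (t + 1 + 1) = t * (t + 1) + 2 * (t + 1) by ring,
        Nat.add_mul_div_left _ _ (by norm_num)]
    rw [Finset.prod_range_succ, ih, h1, mul_mul_mul_comm, ← zpow_add₀ hq.ne', ← pow_succ]
    congr 2
    generalize t * (t + 1) / 2 = u
    push_cast
    ring

/-- Crude bound for the number of isotropic subspaces of dimension `d` that meet the radical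
in `A`. -/
theorem card_iso_le (hF : ringChar F ≠ 2) (β : SF F V) (A : Submodule F V) (d : ℕ) :
    (({Z : Submodule F V | Z ⊓ LinearMap.ker β.1 = A ∧ finrank F Z = d ∧ IsIso β Z}.ncard : ℕ) : ℝ)
      ≤ 4 ^ d * (Fintype.card F : ℝ) ^ (((d : ℤ) - finrank F A) * ((finrank F V : ℤ) - d)
          - (((d - finrank F A) * (d - finrank F A + 1) / 2 : ℕ) : ℤ)) := by
  have : Module.Finite F V := Module.Finite.of_finite
  set q : ℝ := (Fintype.card F : ℝ) with hq
  have hq2 : 2 ≤ q := by rw [hq]; exact_mod_cast Fintype.one_lt_card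
  have hq0 : 0 < q := by linarith
  rcases Set.eq_empty_or_nonempty
    {Z : Submodule F V | Z ⊓ LinearMap.ker β.1 = A ∧ finrank F Z = d ∧ IsIso β Z} with
    h | ⟨Z0, h1, h2, h3⟩
  · rw [h, Set.ncard_empty, Nat.cast_zero]
    positivity
  have hAK : A ≤ LinearMap.ker β.1 := h1 ▸ inf_le_right
  have hAZ : A ≤ Z0 := h1 ▸ inf_le_left
  have h4 := iso_two_mul_le β Z0 h3
  have h5 := Submodule.finrank_mono hAZ
  rw [h1, h2] at h4
  obtain ⟨t, ht⟩ : ∃ t, d = finrank F A + t := Nat.exists_eq_add_of_le (h2 ▸ h5)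
  have h6 := card_family_le A t (fun Z => Z ⊓ LinearMap.ker β.1 ≤ A ∧ IsIso β Z)
    (fun Z Z' hZ _ hle => ⟨(inf_le_inf_right _ hle).trans hZ.1,
      fun x hx y hy => hZ.2 x (hle hx) y (hle hy)⟩)
    (fun k => 2 * q ^ ((finrank F V : ℤ) - k - 1)) (fun k => by positivity)
    (fun k hk Z' a1 a2 a3 => by
      have a4 : Z' ⊓ LinearMap.ker β.1 = A := le_antisymm a3.1 (le_inf a1 hAK)
      refine (iso_step hF β Z' k 1 (by rw [a4]; exact a2) (by omega) _
        (fun v hv => hv.2.2)).trans (le_of_eq ?_)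
      rw [zpow_sub₀ hq0.ne', ← Nat.cast_sub (by omega), zpow_natCast, ← hq]
      simp only [pow_one, zpow_one]
      ring)
  rw [iso_prod q hq0, ← ht, ← hq] at h6
  have h7 : ({Z : Submodule F V | Z ⊓ LinearMap.ker β.1 = A ∧ finrank F Z = d ∧ IsIso β Z}.ncard : ℝ)
      ≤ ({Z : Submodule F V | A ≤ Z ∧ finrank F Z = d ∧
        Z ⊓ LinearMap.ker β.1 ≤ A ∧ IsIso β Z}.ncard : ℕ) := by
    refine Nat.cast_le.2 (Set.ncard_le_ncard (fun Z hZ => ?_) (Set.toFinite _))
    exact ⟨hZ.1 ▸ inf_le_left, hZ.2.1, hZ.1.le, hZ.2.2⟩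
  refine h7.trans ?_
  generalize (({Z : Submodule F V | A ≤ Z ∧ finrank F Z = d ∧
    Z ⊓ LinearMap.ker β.1 ≤ A ∧ IsIso β Z}.ncard : ℕ) : ℝ) = c at h6 h7
  have hc : 0 ≤ c := le_trans (by positivity) h7
  have e1 : d - finrank F A = t := by omega
  have e2 : (d : ℤ) - finrank F A = t := by omega
  rw [e1, e2]
  have h8 : q ^ d * (1 / 2) ≤ q ^ d * (1 - 1 / q) := by
    refine mul_le_mul_of_nonneg_left ?_ (by positivity)
    have : 1 / q ≤ 1 / 2 := one_div_le_one_div_of_le (by norm_num) hq2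
    linarith
  have h9 := (mul_le_mul_of_nonneg_left (pow_le_pow_left₀ (by positivity) h8 t) hc).trans h6
  rw [← le_div_iff₀ (by positivity)] at h9
  refine h9.trans ?_
  generalize t * (t + 1) / 2 = u
  have e3 : 2 ^ t * q ^ (t * (finrank F V : ℤ) - u) / (q ^ d * (1 / 2)) ^ t =
      4 ^ t * q ^ (t * ((finrank F V : ℤ) - d) - u) := by
    rw [show t * ((finrank F V : ℤ) - d) - u = (t * (finrank F V : ℤ) - u) - ((d * t : ℕ) : ℤ) by
      push_cast; ring, zpow_sub₀ hq0.ne' _ ((d * t : ℕ) : ℤ), zpow_natCast, mul_pow, ← pow_mul,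
      show (4 : ℝ) = 2 * 2 by norm_num, mul_pow, one_div, inv_pow]
    field_simp
  rw [e3]
  exact mul_le_mul_of_nonneg_right (pow_le_pow_right₀ (by norm_num) (by omega)) (by positivity)

/-- Sharp bound for the number of maximal isotropic subspaces in dimension ten. -/
theorem card_iso_half_le (hF : ringChar F ≠ 2) (β : SF F V) (hβ : LinearMap.ker β.1 = ⊥)
    (hV : finrank F V = 10) :
    (({Z : Submodule F V | finrank F Z = 5 ∧ IsIso β Z}.ncard : ℕ) : ℝ) *
      (1 - 1 / (Fintype.card F : ℝ)) ^ 5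
      ≤ 2 * (1 + 1 / (Fintype.card F : ℝ)) ^ 4 * (Fintype.card F : ℝ) ^ 10 := by
  set q : ℝ := (Fintype.card F : ℝ) with hq
  have hq2 : 2 ≤ q := by rw [hq]; exact_mod_cast Fintype.one_lt_card
  have hq0 : 0 < q := by linarith
  have h6 := card_family_le (⊥ : Submodule F V) 5 (fun Z => IsIso β Z)
    (fun Z Z' hZ _ hle x hx y hy => hZ x (hle hx) y (hle hy))
    (fun k => q ^ (10 - k) * (1 / q + 1 / q ^ (if k ≤ 3 then 2 else 1))) (fun k => by positivity)
    (fun k hk Z' _ a2 _ => by
      have := iso_step hF β Z' k (if k ≤ 3 then 2 else 1)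
        (by rw [hβ, inf_bot_eq]; exact a2)
        (by rw [hβ, finrank_bot, hV]; split_ifs <;> omega)
        {v : V | v ∉ Z' ∧ IsIso β (Z' ⊔ Submodule.span F {v})} (fun v hv => hv.2)
      rwa [hV] at this)
  simp only [finrank_bot, zero_add, bot_le, true_and, Finset.prod_range_succ,
    Finset.prod_range_zero, ← hq] at h6
  norm_num at h6
  generalize (({Z : Submodule F V | finrank F Z = 5 ∧ IsIso β Z}.ncard : ℕ) : ℝ) = c at h6 ⊢
  refine le_of_mul_le_mul_right ?_ (show 0 < q ^ 25 by positivity)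
  refine le_of_eq_of_le ?_ (h6.trans (le_of_eq ?_))
  · field_simp
  · field_simp
    ring

end Vale.Agent.P050
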