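import Vale.Agent.P050.Face
import Vale.Agent.P050.Equi
import Vale.Agent.P050.Degen

set_option maxSynthPendingDepth 3

namespace Vale.Agent.P050

open Module
open scoped BigOperators

theorem ml_expect_pi_prod {ι Ω : Type} [Fintype ι] [DecidableEq ι] [Fintype Ω]
    (f : ι → Ω → ℝ) : 𝔼 y : ι → Ω, ∏ i, f i (y i) = ∏ i, 𝔼 ω : Ω, f i ω := by
  simp only [Finset.expect_eq_sum_div_card, Finset.card_univ]
  rw [Finset.prod_div_distrib, Finset.prod_univ_sum, Fintype.piFinset_univ]
  simp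

theorem ml_expect_prod {A B : Type} [Fintype A] [Fintype B] (f : A × B → ℝ) :
    𝔼 p : A × B, f p = 𝔼 a : A, 𝔼 b : B, f (a, b) := by
  rw [← Finset.univ_product_univ, Finset.expect_product]

theorem ml_expect_arrow_prod {ι A B : Type} [Fintype ι] [DecidableEq ι] [Fintype A] [Fintype B]
    (f : (ι → A × B) → ℝ) :
    𝔼 x : ι → A × B, f x = 𝔼 a : ι → A, 𝔼 b : ι → B, f (fun i => (a i, b i)) := by
  rw [← ml_expect_prod (fun p : (ι → A) × (ι → B) => f (fun i => (p.1 i, p.2 i)))]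
  exact Fintype.expect_equiv (Equiv.arrowProdEquivProdArrow ι (fun _ => A) (fun _ => B)) _ _
    (fun x => rfl)

theorem ml_abs_expect_le {A : Type} [Fintype A] [Nonempty A] (f : A → ℝ) (c : ℝ)
    (h : ∀ a, |f a| ≤ c) : |𝔼 a : A, f a| ≤ c := by
  rw [abs_le]
  constructor
  · exact Finset.le_expect Finset.univ_nonempty (fun a _ => (abs_le.mp (h a)).1)
  · exact Finset.expect_le Finset.univ_nonempty (fun a _ => (abs_le.mp (h a)).2)

theorem ml_sign_abs (s : SignType) : |(s : ℝ)| ≤ 1 := by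
  cases s <;> simp

theorem ml_sideZ_abs (z : Fin 12 × Fin 3 → SignType) (bp : Fin 12 × Fin 3) : |sideZ z bp| ≤ 1 := by
  unfold sideZ
  rw [abs_mul]
  exact mul_le_one₀ (ml_sign_abs _) (abs_nonneg _) (ml_sign_abs _)

theorem ml_zeta_abs (z : Fin 12 × Fin 3 → SignType) (q : Fin 18) : |zeta z q| ≤ 1 := by
  unfold zeta
  rw [abs_mul]
  exact mul_le_one₀ (ml_sideZ_abs _ _) (abs_nonneg _) (ml_sideZ_abs _ _)

theorem ml_prod_zeta_nonneg (z : Fin 12 × Fin 3 → SignType) : 0 ≤ ∏ q, (1 + zeta z q) :=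
  Finset.prod_nonneg fun q _ => by linarith [(abs_le.mp (ml_zeta_abs z q)).1]

theorem ml_prod_zeta_le (z : Fin 12 × Fin 3 → SignType) : ∏ q, (1 + zeta z q) ≤ 2 ^ 18 := by
  calc ∏ q, (1 + zeta z q) ≤ ∏ _q : Fin 18, (2 : ℝ) :=
        Finset.prod_le_prod (fun q _ => by linarith [(abs_le.mp (ml_zeta_abs z q)).1])
          (fun q _ => by linarith [(abs_le.mp (ml_zeta_abs z q)).2])
    _ = 2 ^ 18 := by simp

theorem ml_sg_sq (b : Bool) : sg b * sg b = 1 := by cases b <;> simp [sg]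

theorem ml_sg_abs (b : Bool) : |sg b| = 1 := by cases b <;> simp [sg]

theorem ml_sigT_mem {F : Type} [Field F] [Fintype F] [DecidableEq F] (x y : Pt F) :
    sigT x y = 0 ∨ sigT x y = 1 ∨ sigT x y = -1 := by
  unfold sigT
  rcases sigma_mem (x.1 - y.1) with h | h | h <;> rw [h] <;> cases x.2 <;> cases y.2 <;> simp [sg]

/-- The density of the incidence graph in one level is at most the plaquette product. -/
theorem main_lemma (η : ℝ) (hη : 0 < η) : ∃ q0 : ℕ, ∀ (F : Type) [Field F] [Fintype F]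
    [DecidableEq F], ringChar F ≠ 2 → IsSquare (-1 : F) → q0 ≤ Fintype.card F →
    ∀ z : Fin 12 × Fin 3 → SignType,
      𝔼 x : Fin 8 → Pt F, 𝔼 y : Fin 12 → Pt F,
        ∏ e : Fin 12 × Fin 3, Wz (z e) (x (fc e.1 e.2)) (y e.1)
        ≤ ∏ q, (1 + zeta z q) + η := by
  obtain ⟨t, ht0, ht⟩ : ∃ t : ℝ, 0 < t ∧
      8 ^ 12 * t + ((1 + t) ^ 12 - 1) * 2 ^ 18 + (1 + t) ^ 12 * (2 ^ 18 * (2 ^ 18 * t)) < η := by
    have hc : ContinuousAt (fun t : ℝ => 8 ^ 12 * t + ((1 + t) ^ 12 - 1) * 2 ^ 18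
        + (1 + t) ^ 12 * (2 ^ 18 * (2 ^ 18 * t))) 0 := by fun_prop
    have h1 := hc.eventually (gt_mem_nhds (show _ < η by simpa using hη))
    obtain ⟨t, h2, h3⟩ := ((h1.filter_mono nhdsWithin_le_nhds).and
      (self_mem_nhdsWithin (s := Set.Ioi (0 : ℝ)))).exists
    exact ⟨t, h3, h2⟩
  obtain ⟨q1, hq1⟩ := face_generic t ht0
  obtain ⟨q2, hq2⟩ := equi t ht0
  obtain ⟨q3, hq3⟩ := degenerate_small t ht0
  refine ⟨max q1 (max q2 q3), ?_⟩
  intro F _ _ _ hF hsq hcard z
  classical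
  have hface := hq1 F hF hsq (le_trans (le_max_left _ _) hcard)
  have hequi := hq2 F hF (le_trans (le_trans (le_max_left _ _) (le_max_right _ _)) hcard)
  have hdeg := hq3 F hF (le_trans (le_trans (le_max_right _ _) (le_max_right _ _)) hcard)
    (fun b i => decide (z (b, i) ≠ 0))
  set A : Fin 18 → ℝ := fun q => 1 + zeta z q with hA
  set B : Fin 18 → ℝ := fun q => sideZ z (qs q 0) + sideZ z (qs q 1) with hB
  set s : (Fin 8 → Pt F) → Fin 18 → ℝ := fun x q => sigT (x (e1 q)) (x (e2 q)) with hs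
  set D : (Fin 8 → SS F) → ℝ := fun X => if ∃ q, k2 (X (e1 q)) (X (e2 q)) ≠ 0 then
        ∏ b, faceK (fun i => decide (z (b, i) ≠ 0)) (fun i => X (fc b i)) else 0 with hD
  have hAB : ∀ x q, 0 ≤ B q * s x q + A q := by
    intro x q
    have a1 := abs_le.mp (ml_sideZ_abs z (qs q 0))
    have a2 := abs_le.mp (ml_sideZ_abs z (qs q 1))
    have a3 := abs_le.mp (ml_zeta_abs z q)
    simp only [hA, hB, hs, zeta] at a3 ⊢
    rcases ml_sigT_mem (x (e1 q)) (x (e2 q)) with h | h | h <;> rw [h]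
    · linarith
    · nlinarith [mul_nonneg (by linarith : 0 ≤ 1 + sideZ z (qs q 0))
        (by linarith : 0 ≤ 1 + sideZ z (qs q 1))]
    · nlinarith [mul_nonneg (by linarith : 0 ≤ 1 - sideZ z (qs q 0))
        (by linarith : 0 ≤ 1 - sideZ z (qs q 1))]
  have hK0 : ∀ (x : Fin 8 → Pt F) (b : Fin 12),
      0 ≤ 𝔼 y : Pt F, ∏ i, Wz (z (b, i)) (x (fc b i)) y := fun x b =>
    Finset.expect_nonneg fun y _ => Finset.prod_nonneg fun i _ => Wz_nonneg _ _ _
  have hpt : ∀ x : Fin 8 → Pt F,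
      𝔼 y : Fin 12 → Pt F, ∏ e : Fin 12 × Fin 3, Wz (z e) (x (fc e.1 e.2)) (y e.1)
        ≤ 8 ^ 12 * D (fun i => (x i).1) + (1 + t) ^ 12 * ∏ q, (B q * s x q + A q) := by
    intro x
    simp only [Fintype.prod_prod_type]
    rw [ml_expect_pi_prod (fun b y => ∏ i, Wz (z (b, i)) (x (fc b i)) y)]
    have hpos : 0 ≤ (1 + t) ^ 12 * ∏ q, (B q * s x q + A q) :=
      mul_nonneg (by positivity) (Finset.prod_nonneg fun q _ => hAB x q)
    by_cases hx : ∃ q, k2 (x (e1 q)).1 (x (e2 q)).1 ≠ 0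
    · have h1 : ∏ b, 𝔼 y : Pt F, ∏ i, Wz (z (b, i)) (x (fc b i)) y
          ≤ ∏ b, 8 * faceK (fun i => decide (z (b, i) ≠ 0)) (fun i => (x (fc b i)).1) := by
        refine Finset.prod_le_prod (fun b _ => hK0 x b) (fun b _ => ?_)
        calc 𝔼 y : Pt F, ∏ i, Wz (z (b, i)) (x (fc b i)) y
            ≤ 𝔼 y : Pt F, 8 * ∏ i, (if decide (z (b, i) ≠ 0) then wt (x (fc b i)).1 y.1 else 1) := by
              refine Finset.expect_le_expect fun y _ => ?_
              calc ∏ i, Wz (z (b, i)) (x (fc b i)) y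
                  ≤ ∏ i, 2 * (if decide (z (b, i) ≠ 0) then wt (x (fc b i)).1 y.1 else 1) :=
                    Finset.prod_le_prod (fun i _ => Wz_nonneg _ _ _) (fun i _ => by
                      simpa using Wz_le (z (b, i)) (x (fc b i)) y)
                _ = _ := by rw [Finset.prod_mul_distrib]; norm_num
          _ = _ := by
              rw [← Finset.mul_expect, ml_expect_prod]
              unfold faceK
              simp
      rw [Finset.prod_mul_distrib] at h1
      simp only [hD, if_pos hx]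
      simp only [Finset.prod_const, Finset.card_univ, Fintype.card_fin] at h1
      linarith
    · have hx' : ∀ q, k2 (x (e1 q)).1 (x (e2 q)).1 = 0 := by
        intro q; by_contra h; exact hx ⟨q, h⟩
      have h1 : ∏ b, 𝔼 y : Pt F, ∏ i, Wz (z (b, i)) (x (fc b i)) y
          ≤ ∏ b, (1 + t) * ∏ p, (1 + sideZ z (b, p) * s x (sd b p)) := by
        refine Finset.prod_le_prod (fun b _ => hK0 x b) (fun b _ => ?_)
        have := hface (fun i => z (b, i)) (fun i => x (fc b i)) (fun p => by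
          simp only [fc_pa, fc_pb]; exact hx' _)
        simpa only [fc_pa, fc_pb, sideZ, hs] using this
      rw [Finset.prod_mul_distrib] at h1
      simp only [Finset.prod_const, Finset.card_univ, Fintype.card_fin] at h1
      have h2 : ∏ b, ∏ p, (1 + sideZ z (b, p) * s x (sd b p)) = ∏ q, (B q * s x q + A q) := by
        rw [← Fintype.prod_prod_type' (fun b p => 1 + sideZ z (b, p) * s x (sd b p)),
          ← qs_bijective.prod_comp, Fintype.prod_prod_type]
        refine Finset.prod_congr rfl fun q _ => ?_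
        rw [Fin.prod_univ_two]
        simp only [sd_qs, hA, hB, zeta]
        have h3 : s x q * s x q = 1 := by
          simp only [hs, sigT]
          have a1 := ml_sg_sq (x (e1 q)).2
          have a2 := ml_sg_sq (x (e2 q)).2
          have a3 := sigma_sq _ _ (hx' q)
          calc _ = (sg (x (e1 q)).2 * sg (x (e1 q)).2) * (sg (x (e2 q)).2 * sg (x (e2 q)).2) *
                (sigma ((x (e1 q)).1 - (x (e2 q)).1) * sigma ((x (e1 q)).1 - (x (e2 q)).1)) := by
                ring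
            _ = 1 := by rw [a1, a2, a3]; ring
        linear_combination (sideZ z (qs q 0) * sideZ z (qs q 1)) * h3
      simp only [hD, if_neg hx]
      rw [← h2]
      linarith
  have hE1 : 𝔼 x : Fin 8 → Pt F, D (fun i => (x i).1) ≤ t := by
    rw [ml_expect_arrow_prod (fun x : Fin 8 → SS F × Bool => D (fun i => (x i).1))]
    simpa using hdeg
  have hE2 : ∀ Γ : Finset (Fin 18), Γ.Nonempty → |𝔼 x : Fin 8 → Pt F, ∏ q ∈ Γ, s x q| ≤ t := by
    intro Γ hΓ
    rw [ml_expect_arrow_prod (fun x : Fin 8 → SS F × Bool => ∏ q ∈ Γ, s x q), Finset.expect_comm]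
    apply ml_abs_expect_le
    intro σ
    simp only [hs, sigT, Finset.prod_mul_distrib]
    rw [← Finset.mul_expect, abs_mul, abs_mul, Finset.abs_prod, Finset.abs_prod]
    simp only [ml_sg_abs, Finset.prod_const_one, one_mul]
    exact hequi Γ hΓ
  have hE3 : 𝔼 x : Fin 8 → Pt F, ∏ q, (B q * s x q + A q) ≤ ∏ q, A q + 2 ^ 18 * (2 ^ 18 * t) := by
    simp only [Finset.prod_add]
    rw [Finset.expect_sum_comm]
    have hterm : ∀ Γ ∈ (Finset.univ : Finset (Fin 18)).powerset,
        𝔼 x : Fin 8 → Pt F, (∏ q ∈ Γ, B q * s x q) * ∏ q ∈ Finset.univ \ Γ, A q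
          ≤ (if Γ = ∅ then ∏ q, A q else 0) + 2 ^ 18 * t := by
      intro Γ _
      by_cases hΓ : Γ = ∅
      · subst hΓ
        simp
        positivity
      · rw [if_neg hΓ, zero_add]
        have h1 := hE2 Γ (Finset.nonempty_iff_ne_empty.mpr hΓ)
        simp only [Finset.prod_mul_distrib]
        rw [← Finset.expect_mul, ← Finset.mul_expect]
        refine (le_abs_self _).trans ?_
        rw [mul_right_comm, abs_mul]
        refine mul_le_mul ?_ h1 (abs_nonneg _) (by positivity)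
        rw [abs_mul, Finset.abs_prod, Finset.abs_prod]
        calc (∏ q ∈ Γ, |B q|) * ∏ q ∈ Finset.univ \ Γ, |A q|
            ≤ (∏ _q ∈ Γ, (2 : ℝ)) * ∏ _q ∈ Finset.univ \ Γ, (2 : ℝ) := by
              refine mul_le_mul (Finset.prod_le_prod (fun _ _ => abs_nonneg _) fun q _ => ?_)
                (Finset.prod_le_prod (fun _ _ => abs_nonneg _) fun q _ => ?_)
                (Finset.prod_nonneg fun _ _ => abs_nonneg _) (by positivity)
              · exact (abs_add_le _ _).trans (by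
                  linarith [ml_sideZ_abs z (qs q 0), ml_sideZ_abs z (qs q 1)])
              · exact (abs_add_le _ _).trans (by
                  rw [abs_one]; linarith [ml_zeta_abs z q])
          _ = 2 ^ 18 := by
              rw [mul_comm, Finset.prod_sdiff (Finset.subset_univ Γ)]; simp
    refine (Finset.sum_le_sum hterm).trans (le_of_eq ?_)
    rw [Finset.sum_add_distrib, Finset.sum_ite_eq']
    simp
    norm_num
  have hP := ml_prod_zeta_le z
  have hP0 := ml_prod_zeta_nonneg z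
  have h1t : (1 : ℝ) ≤ (1 + t) ^ 12 := one_le_pow₀ (by linarith)
  calc _ ≤ 𝔼 x : Fin 8 → Pt F, (8 ^ 12 * D (fun i => (x i).1)
        + (1 + t) ^ 12 * ∏ q, (B q * s x q + A q)) := Finset.expect_le_expect fun x _ => hpt x
    _ = 8 ^ 12 * 𝔼 x : Fin 8 → Pt F, D (fun i => (x i).1)
        + (1 + t) ^ 12 * 𝔼 x : Fin 8 → Pt F, ∏ q, (B q * s x q + A q) := by
        rw [Finset.expect_add_distrib, Finset.mul_expect, Finset.mul_expect]
    _ ≤ 8 ^ 12 * t + (1 + t) ^ 12 * (∏ q, A q + 2 ^ 18 * (2 ^ 18 * t)) := by gcongr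
    _ ≤ ∏ q, A q + η := by
        have : ((1 + t) ^ 12 - 1) * ∏ q, A q ≤ ((1 + t) ^ 12 - 1) * 2 ^ 18 :=
          mul_le_mul_of_nonneg_left hP (by linarith)
        nlinarith

end Vale.Agent.P050
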