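import Vale.Agent.P050.Defs

/-!
The finite computations behind the plaquette model.
-/

namespace Vale.Agent.P050

open scoped BigOperators

/-- Index of a sign. -/
def sidx : SignType → Fin 3
  | .zero => 0
  | .neg => 1
  | .pos => 2

/-- Weights of the five base measures (total mass 32). -/
def baseT : Fin 5 → Fin 3 → Fin 3 → Fin 3 → ℕ :=
  ![![![![0, 0, 0], ![0, 0, 0], ![0, 0, 0]], ![![0, 0, 0], ![0, 4, 4], ![8, 0, 0]],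
      ![![0, 0, 0], ![8, 0, 0], ![0, 4, 4]]],
    ![![![0, 4, 0], ![0, 2, 0], ![0, 0, 2]], ![![4, 2, 0], ![0, 0, 3], ![2, 0, 1]],
      ![![0, 0, 2], ![4, 0, 1], ![2, 2, 1]]],
    ![![![0, 8, 0], ![8, 0, 4], ![0, 4, 8]], ![![0, 0, 0], ![0, 0, 0], ![0, 0, 0]],
      ![![0, 0, 0], ![0, 0, 0], ![0, 0, 0]]],
    ![![![0, 8, 0], ![0, 0, 0], ![0, 0, 0]], ![![8, 0, 4], ![0, 0, 0], ![0, 0, 0]],
      ![![0, 4, 8], ![0, 0, 0], ![0, 0, 0]]],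
    ![![![0, 0, 0], ![8, 0, 0], ![0, 0, 0]], ![![8, 0, 0], ![0, 0, 0], ![4, 0, 0]],
      ![![0, 0, 0], ![4, 0, 0], ![8, 0, 0]]]]

/-- The weight of an atom. -/
def baseW (d : Fin 5) (z : Fin 3 → SignType) : ℕ :=
  baseT d (sidx (z 0)) (sidx (z 1)) (sidx (z 2))

/-- Bits of a label. -/
def bt : Fin 8 → Fin 3 → Bool :=
  ![![false, false, false], ![true, false, false], ![false, true, false], ![true, true, false],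
    ![false, false, true], ![true, false, true], ![false, true, true], ![true, true, true]]

/-- The monomial of a label. -/
def pw {R : Type} [CommRing R] (m : Fin 8) (x : Fin 3 → R) : R :=
  ∏ h, if bt m h then x h else 1

/-- The moment matrices, with the entry at `(0, 0)` removed. -/
def momM : Fin 5 → Fin 8 → Fin 8 → ℤ :=
  ![![![0, 0, 0, 0, 0, 0, 0, 0], ![0, 32, 0, 0, 0, 0, 0, 0], ![0, 0, 32, 0, 0, 0, 0, 0],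
      ![0, 0, 0, 32, 0, 0, 0, 0], ![0, 0, 0, 0, 16, 0, 0, 16], ![0, 0, 0, 0, 0, 16, 16, 0],
      ![0, 0, 0, 0, 0, 16, 16, 0], ![0, 0, 0, 0, 16, 0, 0, 16]],
    ![![0, 0, 0, 0, 0, 0, 0, 0], ![0, 24, 0, 0, 0, 4, 0, -4], ![0, 0, 20, 4, 0, 0, 4, -4],
      ![0, 0, 4, 16, 0, -4, -4, 4], ![0, 0, 0, 0, 20, 0, 0, 4], ![0, 4, 0, -4, 0, 12, 4, 0],
      ![0, 0, 4, -4, 0, 4, 12, 0], ![0, -4, -4, 4, 4, 0, 0, 8]],
    ![![0, 0, 0, 0, 0, 0, 0, 0], ![0, 0, 0, 0, 0, 0, 0, 0], ![0, 0, 24, 0, 0, 0, 8, 0],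
      ![0, 0, 0, 0, 0, 0, 0, 0], ![0, 0, 0, 0, 24, 0, 8, 0], ![0, 0, 0, 0, 0, 0, 0, 0],
      ![0, 0, 8, 0, 8, 0, 16, 0], ![0, 0, 0, 0, 0, 0, 0, 0]],
    ![![0, 0, 0, 0, 0, 0, 0, 0], ![0, 24, 0, 0, 0, 8, 0, 0], ![0, 0, 0, 0, 0, 0, 0, 0],
      ![0, 0, 0, 0, 0, 0, 0, 0], ![0, 0, 0, 0, 24, 8, 0, 0], ![0, 8, 0, 0, 8, 16, 0, 0],
      ![0, 0, 0, 0, 0, 0, 0, 0], ![0, 0, 0, 0, 0, 0, 0, 0]],
    ![![0, 0, 0, 0, 0, 0, 0, 0], ![0, 24, 0, 8, 0, 0, 0, 0], ![0, 0, 24, 8, 0, 0, 0, 0],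
      ![0, 8, 8, 16, 0, 0, 0, 0], ![0, 0, 0, 0, 0, 0, 0, 0], ![0, 0, 0, 0, 0, 0, 0, 0],
      ![0, 0, 0, 0, 0, 0, 0, 0], ![0, 0, 0, 0, 0, 0, 0, 0]]]

theorem base_moment : ∀ (d : Fin 5) (a b : Fin 8),
    ∑ z : Fin 3 → SignType, (baseW d z : ℤ) *
      (pw a (fun h => ((z h : SignType) : ℤ)) * pw b (fun h => ((z h : SignType) : ℤ)))
      = (if a = 0 ∧ b = 0 then 32 else 0) + momM d a b := by
  decide +kernel

theorem base_total : ∀ d : Fin 5, ∑ z : Fin 3 → SignType, baseW d z = 32 := by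
  decide +kernel

theorem momM_zero_left : ∀ (d : Fin 5) (b : Fin 8), momM d 0 b = 0 := by decide +kernel

theorem momM_zero_right : ∀ (d : Fin 5) (a : Fin 8), momM d a 0 = 0 := by decide +kernel

theorem pw_zero_zero : ∀ a b : Fin 8,
    pw a (fun _ => (0 : ℤ)) * pw b (fun _ => (0 : ℤ)) = if a = 0 ∧ b = 0 then 1 else 0 := by
  decide +kernel

/-- Degree of a vertex of the triangulation, minus three. -/
def dg : Fin 8 → Fin 5 := ![0, 1, 2, 4, 3, 1, 1, 0]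

/-- The weight of a face. -/
def fw (b : Fin 12) (x y z : Fin 8) : ℤ :=
  momM (dg (fc b 0)) x y * momM (dg (fc b 1)) x z * momM (dg (fc b 2)) y z

theorem forcing : ∀ a0 a1 a2 : Fin 8, fw 0 a0 a1 a2 ≠ 0 → ∀ a3 a4 : Fin 8, fw 1 a0 a3 a4 ≠ 0 →
    ∀ a5 : Fin 8, fw 2 a1 a3 a5 ≠ 0 → ∀ a6 a7 : Fin 8, fw 3 a2 a6 a7 ≠ 0 →
    ∀ a8 : Fin 8, fw 4 a4 a6 a8 ≠ 0 → ∀ a9 a10 : Fin 8, fw 5 a5 a9 a10 ≠ 0 →
    ∀ a11 : Fin 8, fw 6 a7 a9 a11 ≠ 0 → ∀ a12 a14 : Fin 8, fw 7 a10 a12 a14 ≠ 0 →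
    ∀ a13 : Fin 8, fw 8 a11 a13 a14 ≠ 0 → ∀ a15 a16 : Fin 8, fw 9 a8 a15 a16 ≠ 0 →
    ∀ a17 : Fin 8, fw 0 a0 a1 a2 * fw 1 a0 a3 a4 * fw 2 a1 a3 a5 * fw 3 a2 a6 a7 *
      fw 4 a4 a6 a8 * fw 5 a5 a9 a10 * fw 6 a7 a9 a11 * fw 7 a10 a12 a14 * fw 8 a11 a13 a14 *
      fw 9 a8 a15 a16 * fw 10 a12 a15 a17 * fw 11 a13 a16 a17 ≤ 0 := by
  decide +kernel

/-- The integer weight of a labelling of the edges. -/
def labW (φ : Fin 8 → Fin 5) (P : Fin 18 → Fin 8) : ℤ :=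
  ∏ e : Fin 12 × Fin 3, momM (φ (fc e.1 e.2)) (P (sd e.1 (pa e.2))) (P (sd e.1 (pb e.2)))

theorem labW_dg (P : Fin 18 → Fin 8) : labW dg P =
    fw 0 (P 0) (P 1) (P 2) * fw 1 (P 0) (P 3) (P 4) * fw 2 (P 1) (P 3) (P 5) *
      fw 3 (P 2) (P 6) (P 7) * fw 4 (P 4) (P 6) (P 8) * fw 5 (P 5) (P 9) (P 10) *
      fw 6 (P 7) (P 9) (P 11) * fw 7 (P 10) (P 12) (P 14) * fw 8 (P 11) (P 13) (P 14) *
      fw 9 (P 8) (P 15) (P 16) * fw 10 (P 12) (P 15) (P 17) * fw 11 (P 13) (P 16) (P 17) := by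
  have h : labW dg P = ∏ b : Fin 12, fw b (P (sd b 0)) (P (sd b 1)) (P (sd b 2)) := by
    unfold labW
    rw [Fintype.prod_prod_type]
    refine Finset.prod_congr rfl fun b _ => ?_
    rw [Fin.prod_univ_three]
    rfl
  rw [h]
  simp only [Fin.prod_univ_succ, Fin.prod_univ_zero, mul_one, mul_assoc]
  rfl

theorem labW_dg_nonpos (P : Fin 18 → Fin 8) : labW dg P ≤ 0 := by
  rw [labW_dg]
  by_cases h : fw 0 (P 0) (P 1) (P 2) * fw 1 (P 0) (P 3) (P 4) * fw 2 (P 1) (P 3) (P 5) *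
      fw 3 (P 2) (P 6) (P 7) * fw 4 (P 4) (P 6) (P 8) * fw 5 (P 5) (P 9) (P 10) *
      fw 6 (P 7) (P 9) (P 11) * fw 7 (P 10) (P 12) (P 14) * fw 8 (P 11) (P 13) (P 14) *
      fw 9 (P 8) (P 15) (P 16) = 0
  · rw [h]
    simp
  · simp only [mul_eq_zero, not_or] at h
    obtain ⟨⟨⟨⟨⟨⟨⟨⟨⟨h0, h1⟩, h2⟩, h3⟩, h4⟩, h5⟩, h6⟩, h7⟩, h8⟩, h9⟩ := h
    exact forcing _ _ _ h0 _ _ h1 _ h2 _ _ h3 _ h4 _ _ h5 _ h6 _ _ h7 _ h8 _ _ h9 _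

theorem labW_dg_neg : labW dg ![2, 2, 6, 2, 3, 2, 5, 4, 1, 6, 3, 5, 1, 1, 5, 1, 1, 1] < 0 := by
  rw [labW_dg]
  decide +kernel

theorem sum_labW_dg_neg : ∑ P : Fin 18 → Fin 8, labW dg P < 0 := by
  have := Finset.sum_lt_sum (s := Finset.univ) (f := labW dg) (g := fun _ => 0)
    (fun P _ => labW_dg_nonpos P) ⟨_, Finset.mem_univ _, labW_dg_neg⟩
  simpa using this

theorem edge_conn (Z : Fin 18 → Prop)
    (H : ∀ b i, Z (sd b (pa i)) ↔ Z (sd b (pb i))) : ∀ q, Z q ↔ Z 0 := by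
  have h1 : Z 0 ↔ Z 1 := H 0 0
  have h2 : Z 0 ↔ Z 2 := H 0 1
  have h3 : Z 0 ↔ Z 3 := H 1 0
  have h4 : Z 0 ↔ Z 4 := H 1 1
  have h5 : Z 0 ↔ Z 5 := h1.trans (H 2 1)
  have h6 : Z 0 ↔ Z 6 := h2.trans (H 3 0)
  have h7 : Z 0 ↔ Z 7 := h2.trans (H 3 1)
  have h8 : Z 0 ↔ Z 8 := h4.trans (H 4 1)
  have h9 : Z 0 ↔ Z 9 := h5.trans (H 5 0)
  have h10 : Z 0 ↔ Z 10 := h5.trans (H 5 1)
  have h11 : Z 0 ↔ Z 11 := h7.trans (H 6 1)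
  have h12 : Z 0 ↔ Z 12 := h10.trans (H 7 0)
  have h14 : Z 0 ↔ Z 14 := h10.trans (H 7 1)
  have h13 : Z 0 ↔ Z 13 := h11.trans (H 8 0)
  have h15 : Z 0 ↔ Z 15 := h8.trans (H 9 0)
  have h16 : Z 0 ↔ Z 16 := h8.trans (H 9 1)
  have h17 : Z 0 ↔ Z 17 := h12.trans (H 10 1)
  intro q
  fin_cases q
  exacts [Iff.rfl, h1.symm, h2.symm, h3.symm, h4.symm, h5.symm, h6.symm, h7.symm, h8.symm,
    h9.symm, h10.symm, h11.symm, h12.symm, h13.symm, h14.symm, h15.symm, h16.symm, h17.symm]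

theorem vertex_conn (X : Fin 8 → Prop) (Y : Fin 12 → Prop)
    (H : ∀ b i, X (fc b i) ↔ Y b) : ∀ b i, X (fc b i) ↔ X 0 := by
  have G : ∀ b i j, X (fc b i) ↔ X (fc b j) := fun b i j => (H b i).trans (H b j).symm
  have h1 : X 0 ↔ X 1 := G 0 0 1
  have h2 : X 0 ↔ X 2 := G 0 0 2
  have h3 : X 0 ↔ X 3 := G 1 0 2
  have h4 : X 0 ↔ X 4 := h1.trans (G 3 0 2)
  have h5 : X 0 ↔ X 5 := h2.trans (G 5 0 2)
  have h6 : X 0 ↔ X 6 := h3.trans (G 7 0 2)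
  have h7 : X 0 ↔ X 7 := h3.trans (G 9 0 2)
  have : ∀ v, X v ↔ X 0 := by
    intro v
    fin_cases v
    exacts [Iff.rfl, h1.symm, h2.symm, h3.symm, h4.symm, h5.symm, h6.symm, h7.symm]
  exact fun b i => this _

theorem fc_surj : ∀ v : Fin 8, ∃ e : Fin 12 × Fin 3, fc e.1 e.2 = v := by decide

theorem prod_corner {M : Type} [CommMonoid M] (f : Fin 8 → M) :
    ∏ e : Fin 12 × Fin 3, f (fc e.1 e.2) = ∏ v, f v ^ ((dg v : ℕ) + 3) := by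
  rw [← Finset.prod_fiberwise' Finset.univ (fun e : Fin 12 × Fin 3 => fc e.1 e.2) f]
  refine Finset.prod_congr rfl fun v _ => ?_
  rw [Finset.prod_const]
  congr 1
  revert v
  decide +kernel

end Vale.Agent.P050
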