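import Vale.Agent.P050.Grass

set_option maxSynthPendingDepth 3
set_option linter.unusedSectionVars false

namespace Vale.Agent.P050

open Module
open scoped BigOperators

section General

variable {F V : Type} [Field F] [Fintype F] [AddCommGroup V] [Module F V] [Finite V]

theorem card_SF : Fintype.card (SF F V)
    = Fintype.card F ^ (finrank F V * (finrank F V + 1) / 2) := by
  classical
  have : Module.Finite F V := Module.Finite.of_finite
  let b := Module.finBasis F V
  let φ : SF F V → (Sym2 (Fin (finrank F V)) → F) := fun X =>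
    Sym2.lift ⟨fun i j => X.1 (b i) (b j), fun i j => SF.symm X _ _⟩
  have hφ : Function.Bijective φ := by
    constructor
    · intro X Y h
      apply Subtype.ext
      refine LinearMap.ext_basis b b fun i j => ?_
      have := congrFun h s(i, j)
      simpa [φ] using this
    · intro f
      let B : LinearMap.BilinForm F V := Matrix.toBilin b (Matrix.of fun i j => f s(i, j))
      have hB : ∀ i j, B (b i) (b j) = f s(i, j) := by
        intro i j
        simp [B, Matrix.toBilin_apply, Finsupp.single_apply]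
      have hs : B = LinearMap.flip B := by
        refine LinearMap.ext_basis b b fun i j => ?_
        rw [LinearMap.flip_apply, hB, hB, Sym2.eq_swap]
      refine ⟨⟨B, fun x y => ?_⟩, ?_⟩
      · conv_lhs => rw [hs]
        rfl
      · funext p
        induction p using Sym2.ind with
        | h i j => simpa [φ] using hB i j
  rw [Fintype.card_of_bijective hφ, Fintype.card_fun, Sym2.card, Fintype.card_fin,
    Nat.choose_two_right, Nat.add_sub_cancel, mul_comm]

/-- Forms that agree with `N0` on `W`. -/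
theorem card_agree_le (W : Submodule F V) (N0 : SF F V) :
    {N : SF F V | ∀ w ∈ W, N.1 w = N0.1 w}.ncard
      ≤ Fintype.card F ^ ((finrank F V - finrank F W) * (finrank F V - finrank F W + 1) / 2) := by
  classical
  have : Module.Finite F V := Module.Finite.of_finite
  obtain ⟨W', hW'⟩ := Submodule.exists_isCompl W
  have hd : finrank F W' = finrank F V - finrank F W := by
    have := Submodule.finrank_add_eq_of_isCompl hW'
    omega
  rw [← hd, ← card_SF (F := F) (V := W'), ← Nat.card_eq_fintype_card, ← Set.ncard_univ]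
  let ρ : SF F V → SF F W' := fun N =>
    ⟨N.1.compl₁₂ W'.subtype W'.subtype, fun x y => SF.symm N _ _⟩
  refine Set.ncard_le_ncard_of_injOn ρ (fun _ _ => Set.mem_univ _) ?_ Set.finite_univ
  intro N hN N' hN' h
  apply Subtype.ext
  refine LinearMap.ext₂ fun x y => ?_
  have hx : x ∈ W ⊔ W' := by rw [hW'.sup_eq_top]; trivial
  have hy : y ∈ W ⊔ W' := by rw [hW'.sup_eq_top]; trivial
  obtain ⟨a, ha, a', ha', rfl⟩ := Submodule.mem_sup.1 hx
  obtain ⟨c, hc, c', hc', rfl⟩ := Submodule.mem_sup.1 hy
  have h1 : N.1 a = N'.1 a := (hN a ha).trans (hN' a ha).symm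
  have h2 : N.1 c = N'.1 c := (hN c hc).trans (hN' c hc).symm
  have h3 : N.1 a' c' = N'.1 a' c' := by
    have := congrArg (fun X : SF F W' => X.1 ⟨a', ha'⟩ ⟨c', hc'⟩) h
    simpa [ρ] using this
  have h4 : N.1 a' c = N'.1 a' c := by
    rw [SF.symm N, SF.symm N', h2]
  simp only [map_add, LinearMap.add_apply, h1, h3, h4]

theorem card_degenerate_le :
    (({X : SF F V | LinearMap.ker X.1 ≠ ⊥}.ncard : ℕ) : ℝ) * (Fintype.card F : ℝ)
      ≤ 2 * (Fintype.card (SF F V) : ℝ) := by
  classical
  have : Module.Finite F V := Module.Finite.of_finite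
  have : Fintype V := Fintype.ofFinite V
  set q := Fintype.card F with hq
  set n := finrank F V with hn
  have hq2 : 2 ≤ q := Fintype.one_lt_card
  let s : Finset (SF F V) := Finset.univ.filter fun X => LinearMap.ker X.1 ≠ ⊥
  let t : Finset V := Finset.univ.filter fun v => v ≠ 0
  have hs : {X : SF F V | LinearMap.ker X.1 ≠ ⊥}.ncard = s.card := by
    rw [← Set.ncard_coe_finset]
    congr 1
    ext X
    simp [s]
  have key : s.card * (q - 1) ≤ t.card * q ^ ((n - 1) * (n - 1 + 1) / 2) := by
    refine Finset.card_mul_le_card_mul (fun (X : SF F V) (v : V) => X.1 v = 0) ?_ ?_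
    · intro X hX
      have hX' : LinearMap.ker X.1 ≠ ⊥ := by simpa [s] using hX
      obtain ⟨v, hv, hv0⟩ := Submodule.exists_mem_ne_zero_of_ne_bot hX'
      have hc : (Finset.univ.filter fun c : F => c ≠ 0).card = q - 1 := by
        rw [Finset.filter_ne', Finset.card_erase_of_mem (Finset.mem_univ _), Finset.card_univ]
      rw [← hc]
      refine Finset.card_le_card_of_injOn (fun c => c • v) ?_ ?_
      · intro c hc
        have hc0 : c ≠ 0 := by simpa using hc
        have hv' : X.1 v = 0 := hv
        simp [t, hc0, hv0, hv']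
      · intro c _ c' _ h
        exact smul_left_injective F hv0 h
    · intro v hv
      have hv0 : v ≠ 0 := by simpa [t] using hv
      have h1 := card_agree_le (F := F) (Submodule.span F {v}) (0 : SF F V)
      rw [finrank_span_singleton hv0] at h1
      refine le_trans ?_ h1
      rw [← Set.ncard_coe_finset]
      refine Set.ncard_le_ncard ?_ (Set.toFinite _)
      intro X hX w hw
      have hXv : X.1 v = 0 := by
        have := (Finset.mem_bipartiteBelow _).1 (Finset.mem_coe.1 hX)
        exact this.2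
      obtain ⟨c, rfl⟩ := Submodule.mem_span_singleton.1 hw
      simp [hXv]
  have ht : t.card * q ^ ((n - 1) * (n - 1 + 1) / 2) ≤ Fintype.card (SF F V) := by
    rw [card_SF, ← hq, ← hn]
    rcases Nat.eq_zero_or_pos n with h0 | h0
    · have : t = ∅ := by
        have : Subsingleton V := Module.finrank_zero_iff.1 (hn ▸ h0)
        ext v
        simp [t, Subsingleton.elim v 0]
      simp [this]
    · have h1 : t.card ≤ q ^ n := by
        rw [hq, hn, ← Module.card_eq_pow_finrank]
        exact Finset.card_le_univ _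
      refine le_trans (Nat.mul_le_mul_right _ h1) ?_
      rw [← pow_add]
      apply le_of_eq
      congr 1
      obtain ⟨m, hm⟩ : ∃ m, n = m + 1 := ⟨n - 1, by omega⟩
      rw [hm, Nat.add_sub_cancel]
      have : (m + 1) * (m + 1 + 1) = m * (m + 1) + 2 * (m + 1) := by ring
      rw [this, Nat.add_mul_div_left _ _ (by norm_num : 0 < 2)]
      ring
  have h2 : s.card * q ≤ 2 * Fintype.card (SF F V) := by
    have h3 : q ≤ 2 * (q - 1) := by omega
    calc s.card * q ≤ s.card * (2 * (q - 1)) := Nat.mul_le_mul_left _ h3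
      _ = 2 * (s.card * (q - 1)) := by ring
      _ ≤ _ := Nat.mul_le_mul_left _ (key.trans ht)
  rw [hs]
  exact_mod_cast h2

end General

variable {F : Type} [Field F] [Fintype F] [DecidableEq F]

theorem card_SS : Fintype.card (SS F) = Fintype.card F ^ 55 := by
  rw [card_SF]
  simp

theorem nR_lower : (1 - 2 / (Fintype.card F : ℝ)) * (Fintype.card F : ℝ) ^ 40 ≤ (nR F : ℝ) := by
  classical
  set q := Fintype.card F with hq
  have hq0 : (0 : ℝ) < q := by exact_mod_cast (Fintype.card_pos : 0 < Fintype.card F)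
  obtain ⟨e⟩ : Nonempty (VV F ≃ₗ[F] (Fin 5 → F) × (Fin 5 → F)) :=
    ⟨LinearEquiv.ofFinrankEq _ _ (by simp)⟩
  let π : Matrix (Fin 5) (Fin 5) F → (VV F →ₗ[F] (Fin 5 → F)) := fun B =>
    (LinearMap.fst F _ _ + (Matrix.toLin' B).comp (LinearMap.snd F _ _)).comp e.toLinearMap
  have hπ : ∀ B x y, π B (e.symm (x, y)) = x + Matrix.toLin' B y := by
    intro B x y
    simp [π]
  have hsurj : ∀ B, Function.Surjective (π B) := fun B x => ⟨e.symm (x, 0), by simp [hπ]⟩
  let Φ : SF F (Fin 5 → F) × Matrix (Fin 5) (Fin 5) F → SS F := fun p =>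
    ⟨p.1.1.compl₁₂ (π p.2) (π p.2), fun x y => SF.symm p.1 _ _⟩
  have hΦ : ∀ p x y, (Φ p).1 x y = p.1.1 (π p.2 x) (π p.2 y) := fun p x y => rfl
  let S : Set (SF F (Fin 5 → F)) := {A | LinearMap.ker A.1 = ⊥}
  have hle : (S ×ˢ (Set.univ : Set (Matrix (Fin 5) (Fin 5) F))).ncard ≤ nR F := by
    unfold nR
    refine Set.ncard_le_ncard_of_injOn Φ ?_ ?_ (Set.toFinite _)
    · rintro ⟨A, B⟩ ⟨hA, -⟩
      have hA' : LinearMap.ker A.1 = ⊥ := hA
      have hk : LinearMap.ker (Φ (A, B)).1 = LinearMap.ker (π B) := by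
        ext v
        simp only [LinearMap.mem_ker]
        constructor
        · intro h
          have : π B v ∈ LinearMap.ker A.1 := by
            rw [LinearMap.mem_ker]
            refine LinearMap.ext fun y => ?_
            obtain ⟨w, rfl⟩ := hsurj B y
            have := LinearMap.congr_fun h w
            rw [hΦ] at this
            exact this
          rw [hA'] at this
          exact this
        · intro h
          refine LinearMap.ext fun y => ?_
          rw [hΦ]
          simp [h]
      show finrank F (LinearMap.ker (Φ (A, B)).1) = 5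
      rw [hk]
      have h1 := LinearMap.finrank_range_add_finrank_ker (π B)
      rw [LinearMap.range_eq_top.2 (hsurj B)] at h1
      simp at h1
      omega
    · rintro ⟨A, B⟩ ⟨hA, -⟩ ⟨A', B'⟩ ⟨hA', -⟩ h
      have hAA : A = A' := by
        apply Subtype.ext
        refine LinearMap.ext₂ fun x y => ?_
        have := congrArg (fun X : SS F => X.1 (e.symm (x, 0)) (e.symm (y, 0))) h
        simpa [hΦ, hπ] using this
      subst hAA
      have hBB : B = B' := by
        apply Matrix.toLin'.injective
        refine LinearMap.ext fun y => ?_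
        have hk : LinearMap.ker A.1 = ⊥ := hA
        have : Matrix.toLin' B y - Matrix.toLin' B' y ∈ LinearMap.ker A.1 := by
          rw [LinearMap.mem_ker]
          refine LinearMap.ext fun x => ?_
          have := congrArg (fun X : SS F => X.1 (e.symm (0, y)) (e.symm (x, 0))) h
          simp only [hΦ, hπ, zero_add, map_zero, add_zero] at this
          simp only [map_sub, LinearMap.sub_apply, this, sub_self, LinearMap.zero_apply]
        rw [hk] at this
        exact sub_eq_zero.1 this
      rw [hBB]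
  rw [Set.ncard_prod, Set.ncard_univ, Nat.card_eq_fintype_card] at hle
  have hM : Fintype.card (Matrix (Fin 5) (Fin 5) F) = q ^ 25 := by
    rw [Fintype.card_congr (Matrix.of (m := Fin 5) (n := Fin 5) (α := F)).symm, Fintype.card_fun,
      Fintype.card_fun, Fintype.card_fin, ← pow_mul]
  have hS1 : Fintype.card (SF F (Fin 5 → F)) = q ^ 15 := by
    rw [card_SF]
    simp [hq]
  have hdeg := card_degenerate_le (F := F) (V := Fin 5 → F)
  have hsum : S.ncard + {X : SF F (Fin 5 → F) | LinearMap.ker X.1 ≠ ⊥}.ncard = q ^ 15 := by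
    rw [← hS1, ← Nat.card_eq_fintype_card]
    exact Set.ncard_add_ncard_compl S
  rw [hS1, ← hq] at hdeg
  rw [hM] at hle
  have hle' : (S.ncard : ℝ) * (q : ℝ) ^ 25 ≤ (nR F : ℝ) := by exact_mod_cast hle
  have hsum' : (S.ncard : ℝ) + ({X : SF F (Fin 5 → F) | LinearMap.ker X.1 ≠ ⊥}.ncard : ℝ)
      = (q : ℝ) ^ 15 := by exact_mod_cast hsum
  push_cast at hdeg
  have h1 : (1 - 2 / (q : ℝ)) * (q : ℝ) ^ 15 ≤ S.ncard := by
    have h2 : ({X : SF F (Fin 5 → F) | LinearMap.ker X.1 ≠ ⊥}.ncard : ℝ)
        ≤ 2 / (q : ℝ) * (q : ℝ) ^ 15 := by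
      rw [div_mul_eq_mul_div, le_div_iff₀ hq0]
      exact hdeg
    nlinarith
  calc (1 - 2 / (q : ℝ)) * (q : ℝ) ^ 40 = ((1 - 2 / (q : ℝ)) * (q : ℝ) ^ 15) * (q : ℝ) ^ 25 := by
        ring
    _ ≤ (S.ncard : ℝ) * (q : ℝ) ^ 25 := mul_le_mul_of_nonneg_right h1 (by positivity)
    _ ≤ _ := hle'

theorem wt_nonneg (X Y : SS F) : 0 ≤ wt X Y := by
  unfold wt
  split_ifs
  · positivity
  · exact le_rfl

theorem wt_comm (X Y : SS F) : wt X Y = wt Y X := by
  unfold wt
  rw [k2_comm]

theorem nR_ge (hq : 3 ≤ Fintype.card F) :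
    (Fintype.card F : ℝ) ^ 40 / 3 ≤ (nR F : ℝ) := by
  refine le_trans ?_ nR_lower
  have hq' : (3 : ℝ) ≤ Fintype.card F := by exact_mod_cast hq
  have h1 : 2 / (Fintype.card F : ℝ) ≤ 2 / 3 :=
    div_le_div_of_nonneg_left (by norm_num) (by norm_num) hq'
  have h2 : (0 : ℝ) ≤ (Fintype.card F : ℝ) ^ 40 := by positivity
  nlinarith

theorem nR_pos (hq : 3 ≤ Fintype.card F) : (0 : ℝ) < (nR F : ℝ) := by
  refine lt_of_lt_of_le ?_ (nR_ge hq)
  have hq' : (3 : ℝ) ≤ Fintype.card F := by exact_mod_cast hq
  positivity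

theorem wt_le (hq : 3 ≤ Fintype.card F) (X Y : SS F) :
    wt X Y ≤ 3 * (Fintype.card F : ℝ) ^ 15 := by
  unfold wt
  split_ifs
  · rw [div_le_iff₀ (nR_pos hq), card_SS]
    push_cast
    have h1 := nR_ge hq
    have h2 : (0 : ℝ) ≤ 3 * (Fintype.card F : ℝ) ^ 15 := by positivity
    calc (Fintype.card F : ℝ) ^ 55
        = 3 * (Fintype.card F : ℝ) ^ 15 * ((Fintype.card F : ℝ) ^ 40 / 3) := by ring
      _ ≤ _ := mul_le_mul_of_nonneg_left h1 h2
  · positivity

theorem card_filter_k2 (X : SS F) :
    (Finset.univ.filter fun M : SS F => k2 X M = 5).card = nR F := by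
  unfold nR
  rw [← Set.ncard_coe_finset]
  refine Set.ncard_congr (fun M _ => X - M) ?_ ?_ ?_
  · intro M hM
    have : k2 X M = 5 := by simpa using hM
    exact this
  · intro M M' _ _ h
    exact sub_right_injective h
  · intro R hR
    refine ⟨X - R, ?_, sub_sub_cancel _ _⟩
    have hR' : finrank F (LinearMap.ker R.1) = 5 := hR
    have : X.1 - (X - R).1 = R.1 := by
      rw [Submodule.coe_sub, sub_sub_cancel]
    have h5 : k2 X (X - R) = 5 := by
      unfold k2 kr
      rw [this]
      exact hR'
    simpa using h5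

theorem expect_wt (hq : 3 ≤ Fintype.card F) (X : SS F) : 𝔼 M : SS F, wt X M = 1 := by
  rw [Finset.expect_eq_sum_div_card]
  unfold wt
  rw [← Finset.sum_filter, Finset.sum_const, card_filter_k2, Finset.card_univ, nsmul_eq_mul]
  have h1 := nR_pos hq
  have h2 : (0 : ℝ) < Fintype.card (SS F) := by exact_mod_cast Fintype.card_pos
  field_simp

theorem abs_sign_le (z : SignType) (x y : Pt F) :
    |(z : ℝ) * sg x.2 * sg y.2 * theta (x.1 - y.1)| ≤ 1 := by
  have h1 : |(z : ℝ)| ≤ 1 := by cases z <;> simp
  have h2 : ∀ b, |sg b| = 1 := by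
    intro b
    cases b <;> simp [sg]
  have h3 : |theta (x.1 - y.1)| = 1 := by
    unfold theta
    split_ifs <;> simp
  rw [abs_mul, abs_mul, abs_mul, h2, h2, h3]
  simpa using h1

theorem Wz_nonneg (z : SignType) (x y : Pt F) : 0 ≤ Wz z x y := by
  unfold Wz
  split_ifs
  · exact zero_le_one
  · have := abs_le.1 (abs_sign_le z x y)
    exact mul_nonneg (wt_nonneg _ _) (by linarith [this.1])

theorem Wz_le (z : SignType) (x y : Pt F) :
    Wz z x y ≤ 2 * (if z ≠ 0 then wt x.1 y.1 else 1) := by
  unfold Wz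
  by_cases hz : z = 0
  · simp [hz]
  · rw [if_neg hz, if_pos hz, mul_comm]
    have := abs_le.1 (abs_sign_le z x y)
    exact mul_le_mul_of_nonneg_right (by linarith [this.2]) (wt_nonneg _ _)

theorem expect_Wz (hq : 3 ≤ Fintype.card F) (z : SignType) (x : Pt F) :
    𝔼 y : Pt F, Wz z x y = 1 := by
  by_cases hz : z = 0
  · simp [Wz, hz]
  · rw [← Finset.univ_product_univ, Finset.expect_product, ← expect_wt hq x.1]
    refine Finset.expect_congr rfl fun M _ => ?_
    rw [Finset.expect_eq_sum_div_card]
    simp only [Wz, if_neg hz, Fintype.univ_bool, Finset.mem_singleton, Bool.true_eq_false,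
      not_false_eq_true, Finset.sum_insert, Finset.sum_singleton, Finset.card_insert_of_notMem,
      Finset.card_singleton, sg]
    simp
    ring

end Vale.Agent.P050
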