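import Vale.Agent.P050.TripleProf
import Vale.Agent.P050.SymForms

set_option maxSynthPendingDepth 3

namespace Vale.Agent.P050

open Module
open scoped BigOperators

theorem ncard_step {α β γ : Type} [Finite α] [Finite β] (g : α → γ) (f : α → β) (D : Set α)
    (hD : ∀ x0 x, g x = g x0 → x0 ∈ D → x ∈ D) (a b : ℝ) (ha : 0 ≤ a)
    (h1 : ∀ x0 ∈ D, ∃ t : Set β, (∀ x, g x = g x0 → f x ∈ t) ∧ (t.ncard : ℝ) ≤ b)
    (h2 : ∀ x0 ∈ D, (({x | (g x, f x) = (g x0, f x0)}.ncard : ℕ) : ℝ) ≤ a) :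
    ∀ x0 ∈ D, (({x | g x = g x0}.ncard : ℕ) : ℝ) ≤ b * a := by
  classical
  intro x0 hx0
  obtain ⟨t, ht, hb⟩ := h1 x0 hx0
  have hfin : t.Finite := Set.toFinite t
  have hsub : {x | g x = g x0} = ⋃ y ∈ hfin.toFinset, {x | g x = g x0 ∧ f x = y} := by
    ext x
    simp only [Set.mem_ofPred_eq, Set.mem_iUnion, Set.Finite.mem_toFinset]
    constructor
    · intro h; exact ⟨f x, ht x h, h, rfl⟩
    · rintro ⟨y, _, h, _⟩; exact h
  have hle := Finset.set_ncard_biUnion_le hfin.toFinset (fun y => {x | g x = g x0 ∧ f x = y})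
  rw [← hsub] at hle
  have hle' : (({x | g x = g x0}.ncard : ℕ) : ℝ)
      ≤ ∑ y ∈ hfin.toFinset, (({x | g x = g x0 ∧ f x = y}.ncard : ℕ) : ℝ) := by
    exact_mod_cast hle
  refine hle'.trans ?_
  have hy : ∀ y ∈ hfin.toFinset, (({x | g x = g x0 ∧ f x = y}.ncard : ℕ) : ℝ) ≤ a := by
    intro y _
    by_cases hne : ∃ x1, g x1 = g x0 ∧ f x1 = y
    · obtain ⟨x1, hx1, rfl⟩ := hne
      have := h2 x1 (hD x0 x1 hx1 hx0)
      convert this using 3
      ext x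
      simp [hx1]
    · have : {x | g x = g x0 ∧ f x = y} = ∅ := by
        ext x
        simp only [Set.mem_ofPred_eq, Set.mem_empty_iff_false, iff_false]
        exact fun h => hne ⟨x, h⟩
      rw [this]; simpa using ha
  refine (Finset.sum_le_card_nsmul _ _ _ hy).trans ?_
  rw [nsmul_eq_mul, ← Set.ncard_eq_toFinset_card t hfin]
  exact mul_le_mul_of_nonneg_right hb ha

section General

variable {F V : Type} [Field F] [Fintype F] [AddCommGroup V] [Module F V] [Finite V]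

omit [Fintype F] in
theorem valid_triple (X Y Z : SF F V) :
    Valid (finrank F V) (k3 X Y Z) (k2 X Y) (k2 X Z) (k2 Y Z) := valid_triple' X Y Z

theorem card_iso_amb (hF : ringChar F ≠ 2) (X Y Z : SF F V) (A : Submodule F (V × V))
    (hA : A ≤ KK X Y Z) (d : ℕ) :
    (({W : Submodule F (V × V) | W ≤ KK X Y Z ∧ W ⊓ radS X Y Z = A ∧ finrank F W = d ∧
        IsIso (bigB X Y Z) W}.ncard : ℕ) : ℝ)
      ≤ 4 ^ d * (Fintype.card F : ℝ) ^ (((d : ℤ) - finrank F A) *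
          ((finrank F V : ℤ) + k3 X Y Z - d)
          - (((d - finrank F A) * (d - finrank F A + 1) / 2 : ℕ) : ℤ)) := by
  have h := card_iso_le hF (bet X Y Z) (A.comap (KK X Y Z).subtype) d
  rw [finrank_comap_subtype hA, finrank_KK] at h
  push_cast at h ⊢
  refine le_trans ?_ h
  norm_cast
  apply Set.ncard_le_ncard_of_injOn (fun W => W.comap (KK X Y Z).subtype)
  · rintro W ⟨h1, h2, h3, h4⟩
    refine ⟨?_, ?_, fun a ha b hb => h4 _ ha _ hb⟩
    · rw [ker_bet, ← Submodule.comap_inf, h2]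
    · rw [finrank_comap_subtype h1, h3]
  · rintro W ⟨h1, _⟩ W' ⟨h1', _⟩ h
    have := congrArg (Submodule.map (KK X Y Z).subtype) h
    simpa only [Submodule.map_comap_subtype, inf_eq_right.2 h1, inf_eq_right.2 h1'] using this

theorem between_bound (A B : Submodule F V) (d : ℕ) (e : ℤ)
    (he : ((d : ℤ) - finrank F A) * ((finrank F B : ℤ) - d) = e) :
    (({U : Submodule F V | A ≤ U ∧ U ≤ B ∧ finrank F U = d}.ncard : ℕ) : ℝ)
      ≤ 2 ^ d * (Fintype.card F : ℝ) ^ e := he ▸ card_between_le_zpow A B d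

set_option maxHeartbeats 1600000 in
/-- The master counting lemma. -/
theorem master_count (hF : ringChar F ≠ 2) (X Y Z : SF F V) :
    ∃ prof : SF F V → Prof,
      (∀ N, Feas (finrank F V) (k3 X Y Z) (k2 X Y) (k2 X Z) (k2 Y Z) (prof N) ∧
        (prof N).u12 = k3 X Y N ∧ (prof N).u13 = k3 X Z N ∧ (prof N).u23 = k3 Y Z N ∧
        (prof N).r1 = k2 X N ∧ (prof N).r2 = k2 Y N ∧ (prof N).r3 = k2 Z N) ∧
      ∀ p : Prof, (({N | prof N = p}.ncard : ℕ) : ℝ) ≤ 2 ^ (13 * finrank F V) *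
        (Fintype.card F : ℝ) ^ expo (finrank F V) (k3 X Y Z) (k2 X Y) (k2 X Z) (k2 Y Z) p := by
  refine ⟨prof X Y Z, fun N => ⟨prof_feas X Y Z N, rfl, rfl, rfl, rfl, rfl, rfl⟩, fun p => ?_⟩
  set q : ℝ := (Fintype.card F : ℝ) with hq
  have hq0 : 0 < q := by rw [hq]; exact_mod_cast Fintype.card_pos
  set D := finrank F V with hD
  set c := k3 X Y Z with hc
  set k12 := k2 X Y with hk12
  set k13 := k2 X Z with hk13
  set k23 := k2 Y Z with hk23
  by_cases hne : ∃ N0, prof X Y Z N0 = p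
  swap
  · have : {N | prof X Y Z N = p} = ∅ := by
      ext N
      simp only [Set.mem_ofPred_eq, Set.mem_empty_iff_false, iff_false]
      exact fun h => hne ⟨N, h⟩
    rw [this]
    simp only [Set.ncard_empty, Nat.cast_zero]
    positivity
  let g0 : SF F V → Prof := prof X Y Z
  let f0 : SF F V → Submodule F V := fun N => kr X Y ⊓ kr X Z ⊓ kr X N
  let f1 : SF F V → Submodule F V := fun N => kr X Y ⊓ kr X N
  let f2 : SF F V → Submodule F V := fun N => kr X Z ⊓ kr X N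
  let f3 : SF F V → Submodule F V := fun N => kr Y Z ⊓ kr Y N
  let f4 : SF F V → Submodule F (V × V) := fun N => ZN X Y Z N ⊓ radS X Y Z
  let f5 : SF F V → Submodule F (V × V) := fun N => ZN X Y Z N
  let f6 : SF F V → Submodule F V := fun N => kr X N
  let f7 : SF F V → Submodule F V := fun N => kr Y N
  let f8 : SF F V → Submodule F V := fun N => kr Z N
  let g1 := fun N => (g0 N, f0 N)
  let g2 := fun N => (g1 N, f1 N)
  let g3 := fun N => (g2 N, f2 N)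
  let g4 := fun N => (g3 N, f3 N)
  let g5 := fun N => (g4 N, f4 N)
  let g6 := fun N => (g5 N, f5 N)
  let g7 := fun N => (g6 N, f6 N)
  let g8 := fun N => (g7 N, f7 N)
  let S : Set (SF F V) := {N | prof X Y Z N = p}
  have p1 : ∀ x0 x, g1 x = g1 x0 → g0 x = g0 x0 := fun _ _ h => congrArg Prod.fst h
  have p2 : ∀ x0 x, g2 x = g2 x0 → g1 x = g1 x0 := fun _ _ h => congrArg Prod.fst h
  have p3 : ∀ x0 x, g3 x = g3 x0 → g2 x = g2 x0 := fun _ _ h => congrArg Prod.fst h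
  have p4 : ∀ x0 x, g4 x = g4 x0 → g3 x = g3 x0 := fun _ _ h => congrArg Prod.fst h
  have p5 : ∀ x0 x, g5 x = g5 x0 → g4 x = g4 x0 := fun _ _ h => congrArg Prod.fst h
  have p6 : ∀ x0 x, g6 x = g6 x0 → g5 x = g5 x0 := fun _ _ h => congrArg Prod.fst h
  have p7 : ∀ x0 x, g7 x = g7 x0 → g6 x = g6 x0 := fun _ _ h => congrArg Prod.fst h
  have p8 : ∀ x0 x, g8 x = g8 x0 → g7 x = g7 x0 := fun _ _ h => congrArg Prod.fst h
  have d0 : ∀ x0 x, g0 x = g0 x0 → x0 ∈ S → x ∈ S := fun _ _ h h0 => h.trans h0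
  have d1 : ∀ x0 x, g1 x = g1 x0 → x0 ∈ S → x ∈ S := fun _ _ h => d0 _ _ (p1 _ _ h)
  have d2 : ∀ x0 x, g2 x = g2 x0 → x0 ∈ S → x ∈ S := fun _ _ h => d1 _ _ (p2 _ _ h)
  have d3 : ∀ x0 x, g3 x = g3 x0 → x0 ∈ S → x ∈ S := fun _ _ h => d2 _ _ (p3 _ _ h)
  have d4 : ∀ x0 x, g4 x = g4 x0 → x0 ∈ S → x ∈ S := fun _ _ h => d3 _ _ (p4 _ _ h)
  have d5 : ∀ x0 x, g5 x = g5 x0 → x0 ∈ S → x ∈ S := fun _ _ h => d4 _ _ (p5 _ _ h)
  have d6 : ∀ x0 x, g6 x = g6 x0 → x0 ∈ S → x ∈ S := fun _ _ h => d5 _ _ (p6 _ _ h)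
  have d7 : ∀ x0 x, g7 x = g7 x0 → x0 ∈ S → x ∈ S := fun _ _ h => d6 _ _ (p7 _ _ h)
  have d8 : ∀ x0 x, g8 x = g8 x0 → x0 ∈ S → x ∈ S := fun _ _ h => d7 _ _ (p8 _ _ h)
  -- the exponents
  let e0 : ℤ := (p.a0 : ℤ) * (c - p.a0)
  let e1 : ℤ := ((p.u12 : ℤ) - p.a0) * (k12 - p.u12)
  let e2 : ℤ := ((p.u13 : ℤ) - p.a0) * (k13 - p.u13)
  let e3 : ℤ := ((p.u23 : ℤ) - p.a0) * (k23 - p.u23)
  let e4 : ℤ := ((p.zr : ℤ) + p.a0 - p.u12 - p.u13 - p.u23) * (k12 + k13 + k23 - c - p.zr)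
  let e5 : ℤ := ((p.z : ℤ) - p.zr) * (D + c - p.z)
    - (((p.z - p.zr) * (p.z - p.zr + 1) / 2 : ℕ) : ℤ)
  let e6 : ℤ := ((p.r1 : ℤ) + p.u23 - p.z) * (D + p.u12 + p.u13 - p.z - p.r1)
  let e7 : ℤ := ((p.r2 : ℤ) + p.u13 - p.z) * (D + p.u12 - p.r1 - p.r2)
  let e8 : ℤ := ((p.r3 : ℤ) + p.u12 - p.z) * (D + p.z - p.r1 - p.r2 - p.r3)
  let e9 : ℕ := (D + p.z - (p.r1 + p.r2 + p.r3)) * (D + p.z - (p.r1 + p.r2 + p.r3) + 1) / 2
  have s9 : ∀ x0 ∈ S, (({x | (g8 x, f8 x) = (g8 x0, f8 x0)}.ncard : ℕ) : ℝ) ≤ q ^ (e9 : ℤ) := by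
    intro N0 h0
    have h0' : prof X Y Z N0 = p := h0
    have hW := finrank_W X Y Z N0
    have h := card_agree_le (kr X N0 ⊔ kr Y N0 ⊔ kr Z N0) N0
    have hdim : finrank F V - finrank F ↥(kr X N0 ⊔ kr Y N0 ⊔ kr Z N0)
        = D + p.z - (p.r1 + p.r2 + p.r3) := by
      rw [← h0']
      have : (prof X Y Z N0).r1 = k2 X N0 := rfl
      have : (prof X Y Z N0).r2 = k2 Y N0 := rfl
      have : (prof X Y Z N0).r3 = k2 Z N0 := rfl
      omega
    rw [hdim] at h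
    rw [zpow_natCast, hq]
    norm_cast
    refine le_trans (Set.ncard_le_ncard ?_ (Set.toFinite _)) h
    intro N hN
    have h8 : f8 N = f8 N0 := congrArg Prod.snd hN
    have h8' : g8 N = g8 N0 := congrArg Prod.fst hN
    have h7 : f7 N = f7 N0 := congrArg Prod.snd h8'
    have h6 : f6 N = f6 N0 := congrArg Prod.snd (p8 _ _ h8')
    intro w hw
    obtain ⟨w', hw', z, hz, rfl⟩ := Submodule.mem_sup.1 hw
    obtain ⟨x, hx, y, hy, rfl⟩ := Submodule.mem_sup.1 hw'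
    have hx' : x ∈ kr X N := by change x ∈ f6 N; rw [h6]; exact hx
    have hy' : y ∈ kr Y N := by change y ∈ f7 N; rw [h7]; exact hy
    have hz' : z ∈ kr Z N := by change z ∈ f8 N; rw [h8]; exact hz
    rw [map_add, map_add, map_add, map_add, ← mem_kr.1 hx, ← mem_kr.1 hy, ← mem_kr.1 hz,
      ← mem_kr.1 hx', ← mem_kr.1 hy', ← mem_kr.1 hz']
  have s8 := ncard_step g8 f8 S d8 _ (2 ^ p.r3 * q ^ e8) (by positivity) (by
    intro N0 h0
    have h0' : prof X Y Z N0 = p := h0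
    refine ⟨_, ?_, between_bound ((ZN X Y Z N0).map (addL F V))
      (annOn (kap X Y Z) ((kr X N0).prod (kr Y N0))) p.r3 e8 ?_⟩
    · intro N hN
      have h7 : kr Y N = kr Y N0 := congrArg Prod.snd hN
      have h6 : kr X N = kr X N0 := congrArg Prod.snd (p8 _ _ hN)
      have h5 : ZN X Y Z N = ZN X Y Z N0 := congrArg Prod.snd (p7 _ _ (p8 _ _ hN))
      have hp : prof X Y Z N = p := d8 _ _ hN h0
      refine ⟨h5 ▸ Z3_le X Y Z N, h6 ▸ h7 ▸ U3_le X Y Z N, ?_⟩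
      rw [← hp]; rfl
    · have h1 := finrank_Z3 X Y Z N0
      have h2 := finrank_A3 X Y Z N0
      have r1 : (prof X Y Z N0).r1 = k2 X N0 := rfl
      have r2 : (prof X Y Z N0).r2 = k2 Y N0 := rfl
      rw [h0'] at h1 h2 r1 r2
      simp only [e8]
      congr 1 <;> omega) s9
  have s7 := ncard_step g7 f7 S d7 _ (2 ^ p.r2 * q ^ e7) (by positivity) (by
    intro N0 h0
    have h0' : prof X Y Z N0 = p := h0
    refine ⟨_, ?_, between_bound ((ZN X Y Z N0).map (LinearMap.snd F V V))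
      (annOn (X.1 - Y.1) (kr X N0)) p.r2 e7 ?_⟩
    · intro N hN
      have h6 : kr X N = kr X N0 := congrArg Prod.snd hN
      have h5 : ZN X Y Z N = ZN X Y Z N0 := congrArg Prod.snd (p7 _ _ hN)
      have hp : prof X Y Z N = p := d7 _ _ hN h0
      refine ⟨h5 ▸ Z2_le X Y Z N, h6 ▸ U2_le X Y N, ?_⟩
      rw [← hp]; rfl
    · have h1 := finrank_Z2 X Y Z N0
      have h2 := finrank_A2 X Y N0
      have r1 : (prof X Y Z N0).r1 = k2 X N0 := rfl
      have r2 : (prof X Y Z N0).u12 = k3 X Y N0 := rfl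
      rw [h0'] at h1 r1 r2
      simp only [e7]
      congr 1 <;> omega) s8
  have s6 := ncard_step g6 f6 S d6 _ (2 ^ p.r1 * q ^ e6) (by positivity) (by
    intro N0 h0
    have h0' : prof X Y Z N0 = p := h0
    refine ⟨_, ?_, between_bound ((ZN X Y Z N0).map (LinearMap.fst F V V))
      (annOn (X.1 - Y.1) ((ZN X Y Z N0).map (LinearMap.snd F V V))) p.r1 e6 ?_⟩
    · intro N hN
      have h5 : ZN X Y Z N = ZN X Y Z N0 := congrArg Prod.snd hN
      have hp : prof X Y Z N = p := d6 _ _ hN h0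
      refine ⟨h5 ▸ Z1_le X Y Z N, h5 ▸ U1_le X Y Z N, ?_⟩
      rw [← hp]; rfl
    · have h1 := finrank_Z1 X Y Z N0
      have h2 := finrank_A1 X Y Z N0
      rw [h0'] at h1 h2
      simp only [e6]
      congr 1 <;> omega) s7
  have s5 := ncard_step g5 f5 S d5 _ (4 ^ p.z * q ^ e5) (by positivity) (by
    intro N0 h0
    have h0' : prof X Y Z N0 = p := h0
    have h := card_iso_amb hF X Y Z (ZN X Y Z N0 ⊓ radS X Y Z)
      (inf_le_left.trans (ZN_le_KK X Y Z N0)) p.z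
    have hzr : finrank F ↥(ZN X Y Z N0 ⊓ radS X Y Z) = p.zr := by rw [← h0']; rfl
    rw [hzr] at h
    refine ⟨_, ?_, h⟩
    intro N hN
    have h4 : ZN X Y Z N ⊓ radS X Y Z = ZN X Y Z N0 ⊓ radS X Y Z := congrArg Prod.snd hN
    have hp : prof X Y Z N = p := d5 _ _ hN h0
    refine ⟨ZN_le_KK X Y Z N, h4, ?_, ZN_iso X Y Z N⟩
    rw [← hp]; rfl) s6
  have s4 := ncard_step g4 f4 S d4 _ (2 ^ p.zr * q ^ e4) (by positivity) (by
    intro N0 h0
    have h0' : prof X Y Z N0 = p := h0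
    refine ⟨_, ?_, between_bound
      (tri (kr X Y ⊓ kr X N0) (kr X Z ⊓ kr X N0) (kr Y Z ⊓ kr Y N0)) (radS X Y Z) p.zr e4 ?_⟩
    · intro N hN
      have h3 : kr Y Z ⊓ kr Y N = kr Y Z ⊓ kr Y N0 := congrArg Prod.snd hN
      have h2 : kr X Z ⊓ kr X N = kr X Z ⊓ kr X N0 := congrArg Prod.snd (p4 _ _ hN)
      have h1 : kr X Y ⊓ kr X N = kr X Y ⊓ kr X N0 := congrArg Prod.snd (p3 _ _ (p4 _ _ hN))
      have hp : prof X Y Z N = p := d4 _ _ hN h0
      refine ⟨h1 ▸ h2 ▸ h3 ▸ tri_le X Y Z N, inf_le_right, ?_⟩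
      rw [← hp]; rfl
    · have h1 := finrank_Z0 X Y Z N0
      have h2 := finrank_radS X Y Z
      rw [h0'] at h1
      simp only [e4]
      congr 1 <;> omega) s5
  have ha0 : ∀ N0 ∈ S, finrank F ↥(kr X Y ⊓ kr X Z ⊓ kr X N0) = p.a0 := by
    intro N0 h0
    have h0' : prof X Y Z N0 = p := h0
    rw [← h0']; rfl
  have s3 := ncard_step g3 f3 S d3 _ (2 ^ p.u23 * q ^ e3) (by positivity) (by
    intro N0 h0
    refine ⟨_, ?_, between_bound (kr X Y ⊓ kr X Z ⊓ kr X N0) (kr Y Z) p.u23 e3 ?_⟩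
    · intro N hN
      have h1 : kr X Y ⊓ kr X Z ⊓ kr X N = kr X Y ⊓ kr X Z ⊓ kr X N0 :=
        congrArg Prod.snd (p2 _ _ (p3 _ _ hN))
      have hp : prof X Y Z N = p := d3 _ _ hN h0
      refine ⟨?_, inf_le_left, ?_⟩
      · rw [← h1, ← u_inf3]; exact inf_le_right
      · rw [← hp]; rfl
    · rw [ha0 N0 h0]; rfl) s4
  have s2 := ncard_step g2 f2 S d2 _ (2 ^ p.u13 * q ^ e2) (by positivity) (by
    intro N0 h0
    refine ⟨_, ?_, between_bound (kr X Y ⊓ kr X Z ⊓ kr X N0) (kr X Z) p.u13 e2 ?_⟩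
    · intro N hN
      have h1 : kr X Y ⊓ kr X Z ⊓ kr X N = kr X Y ⊓ kr X Z ⊓ kr X N0 :=
        congrArg Prod.snd (p2 _ _ hN)
      have hp : prof X Y Z N = p := d2 _ _ hN h0
      refine ⟨?_, inf_le_left, ?_⟩
      · rw [← h1, ← u_inf3]; exact inf_le_left.trans inf_le_right
      · rw [← hp]; rfl
    · rw [ha0 N0 h0]; rfl) s3
  have s1 := ncard_step g1 f1 S d1 _ (2 ^ p.u12 * q ^ e1) (by positivity) (by
    intro N0 h0
    refine ⟨_, ?_, between_bound (kr X Y ⊓ kr X Z ⊓ kr X N0) (kr X Y) p.u12 e1 ?_⟩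
    · intro N hN
      have h1 : kr X Y ⊓ kr X Z ⊓ kr X N = kr X Y ⊓ kr X Z ⊓ kr X N0 := congrArg Prod.snd hN
      have hp : prof X Y Z N = p := d1 _ _ hN h0
      refine ⟨?_, inf_le_left, ?_⟩
      · rw [← h1, ← u_inf3]; exact inf_le_left.trans inf_le_left
      · rw [← hp]; rfl
    · rw [ha0 N0 h0]; rfl) s2
  have s0 := ncard_step g0 f0 S d0 _ (2 ^ p.a0 * q ^ e0) (by positivity) (by
    intro N0 h0
    refine ⟨_, ?_, between_bound ⊥ (kr X Y ⊓ kr X Z) p.a0 e0 ?_⟩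
    · intro N hN
      exact ⟨bot_le, inf_le_left, ha0 N (d0 _ _ hN h0)⟩
    · rw [finrank_bot]; simp only [e0, Nat.cast_zero, sub_zero]; rfl) s1
  obtain ⟨N0, hN0⟩ := hne
  have hfin := s0 N0 hN0
  have hset : {x | g0 x = g0 N0} = {N | prof X Y Z N = p} := by
    ext N; simp only [g0, Set.mem_ofPred_eq, hN0]
  rw [hset] at hfin
  refine hfin.trans ?_
  have hfeas := prof_feas X Y Z N0
  rw [hN0] at hfeas
  have hval := valid_triple X Y Z
  have hexp : expo D c k12 k13 k23 p = e0 + (e1 + (e2 + (e3 + (e4 + (e5 + (e6 + (e7 + (e8 + e9)))))))) := by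
    simp only [expo, e0, e1, e2, e3, e4, e5, e6, e7, e8, e9]
    ring
  rw [hexp]
  simp only [zpow_add₀ hq0.ne']
  have hpow : (2 : ℝ) ^ p.a0 * 2 ^ p.u12 * 2 ^ p.u13 * 2 ^ p.u23 * 2 ^ p.zr * 4 ^ p.z * 2 ^ p.r1
      * 2 ^ p.r2 * 2 ^ p.r3 ≤ 2 ^ (13 * D) := by
    rw [show (4 : ℝ) = 2 ^ 2 by norm_num, ← pow_mul]
    simp only [← pow_add]
    apply pow_le_pow_right₀ (by norm_num)
    unfold Feas Valid at hfeas
    unfold Valid at hval
    omega
  calc _ = ((2 : ℝ) ^ p.a0 * 2 ^ p.u12 * 2 ^ p.u13 * 2 ^ p.u23 * 2 ^ p.zr * 4 ^ p.z * 2 ^ p.r1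
      * 2 ^ p.r2 * 2 ^ p.r3) * (q ^ e0 * (q ^ e1 * (q ^ e2 * (q ^ e3 * (q ^ e4 * (q ^ e5 *
        (q ^ e6 * (q ^ e7 * (q ^ e8 * q ^ (e9 : ℤ)))))))))) := by ring
    _ ≤ _ := mul_le_mul_of_nonneg_right hpow (by positivity)

omit [Fintype F] in
theorem common_inj (X Y M M' : SF F V) (hV : finrank F V = 10) (hXY : k2 X Y = 0)
    (hX : k2 X M = 5) (hY : k2 Y M = 5) (hY' : k2 Y M' = 5) (h : kr X M = kr X M') : M = M' := by
  have hu : k3 X Y M = 0 := by
    have := (valid_triple X Y M).1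
    omega
  have hA := finrank_A2 X Y M
  have e1 : kr Y M = annOn (X.1 - Y.1) (kr X M) :=
    Submodule.eq_of_le_of_finrank_eq (U2_le X Y M) (by unfold k2 at hY; omega)
  have e2 : kr Y M' = annOn (X.1 - Y.1) (kr X M) :=
    Submodule.eq_of_le_of_finrank_eq (h ▸ U2_le X Y M') (by unfold k2 at hY'; omega)
  have h1 := Submodule.finrank_sup_add_finrank_inf_eq (kr X M) (kr Y M)
  rw [kr_inf_kr] at h1
  have htop : kr X M ⊔ kr Y M = ⊤ :=
    Submodule.eq_top_of_finrank_eq (by unfold k2 at hX hY; unfold k3 at hu; omega)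
  apply Subtype.ext
  apply LinearMap.ext
  intro v
  have hv : v ∈ kr X M ⊔ kr Y M := htop ▸ Submodule.mem_top
  obtain ⟨x, hx, y, hy, rfl⟩ := Submodule.mem_sup.1 hv
  have hx' : x ∈ kr X M' := h ▸ hx
  have hy' : y ∈ kr Y M' := by rw [e2, ← e1]; exact hy
  rw [map_add, map_add, ← mem_kr.1 hx, ← mem_kr.1 hy, ← mem_kr.1 hx', ← mem_kr.1 hy']

end General

variable {F : Type} [Field F] [Fintype F] [DecidableEq F]

omit [Fintype F] [DecidableEq F] in
theorem finrank_VV : finrank F (VV F) = 10 := by simp [VV]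

omit [DecidableEq F] in
theorem card_common2_le (X Y : SS F) (hXY : k2 X Y = 0) :
    (({M : SS F | k2 X M = 5 ∧ k2 Y M = 5}.ncard : ℕ) : ℝ) * (1 - 1 / (Fintype.card F : ℝ)) ^ 5
      ≤ (Fintype.card F : ℝ) ^ 25 := by
  have h := card_between_le (⊥ : Submodule F (VV F)) ⊤ 5
  rw [finrank_bot, finrank_top, finrank_VV] at h
  refine le_trans (mul_le_mul_of_nonneg_right ?_ ?_) h
  · norm_cast
    apply Set.ncard_le_ncard_of_injOn (fun M => kr X M)
    · rintro M ⟨h1, _⟩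
      exact ⟨bot_le, le_top, h1⟩
    · rintro M ⟨h1, h2⟩ M' ⟨_, h2'⟩ h
      exact common_inj X Y M M' finrank_VV hXY h1 h2 h2' h
  · apply pow_nonneg
    have : (1 : ℝ) ≤ Fintype.card F := by exact_mod_cast Fintype.card_pos
    rw [sub_nonneg, div_le_one (by linarith)]
    exact this

omit [DecidableEq F] in
theorem card_common3_le (hF : ringChar F ≠ 2) (X Y Z : SS F) (hXY : k2 X Y = 0)
    (hXZ : k2 X Z = 0) (hYZ : k2 Y Z = 0) :
    (({M : SS F | k2 X M = 5 ∧ k2 Y M = 5 ∧ k2 Z M = 5}.ncard : ℕ) : ℝ) *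
      (1 - 1 / (Fintype.card F : ℝ)) ^ 5
      ≤ 2 * (1 + 1 / (Fintype.card F : ℝ)) ^ 4 * (Fintype.card F : ℝ) ^ 10 := by
  have hc : k3 X Y Z = 0 := by
    have := (valid_triple X Y Z).1
    omega
  have hrad : finrank F (radS X Y Z) = 0 := by
    have := finrank_radS X Y Z
    omega
  have hker : LinearMap.ker (bet X Y Z).1 = ⊥ := by
    rw [← Submodule.finrank_eq_zero, finrank_ker_bet, hrad]
  have h := card_iso_half_le hF (bet X Y Z) hker (by rw [finrank_KK, hc, finrank_VV])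
  have hz : ∀ M : SS F, k2 X M = 5 → k2 Y M = 5 → k2 Z M = 5 →
      (prof X Y Z M).z = 5 ∧ (prof X Y Z M).u23 = 0 := by
    intro M h1 h2 h3
    have hf := prof_feas X Y Z M
    have r1 : (prof X Y Z M).r1 = k2 X M := rfl
    have r2 : (prof X Y Z M).r2 = k2 Y M := rfl
    have r3 : (prof X Y Z M).r3 = k2 Z M := rfl
    rw [finrank_VV] at hf
    unfold Feas Valid at hf
    omega
  refine le_trans (mul_le_mul_of_nonneg_right ?_ ?_) h
  · norm_cast
    apply Set.ncard_le_ncard_of_injOn (fun M => (ZN X Y Z M).comap (KK X Y Z).subtype)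
    · rintro M ⟨h1, h2, h3⟩
      refine ⟨?_, fun a ha b hb => ZN_iso X Y Z M _ ha _ hb⟩
      rw [finrank_comap_subtype (ZN_le_KK X Y Z M)]
      exact (hz M h1 h2 h3).1
    · rintro M ⟨h1, h2, h3⟩ M' ⟨h1', h2', h3'⟩ h
      have h' := congrArg (Submodule.map (KK X Y Z).subtype) h
      simp only [Submodule.map_comap_subtype, inf_eq_right.2 (ZN_le_KK X Y Z M),
        inf_eq_right.2 (ZN_le_KK X Y Z M')] at h'
      have key : ∀ M : SS F, k2 X M = 5 → k2 Y M = 5 → k2 Z M = 5 →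
          (ZN X Y Z M).map (LinearMap.fst F _ _) = kr X M := by
        intro M h1 h2 h3
        have := finrank_Z1 X Y Z M
        have := hz M h1 h2 h3
        exact Submodule.eq_of_le_of_finrank_eq (Z1_le X Y Z M) (by unfold k2 at h1; omega)
      exact common_inj X Y M M' finrank_VV hXY h1 h2 h2'
        (by rw [← key M h1 h2 h3, ← key M' h1' h2' h3', h'])
  · apply pow_nonneg
    have : (1 : ℝ) ≤ Fintype.card F := by exact_mod_cast Fintype.card_pos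
    rw [sub_nonneg, div_le_one (by linarith)]
    exact this

end Vale.Agent.P050
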