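import Vale.Agent.P050.Iso

set_option maxSynthPendingDepth 3

namespace Vale.Agent.P050

open Module

section Lin

variable {F E V : Type} [Field F] [AddCommGroup E] [Module F E] [AddCommGroup V] [Module F V]

theorem finrank_map_add_inf_ker [Module.Finite F E] (f : E →ₗ[F] V) (W : Submodule F E) :
    finrank F (W.map f) + finrank F ↥(W ⊓ LinearMap.ker f) = finrank F W := by
  have h := LinearMap.finrank_range_add_finrank_ker (f.domRestrict W)
  rw [LinearMap.range_domRestrict, LinearMap.ker_domRestrict] at h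
  have h2 : finrank F ↥((LinearMap.ker f).comap W.subtype) = finrank F ↥(W ⊓ LinearMap.ker f) := by
    rw [← Submodule.finrank_map_subtype_eq W, Submodule.map_comap_subtype]
  rw [← h2]; exact h

/-- Vectors killed by all the functionals `φ w`, `w ∈ W`. -/
def annOn (φ : E →ₗ[F] Dual F V) (W : Submodule F E) : Submodule F V :=
  (W.map φ).dualCoannihilator

theorem mem_annOn {φ : E →ₗ[F] Dual F V} {W : Submodule F E} {v : V} :
    v ∈ annOn φ W ↔ ∀ w ∈ W, φ w v = 0 := by
  unfold annOn
  rw [Submodule.mem_dualCoannihilator]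
  constructor
  · intro h w hw
    exact h _ (Submodule.mem_map_of_mem hw)
  · rintro h _ ⟨w, hw, rfl⟩
    exact h w hw

theorem finrank_annOn [Module.Finite F E] [Module.Finite F V] (φ : E →ₗ[F] Dual F V)
    (W : Submodule F E) :
    finrank F (annOn φ W) + finrank F W
      = finrank F V + finrank F ↥(W ⊓ LinearMap.ker φ) := by
  have h1 := Subspace.finrank_add_finrank_dualCoannihilator_eq (W.map φ)
  have h2 := finrank_map_add_inf_ker φ W
  unfold annOn
  omega

theorem finrank_prod_sub [Module.Finite F E] [Module.Finite F V] (A : Submodule F E)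
    (B : Submodule F V) : finrank F (A.prod B) = finrank F A + finrank F B := by
  have h := finrank_map_add_inf_ker (LinearMap.fst F E V) (A.prod B)
  rw [Submodule.prod_map_fst] at h
  have h2 : A.prod B ⊓ LinearMap.ker (LinearMap.fst F E V) = B.map (LinearMap.inr F E V) := by
    ext ⟨x, y⟩
    simp only [Submodule.mem_inf, Submodule.mem_prod, LinearMap.mem_ker, LinearMap.fst_apply,
      Submodule.mem_map, LinearMap.inr_apply, Prod.mk.injEq]
    constructor
    · rintro ⟨⟨_, hy⟩, rfl⟩
      exact ⟨y, hy, rfl, rfl⟩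
    · rintro ⟨w, hw, rfl, rfl⟩
      exact ⟨⟨A.zero_mem, hw⟩, rfl⟩
  rw [h2, ← (Submodule.equivMapOfInjective _ LinearMap.inr_injective B).finrank_eq] at h
  omega

/-- The antidiagonal embedding. -/
def adiag (F V : Type) [Field F] [AddCommGroup V] [Module F V] : V →ₗ[F] V × V :=
  LinearMap.prod LinearMap.id (-LinearMap.id)

@[simp] theorem adiag_apply (v : V) : adiag F V v = (v, -v) := rfl

theorem adiag_injective : Function.Injective (adiag F V) := by
  intro a b h
  simpa using congrArg Prod.fst h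

/-- The span of the antidiagonal of `A` and of `B × C`. -/
def tri (A B C : Submodule F V) : Submodule F (V × V) := A.map (adiag F V) ⊔ B.prod C

theorem mem_tri {A B C : Submodule F V} {x y : V} :
    (x, y) ∈ tri A B C ↔ ∃ w ∈ A, x - w ∈ B ∧ y + w ∈ C := by
  unfold tri
  rw [Submodule.mem_sup]
  constructor
  · rintro ⟨_, ⟨w, hw, rfl⟩, ⟨b, c⟩, hbc, h⟩
    rw [Submodule.mem_prod] at hbc
    simp only [adiag_apply, Prod.mk_add_mk, Prod.mk.injEq] at h
    refine ⟨w, hw, ?_, ?_⟩
    · rw [← h.1]; simpa using hbc.1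
    · rw [← h.2]; simpa using hbc.2
  · rintro ⟨w, hw, hb, hc⟩
    refine ⟨_, ⟨w, hw, rfl⟩, (x - w, y + w), Submodule.mem_prod.2 ⟨hb, hc⟩, ?_⟩
    simp

theorem finrank_tri [Module.Finite F V] (A B C : Submodule F V) :
    finrank F (tri A B C) + finrank F ↥(A ⊓ B ⊓ C)
      = finrank F A + finrank F B + finrank F C := by
  have h := Submodule.finrank_sup_add_finrank_inf_eq (A.map (adiag F V)) (B.prod C)
  have h2 : A.map (adiag F V) ⊓ B.prod C = (A ⊓ B ⊓ C).map (adiag F V) := by
    ext ⟨x, y⟩
    simp only [Submodule.mem_inf, Submodule.mem_map, adiag_apply, Prod.mk.injEq,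
      Submodule.mem_prod]
    constructor
    · rintro ⟨⟨w, hw, rfl, rfl⟩, hb, hc⟩
      exact ⟨w, ⟨⟨hw, hb⟩, by simpa using hc⟩, rfl, rfl⟩
    · rintro ⟨w, ⟨⟨ha, hb⟩, hc⟩, rfl, rfl⟩
      exact ⟨⟨w, ha, rfl, rfl⟩, hb, C.neg_mem hc⟩
  rw [h2, ← (Submodule.equivMapOfInjective _ adiag_injective _).finrank_eq,
    ← (Submodule.equivMapOfInjective _ adiag_injective _).finrank_eq, finrank_prod_sub] at h
  unfold tri
  omega

end Lin

section Three

variable {F V : Type} [Field F] [AddCommGroup V] [Module F V]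

/-- The map whose kernel is the space of triples summing to zero. -/
def kap (X Y Z : SF F V) : V × V →ₗ[F] Dual F V :=
  (X.1 - Z.1) ∘ₗ LinearMap.fst F V V + (Y.1 - Z.1) ∘ₗ LinearMap.snd F V V

theorem kap_apply (X Y Z : SF F V) (x y v : V) :
    kap X Y Z (x, y) v = X.1 x v - Z.1 x v + (Y.1 y v - Z.1 y v) := by
  simp [kap]

/-- The space of triples summing to zero. -/
def KK (X Y Z : SF F V) : Submodule F (V × V) := LinearMap.ker (kap X Y Z)

theorem mem_KK {X Y Z : SF F V} {x y : V} :
    (x, y) ∈ KK X Y Z ↔ ∀ v, X.1 x v + Y.1 y v = Z.1 x v + Z.1 y v := by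
  unfold KK
  rw [LinearMap.mem_ker]
  constructor
  · intro h v
    have := congrArg (fun f : Dual F V => f v) h
    simp only [kap_apply, LinearMap.zero_apply] at this
    linear_combination this
  · intro h
    ext v
    rw [kap_apply, LinearMap.zero_apply]
    linear_combination h v

theorem mem_kr' {X Y : SF F V} {v : V} : v ∈ kr X Y ↔ ∀ w, X.1 v w = Y.1 v w := by
  rw [mem_kr]
  exact ⟨fun h w => by rw [h], fun h => LinearMap.ext h⟩

/-- The form of Kashiwara type on `V × V`. -/
def bigB (X Y Z : SF F V) : SF F (V × V) :=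
  ⟨(X.1 - Z.1).compl₁₂ (LinearMap.fst F V V) (LinearMap.fst F V V)
      - (Y.1 - Z.1).compl₁₂ (LinearMap.snd F V V) (LinearMap.snd F V V), by
    intro a b
    simp only [LinearMap.sub_apply, LinearMap.compl₁₂_apply, LinearMap.fst_apply,
      LinearMap.snd_apply]
    rw [SF.symm X a.1, SF.symm Y a.2, SF.symm Z a.1, SF.symm Z a.2]⟩

theorem bigB_apply (X Y Z : SF F V) (a b : V × V) :
    (bigB X Y Z).1 a b = X.1 a.1 b.1 - Z.1 a.1 b.1 - (Y.1 a.2 b.2 - Z.1 a.2 b.2) := by
  simp [bigB]

/-- The restriction of the form to the space of triples. -/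
def bet (X Y Z : SF F V) : SF F (KK X Y Z) :=
  ⟨(bigB X Y Z).1.compl₁₂ (KK X Y Z).subtype (KK X Y Z).subtype, by
    intro a b
    simp only [LinearMap.compl₁₂_apply]
    exact SF.symm (bigB X Y Z) _ _⟩

theorem bet_apply (X Y Z : SF F V) (a b : KK X Y Z) :
    (bet X Y Z).1 a b = (bigB X Y Z).1 a.1 b.1 := rfl

/-- The radical, as a subspace of `V × V`. -/
def radS (X Y Z : SF F V) : Submodule F (V × V) := tri (kr X Y) (kr X Z) (kr Y Z)

theorem radS_le_KK (X Y Z : SF F V) : radS X Y Z ≤ KK X Y Z := by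
  rintro ⟨x, y⟩ h
  obtain ⟨w, hw, hb, hc⟩ := mem_tri.1 h
  rw [mem_KK]
  intro v
  have h1 := mem_kr'.1 hw v
  have h2 := mem_kr'.1 hb v
  have h3 := mem_kr'.1 hc v
  simp only [map_sub, map_add, LinearMap.sub_apply, LinearMap.add_apply] at h2 h3
  linear_combination h1 + h2 + h3

theorem kr_inf_left (X Y Z : SF F V) : kr X Z ⊓ kr Y Z = kr X Y ⊓ kr X Z := by
  ext v
  simp only [Submodule.mem_inf, mem_kr]
  constructor
  · rintro ⟨h1, h2⟩; exact ⟨h1.trans h2.symm, h1⟩
  · rintro ⟨h1, h2⟩; exact ⟨h2, h1.symm.trans h2⟩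

theorem kr_inf3 (X Y Z : SF F V) : kr X Y ⊓ kr X Z ⊓ kr Y Z = kr X Y ⊓ kr X Z := by
  apply inf_eq_left.2
  intro v hv
  simp only [Submodule.mem_inf, mem_kr] at hv ⊢
  exact hv.1.symm.trans hv.2

variable [Module.Finite F V]

theorem finrank_KK (X Y Z : SF F V) : finrank F (KK X Y Z) = finrank F V + k3 X Y Z := by
  have h := finrank_annOn (kap X Y Z) ⊤
  have h2 : annOn (kap X Y Z) ⊤ = kr X Y ⊓ kr X Z := by
    rw [← kr_inf_left]
    ext v
    rw [mem_annOn, Submodule.mem_inf, mem_kr', mem_kr']
    constructor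
    · intro h
      constructor
      · intro w
        have := h (w, 0) trivial
        rw [kap_apply] at this
        simp only [map_zero, LinearMap.zero_apply] at this
        rw [SF.symm X v, SF.symm Z v]
        linear_combination this
      · intro w
        have := h (0, w) trivial
        rw [kap_apply] at this
        simp only [map_zero, LinearMap.zero_apply] at this
        rw [SF.symm Y v, SF.symm Z v]
        linear_combination this
    · rintro ⟨h1, h2⟩ ⟨x, y⟩ _
      rw [kap_apply, SF.symm X x, SF.symm Y y, SF.symm Z x, SF.symm Z y, h1, h2]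
      ring
  rw [h2, top_inf_eq, finrank_top, Module.finrank_prod] at h
  unfold k3 KK
  omega

theorem finrank_radS (X Y Z : SF F V) :
    finrank F (radS X Y Z) + k3 X Y Z = k2 X Y + k2 X Z + k2 Y Z := by
  have h := finrank_tri (kr X Y) (kr X Z) (kr Y Z)
  rw [kr_inf3] at h
  exact h

theorem ker_bet (X Y Z : SF F V) :
    LinearMap.ker (bet X Y Z).1 = (radS X Y Z).comap (KK X Y Z).subtype := by
  ext ⟨⟨x, y⟩, hxy⟩
  rw [LinearMap.mem_ker, Submodule.mem_comap, Submodule.subtype_apply]
  constructor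
  · intro h
    have hmem : (bigB X Y Z).1 (x, y) ∈ (LinearMap.ker (kap X Y Z)).dualAnnihilator := by
      rw [Submodule.mem_dualAnnihilator]
      intro b hb
      have := congrArg (fun f : Dual F (KK X Y Z) => f ⟨b, hb⟩) h
      exact this
    rw [← LinearMap.range_dualMap_eq_dualAnnihilator_ker] at hmem
    obtain ⟨ψ, hψ⟩ := hmem
    obtain ⟨w, rfl⟩ := (Module.evalEquiv F V).surjective ψ
    have hw : ∀ a : V × V, kap X Y Z a w = (bigB X Y Z).1 (x, y) a := by
      intro a
      have := congrArg (fun f : Dual F (V × V) => f a) hψ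
      simpa using this
    have hb : x - w ∈ kr X Z := by
      rw [mem_kr']
      intro v
      have := hw (v, 0)
      rw [kap_apply, bigB_apply] at this
      simp only [map_zero, LinearMap.zero_apply] at this
      simp only [map_sub, LinearMap.sub_apply]
      rw [SF.symm X w, SF.symm Z w]
      linear_combination -this
    have hc : y + w ∈ kr Y Z := by
      rw [mem_kr']
      intro v
      have := hw (0, v)
      rw [kap_apply, bigB_apply] at this
      simp only [map_zero, LinearMap.zero_apply] at this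
      simp only [map_add, LinearMap.add_apply]
      rw [SF.symm Y w, SF.symm Z w]
      linear_combination this
    refine mem_tri.2 ⟨w, ?_, hb, hc⟩
    rw [mem_kr']
    intro v
    have h1 := mem_KK.1 hxy v
    have h2 := mem_kr'.1 hb v
    have h3 := mem_kr'.1 hc v
    simp only [map_sub, map_add, LinearMap.sub_apply, LinearMap.add_apply] at h2 h3
    linear_combination h1 - h2 - h3
  · intro h
    obtain ⟨w, hw, hb, hc⟩ := mem_tri.1 h
    ext ⟨⟨x', y'⟩, hxy'⟩
    rw [bet_apply, bigB_apply, LinearMap.zero_apply]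
    have h1 := mem_KK.1 hxy' w
    have h2 := mem_kr'.1 hb x'
    have h3 := mem_kr'.1 hc y'
    simp only [map_sub, map_add, LinearMap.sub_apply, LinearMap.add_apply] at h2 h3
    rw [SF.symm X w, SF.symm Z w] at h2
    rw [SF.symm Y w, SF.symm Z w] at h3
    simp only
    linear_combination h1 + h2 - h3

theorem finrank_comap_subtype {E : Type} [AddCommGroup E] [Module F E] {A K : Submodule F E}
    (h : A ≤ K) : finrank F (A.comap K.subtype) = finrank F A :=
  (Submodule.comapSubtypeEquivOfLe h).finrank_eq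

theorem finrank_ker_bet (X Y Z : SF F V) :
    finrank F (LinearMap.ker (bet X Y Z).1) = finrank F (radS X Y Z) := by
  rw [ker_bet, finrank_comap_subtype (radS_le_KK X Y Z)]

theorem iso_amb (X Y Z : SF F V) (W : Submodule F (V × V)) (hW : W ≤ KK X Y Z)
    (hiso : IsIso (bigB X Y Z) W) :
    2 * finrank F W + finrank F (radS X Y Z)
      ≤ finrank F V + k3 X Y Z + 2 * finrank F ↥(W ⊓ radS X Y Z) := by
  have h := iso_two_mul_le (bet X Y Z) (W.comap (KK X Y Z).subtype)
    (fun a ha b hb => hiso _ ha _ hb)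
  rw [ker_bet, ← Submodule.comap_inf, finrank_comap_subtype hW,
    finrank_comap_subtype (radS_le_KK X Y Z), finrank_comap_subtype (inf_le_left.trans hW),
    finrank_KK] at h
  exact h

theorem valid_triple' (X Y Z : SF F V) :
    Valid (finrank F V) (k3 X Y Z) (k2 X Y) (k2 X Z) (k2 Y Z) := by
  have h1 := finrank_radS X Y Z
  have h2 := finrank_KK X Y Z
  have h3 := Submodule.finrank_mono (radS_le_KK X Y Z)
  refine ⟨Submodule.finrank_mono inf_le_left, Submodule.finrank_mono inf_le_right, ?_,
    Submodule.finrank_le _, Submodule.finrank_le _, Submodule.finrank_le _, by omega⟩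
  unfold k3 k2
  rw [← kr_inf_left]
  exact Submodule.finrank_mono inf_le_right

end Three

end Vale.Agent.P050
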