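import Vale.Agent.P050.TripleLin

set_option maxSynthPendingDepth 3

namespace Vale.Agent.P050

open Module

variable {F V : Type} [Field F] [AddCommGroup V] [Module F V]

/-- The triples summing to zero whose members lie in the three kernels. -/
def ZN (X Y Z N : SF F V) : Submodule F (V × V) := (kr X N).prod (kr Y N) ⊓ KK X Y Z

/-- The addition map. -/
def addL (F V : Type) [Field F] [AddCommGroup V] [Module F V] : V × V →ₗ[F] V :=
  LinearMap.fst F V V + LinearMap.snd F V V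

@[simp] theorem addL_apply (a : V × V) : addL F V a = a.1 + a.2 := rfl

theorem mem_ZN {X Y Z N : SF F V} {x y : V} :
    (x, y) ∈ ZN X Y Z N ↔ x ∈ kr X N ∧ y ∈ kr Y N ∧ x + y ∈ kr Z N := by
  unfold ZN
  rw [Submodule.mem_inf, Submodule.mem_prod, mem_KK]
  simp only [mem_kr', map_add, LinearMap.add_apply]
  constructor
  · rintro ⟨⟨h1, h2⟩, h3⟩
    exact ⟨h1, h2, fun w => by linear_combination h1 w + h2 w - h3 w⟩
  · rintro ⟨h1, h2, h3⟩
    exact ⟨⟨h1, h2⟩, fun w => by linear_combination h1 w + h2 w - h3 w⟩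

theorem ZN_le_KK (X Y Z N : SF F V) : ZN X Y Z N ≤ KK X Y Z := inf_le_right

theorem ZN_iso (X Y Z N : SF F V) : IsIso (bigB X Y Z) (ZN X Y Z N) := by
  rintro ⟨x, y⟩ h ⟨x', y'⟩ h'
  obtain ⟨h1, h2, h3⟩ := mem_ZN.1 h
  obtain ⟨h1', h2', h3'⟩ := mem_ZN.1 h'
  rw [bigB_apply]
  have a1 := mem_kr'.1 h1 x'
  have a2 := mem_kr'.1 h2 y'
  have a3 := mem_kr'.1 h3 x'
  have a4 := mem_kr'.1 h3' y
  simp only [map_add, LinearMap.add_apply] at a3 a4
  rw [SF.symm Z x' y, SF.symm Z y' y, SF.symm N x' y, SF.symm N y' y] at a4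
  simp only
  linear_combination a1 - a2 - a3 + a4

/-- The profile of `N` relative to `X`, `Y`, `Z`. -/
noncomputable def prof (X Y Z N : SF F V) : Prof where
  a0 := finrank F ↥(kr X Y ⊓ kr X Z ⊓ kr X N)
  u12 := k3 X Y N
  u13 := k3 X Z N
  u23 := k3 Y Z N
  zr := finrank F ↥(ZN X Y Z N ⊓ radS X Y Z)
  z := finrank F (ZN X Y Z N)
  r1 := k2 X N
  r2 := k2 Y N
  r3 := k2 Z N

theorem u_inf3 (X Y Z N : SF F V) :
    (kr X Y ⊓ kr X N) ⊓ (kr X Z ⊓ kr X N) ⊓ (kr Y Z ⊓ kr Y N) = kr X Y ⊓ kr X Z ⊓ kr X N := by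
  ext v
  simp only [Submodule.mem_inf, mem_kr]
  constructor
  · rintro ⟨⟨⟨h1, h2⟩, h3, _⟩, _⟩
    exact ⟨⟨h1, h3⟩, h2⟩
  · rintro ⟨⟨h1, h2⟩, h3⟩
    exact ⟨⟨⟨h1, h3⟩, h2, h3⟩, h1.symm.trans h2, h1.symm.trans h3⟩

theorem tri_le (X Y Z N : SF F V) :
    tri (kr X Y ⊓ kr X N) (kr X Z ⊓ kr X N) (kr Y Z ⊓ kr Y N) ≤ ZN X Y Z N ⊓ radS X Y Z := by
  rintro ⟨x, y⟩ h
  obtain ⟨w, hw, hb, hc⟩ := mem_tri.1 h
  refine ⟨mem_ZN.2 ⟨?_, ?_, ?_⟩, mem_tri.2 ⟨w, hw.1, hb.1, hc.1⟩⟩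
  · have := (kr X N).add_mem hb.2 hw.2
    simpa using this
  · have hw' : w ∈ kr Y N := mem_kr.2 ((mem_kr.1 hw.1).symm.trans (mem_kr.1 hw.2))
    have := (kr Y N).sub_mem hc.2 hw'
    simpa using this
  · have h1 : x - w ∈ kr Z N := mem_kr.2 ((mem_kr.1 hb.1).symm.trans (mem_kr.1 hb.2))
    have h2 : y + w ∈ kr Z N := mem_kr.2 ((mem_kr.1 hc.1).symm.trans (mem_kr.1 hc.2))
    have := (kr Z N).add_mem h1 h2
    simpa using this

theorem Z1_le (X Y Z N : SF F V) : (ZN X Y Z N).map (LinearMap.fst F V V) ≤ kr X N := by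
  rintro _ ⟨⟨x, y⟩, h, rfl⟩
  exact (mem_ZN.1 h).1

theorem Z2_le (X Y Z N : SF F V) : (ZN X Y Z N).map (LinearMap.snd F V V) ≤ kr Y N := by
  rintro _ ⟨⟨x, y⟩, h, rfl⟩
  exact (mem_ZN.1 h).2.1

theorem Z3_le (X Y Z N : SF F V) : (ZN X Y Z N).map (addL F V) ≤ kr Z N := by
  rintro _ ⟨⟨x, y⟩, h, rfl⟩
  exact (mem_ZN.1 h).2.2

theorem U1_le (X Y Z N : SF F V) :
    kr X N ≤ annOn (X.1 - Y.1) ((ZN X Y Z N).map (LinearMap.snd F V V)) := by
  intro v hv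
  rw [mem_annOn]
  intro y hy
  have h1 := mem_kr'.1 (Z2_le X Y Z N hy) v
  have h2 := mem_kr'.1 hv y
  rw [SF.symm X v, SF.symm N v] at h2
  simp only [LinearMap.sub_apply]
  linear_combination h2 - h1

theorem U2_le (X Y N : SF F V) : kr Y N ≤ annOn (X.1 - Y.1) (kr X N) := by
  intro v hv
  rw [mem_annOn]
  intro u hu
  have h1 := mem_kr'.1 hu v
  have h2 := mem_kr'.1 hv u
  rw [SF.symm Y v, SF.symm N v] at h2
  simp only [LinearMap.sub_apply]
  linear_combination h1 - h2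

theorem U3_le (X Y Z N : SF F V) :
    kr Z N ≤ annOn (kap X Y Z) ((kr X N).prod (kr Y N)) := by
  intro v hv
  rw [mem_annOn]
  rintro ⟨x, y⟩ hxy
  rw [Submodule.mem_prod] at hxy
  have h1 := mem_kr'.1 hxy.1 v
  have h2 := mem_kr'.1 hxy.2 v
  have h3 := mem_kr'.1 hv x
  have h4 := mem_kr'.1 hv y
  rw [SF.symm Z v, SF.symm N v] at h3 h4
  rw [kap_apply]
  simp only at h1 h2
  linear_combination h1 + h2 - h3 - h4

theorem kr_inf_kr (X Y N : SF F V) : kr X N ⊓ kr Y N = kr X Y ⊓ kr X N := kr_inf_left X Y N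

variable [Module.Finite F V]

theorem finrank_Z0 (X Y Z N : SF F V) :
    finrank F (tri (kr X Y ⊓ kr X N) (kr X Z ⊓ kr X N) (kr Y Z ⊓ kr Y N)) + (prof X Y Z N).a0
      = (prof X Y Z N).u12 + (prof X Y Z N).u13 + (prof X Y Z N).u23 := by
  have h := finrank_tri (kr X Y ⊓ kr X N) (kr X Z ⊓ kr X N) (kr Y Z ⊓ kr Y N)
  rw [u_inf3] at h
  exact h

theorem finrank_Z1 (X Y Z N : SF F V) :
    finrank F ((ZN X Y Z N).map (LinearMap.fst F V V)) + (prof X Y Z N).u23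
      = (prof X Y Z N).z := by
  have h := finrank_map_add_inf_ker (LinearMap.fst F V V) (ZN X Y Z N)
  have h2 : ZN X Y Z N ⊓ LinearMap.ker (LinearMap.fst F V V)
      = (kr Y Z ⊓ kr Y N).map (LinearMap.inr F V V) := by
    rw [← kr_inf_kr]
    ext ⟨x, y⟩
    simp only [Submodule.mem_inf, mem_ZN, LinearMap.mem_ker, LinearMap.fst_apply,
      Submodule.mem_map, LinearMap.inr_apply, Prod.mk.injEq]
    constructor
    · rintro ⟨⟨_, h2, h3⟩, rfl⟩
      exact ⟨y, ⟨h2, by simpa using h3⟩, rfl, rfl⟩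
    · rintro ⟨w, ⟨h2, h3⟩, rfl, rfl⟩
      exact ⟨⟨Submodule.zero_mem _, h2, by simpa using h3⟩, rfl⟩
  rw [h2, ← (Submodule.equivMapOfInjective _ LinearMap.inr_injective _).finrank_eq] at h
  exact h

theorem finrank_Z2 (X Y Z N : SF F V) :
    finrank F ((ZN X Y Z N).map (LinearMap.snd F V V)) + (prof X Y Z N).u13
      = (prof X Y Z N).z := by
  have h := finrank_map_add_inf_ker (LinearMap.snd F V V) (ZN X Y Z N)
  have h2 : ZN X Y Z N ⊓ LinearMap.ker (LinearMap.snd F V V)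
      = (kr X Z ⊓ kr X N).map (LinearMap.inl F V V) := by
    rw [← kr_inf_kr]
    ext ⟨x, y⟩
    simp only [Submodule.mem_inf, mem_ZN, LinearMap.mem_ker, LinearMap.snd_apply,
      Submodule.mem_map, LinearMap.inl_apply, Prod.mk.injEq]
    constructor
    · rintro ⟨⟨h1, _, h3⟩, rfl⟩
      exact ⟨x, ⟨h1, by simpa using h3⟩, rfl, rfl⟩
    · rintro ⟨w, ⟨h2, h3⟩, rfl, rfl⟩
      exact ⟨⟨h2, Submodule.zero_mem _, by simpa using h3⟩, rfl⟩
  rw [h2, ← (Submodule.equivMapOfInjective _ LinearMap.inl_injective _).finrank_eq] at h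
  exact h

theorem finrank_Z3 (X Y Z N : SF F V) :
    finrank F ((ZN X Y Z N).map (addL F V)) + (prof X Y Z N).u12 = (prof X Y Z N).z := by
  have h := finrank_map_add_inf_ker (addL F V) (ZN X Y Z N)
  have h2 : ZN X Y Z N ⊓ LinearMap.ker (addL F V) = (kr X Y ⊓ kr X N).map (adiag F V) := by
    rw [← kr_inf_kr]
    ext ⟨x, y⟩
    simp only [Submodule.mem_inf, mem_ZN, LinearMap.mem_ker, addL_apply,
      Submodule.mem_map, adiag_apply, Prod.mk.injEq]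
    constructor
    · rintro ⟨⟨h1, h2, _⟩, h4⟩
      have hy : y = -x := eq_neg_of_add_eq_zero_right h4
      subst hy
      exact ⟨x, ⟨h1, by simpa using h2⟩, rfl, rfl⟩
    · rintro ⟨w, ⟨h2, h3⟩, rfl, rfl⟩
      exact ⟨⟨h2, Submodule.neg_mem _ h3, by simp⟩, by simp⟩
  rw [h2, ← (Submodule.equivMapOfInjective _ adiag_injective _).finrank_eq] at h
  exact h

theorem finrank_A1 (X Y Z N : SF F V) :
    finrank F (annOn (X.1 - Y.1) ((ZN X Y Z N).map (LinearMap.snd F V V))) + (prof X Y Z N).z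
      = finrank F V + (prof X Y Z N).u12 + (prof X Y Z N).u13 := by
  have h := finrank_annOn (X.1 - Y.1) ((ZN X Y Z N).map (LinearMap.snd F V V))
  have h2 : (ZN X Y Z N).map (LinearMap.snd F V V) ⊓ LinearMap.ker (X.1 - Y.1)
      = kr X Y ⊓ kr X N := by
    apply le_antisymm
    · rintro v ⟨h1, h2⟩
      have h3 := Z2_le X Y Z N h1
      exact ⟨h2, mem_kr.2 ((mem_kr.1 h2).trans (mem_kr.1 h3))⟩
    · rintro v ⟨h1, h2⟩
      have h3 : v ∈ kr Y N := mem_kr.2 ((mem_kr.1 h1).symm.trans (mem_kr.1 h2))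
      exact ⟨⟨(-v, v), mem_ZN.2 ⟨Submodule.neg_mem _ h2, h3, by simp⟩, rfl⟩, h1⟩
  rw [h2] at h
  have h3 := finrank_Z2 X Y Z N
  have h4 : (prof X Y Z N).u12 = finrank F ↥(kr X Y ⊓ kr X N) := rfl
  omega

theorem finrank_A2 (X Y N : SF F V) :
    finrank F (annOn (X.1 - Y.1) (kr X N)) + k2 X N = finrank F V + k3 X Y N := by
  have h := finrank_annOn (X.1 - Y.1) (kr X N)
  rw [inf_comm] at h
  exact h

theorem finrank_A3 (X Y Z N : SF F V) :
    finrank F (annOn (kap X Y Z) ((kr X N).prod (kr Y N))) + (k2 X N + k2 Y N)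
      = finrank F V + (prof X Y Z N).z := by
  have h := finrank_annOn (kap X Y Z) ((kr X N).prod (kr Y N))
  rw [finrank_prod_sub] at h
  exact h

theorem finrank_W (X Y Z N : SF F V) :
    finrank F ↥(kr X N ⊔ kr Y N ⊔ kr Z N) + (prof X Y Z N).z = k2 X N + k2 Y N + k2 Z N := by
  have h1 := Submodule.finrank_sup_add_finrank_inf_eq (kr X N) (kr Y N)
  have h2 := Submodule.finrank_sup_add_finrank_inf_eq (kr X N ⊔ kr Y N) (kr Z N)
  have h3 : (kr X N ⊔ kr Y N) ⊓ kr Z N = (ZN X Y Z N).map (addL F V) := by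
    apply le_antisymm
    · rintro v ⟨h1, h2⟩
      obtain ⟨x, hx, y, hy, rfl⟩ := Submodule.mem_sup.1 h1
      exact ⟨(x, y), mem_ZN.2 ⟨hx, hy, h2⟩, rfl⟩
    · rintro _ ⟨⟨x, y⟩, h, rfl⟩
      obtain ⟨h1, h2, h3⟩ := mem_ZN.1 h
      exact ⟨Submodule.add_mem_sup h1 h2, h3⟩
  rw [h3] at h2
  rw [kr_inf_kr] at h1
  have h4 := finrank_Z3 X Y Z N
  have h5 : (prof X Y Z N).u12 = finrank F ↥(kr X Y ⊓ kr X N) := rfl
  unfold k2
  omega

theorem u_add_le (A B C : Submodule F V) (hA : A ≤ C) (hB : B ≤ C) :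
    finrank F A + finrank F B ≤ finrank F C + finrank F ↥(A ⊓ B) := by
  have h1 := Submodule.finrank_sup_add_finrank_inf_eq A B
  have h2 := Submodule.finrank_mono (sup_le hA hB)
  omega

theorem prof_feas (X Y Z N : SF F V) :
    Feas (finrank F V) (k3 X Y Z) (k2 X Y) (k2 X Z) (k2 Y Z) (prof X Y Z N) := by
  have hZ0 := finrank_Z0 X Y Z N
  have hZ0' := Submodule.finrank_mono (tri_le X Y Z N)
  have hR := finrank_radS X Y Z
  have hzr : (prof X Y Z N).zr ≤ finrank F (radS X Y Z) := Submodule.finrank_mono inf_le_right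
  have hiso := iso_amb X Y Z _ (ZN_le_KK X Y Z N) (ZN_iso X Y Z N)
  have h1 := finrank_Z1 X Y Z N
  have h2 := finrank_Z2 X Y Z N
  have h3 := finrank_Z3 X Y Z N
  have h1' := Submodule.finrank_mono (Z1_le X Y Z N)
  have h2' := Submodule.finrank_mono (Z2_le X Y Z N)
  have h3' := Submodule.finrank_mono (Z3_le X Y Z N)
  have hW := finrank_W X Y Z N
  have hW' := Submodule.finrank_le (kr X N ⊔ kr Y N ⊔ kr Z N)
  have e12 : (kr X Y ⊓ kr X N) ⊓ (kr X Y ⊓ kr X Z) = kr X Y ⊓ kr X Z ⊓ kr X N := by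
    ext v; simp only [Submodule.mem_inf]; tauto
  have e13 : (kr X Z ⊓ kr X N) ⊓ (kr X Y ⊓ kr X Z) = kr X Y ⊓ kr X Z ⊓ kr X N := by
    ext v; simp only [Submodule.mem_inf]; tauto
  have e23 : (kr Y Z ⊓ kr Y N) ⊓ (kr X Y ⊓ kr X Z) = kr X Y ⊓ kr X Z ⊓ kr X N := by
    ext v
    simp only [Submodule.mem_inf, mem_kr]
    constructor
    · rintro ⟨⟨_, h2⟩, h3, h4⟩
      exact ⟨⟨h3, h4⟩, h3.trans h2⟩
    · rintro ⟨⟨h1, h2⟩, h3⟩
      exact ⟨⟨h1.symm.trans h2, h1.symm.trans h3⟩, h1, h2⟩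
  have g12 := u_add_le (kr X Y ⊓ kr X N) (kr X Y ⊓ kr X Z) (kr X Y) inf_le_left inf_le_left
  have g13 := u_add_le (kr X Z ⊓ kr X N) (kr X Y ⊓ kr X Z) (kr X Z) inf_le_left inf_le_right
  have g23 := u_add_le (kr Y Z ⊓ kr Y N) (kr X Y ⊓ kr X Z) (kr Y Z) inf_le_left
    (by rw [← kr_inf_left]; exact inf_le_right)
  rw [e12] at g12
  rw [e13] at g13
  rw [e23] at g23
  refine ⟨valid_triple' X Y N, valid_triple' X Z N, valid_triple' Y Z N,
    Submodule.finrank_mono inf_le_left, ?_, ?_, ?_, g12, g13, g23, ?_, ?_,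
    Submodule.finrank_mono inf_le_left, ?_, ?_, ?_, ?_, ?_⟩
  · exact Submodule.finrank_mono (e12 ▸ inf_le_left)
  · exact Submodule.finrank_mono (e13 ▸ inf_le_left)
  · exact Submodule.finrank_mono (e23 ▸ inf_le_left)
  · have : (prof X Y Z N).zr = finrank F ↥(ZN X Y Z N ⊓ radS X Y Z) := rfl
    omega
  · omega
  · have : (prof X Y Z N).zr = finrank F ↥(ZN X Y Z N ⊓ radS X Y Z) := rfl
    have : (prof X Y Z N).z = finrank F ↥(ZN X Y Z N) := rfl
    omega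
  · have : (prof X Y Z N).r1 = finrank F ↥(kr X N) := rfl
    omega
  · have : (prof X Y Z N).r2 = finrank F ↥(kr Y N) := rfl
    omega
  · have : (prof X Y Z N).r3 = finrank F ↥(kr Z N) := rfl
    omega
  · have : (prof X Y Z N).r1 = k2 X N := rfl
    have : (prof X Y Z N).r2 = k2 Y N := rfl
    have : (prof X Y Z N).r3 = k2 Z N := rfl
    omega

end Vale.Agent.P050
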